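import Vale.Agent.P346.K.DegK

/-!
# P346 (all finite fields): affine forms
-/

open MvPolynomial

namespace Vale.Agent.P346.FK

variable {K : Type} [Field K] [Fintype K] [DecidableEq K]

/-- Affine functions on `K^V`. -/
def IsAffFn {V : Type} [Fintype V] (f : FnK K V) : Prop :=
  ∃ (α : K) (β : V → K), f = fun x => α + ∑ v, β v * x v

/-- Affine forms in the variables `X` (evaluated at points) and `Y` (indeterminates). -/
def IsAffK {VX VY : Type} [Fintype VX] [Fintype VY] (P : MvPolynomial VY (FnK K VX)) : Prop :=
  ∃ (α : K) (β : VX → K) (γ : VY → K),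
    P = C (fun x => α + ∑ v, β v * x v) + ∑ y, C (fun _ => γ y) * X y

end Vale.Agent.P346.FK
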