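import Vale.Agent.P346.K.DigitSum

/-!
# P346 (all finite fields): lower bounds for counts of exponent vectors
-/

namespace Vale.Agent.P346.FK

/-- The centred digit sum, with a minus sign. -/
private noncomputable def xs (q N : ℕ) (e : Fin N → Fin q) : ℝ :=
  ((q : ℝ) - 1) * N / 2 - ∑ i, ((e i).val : ℝ)

/-- Its exponential sum. -/
private noncomputable def mg (q N : ℕ) (l : ℝ) : ℝ :=
  ∑ e : Fin N → Fin q, Real.exp (l * xs q N e)

private theorem mg_eq (q N : ℕ) (l : ℝ) :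
    mg q N l = (Real.exp (l * ((q : ℝ) - 1) / 2) *
      ∑ e : Fin q, Real.exp (-(l * (e.val : ℝ)))) ^ N := by
  rw [Finset.mul_sum, Fintype.sum_pow, mg]
  refine Finset.sum_congr rfl fun e _ => ?_
  simp only [← Real.exp_add]
  rw [← Real.exp_sum]
  congr 1
  rw [Finset.sum_add_distrib, Finset.sum_neg_distrib, ← Finset.mul_sum, Finset.sum_const,
    Finset.card_univ, Fintype.card_fin, nsmul_eq_mul, xs]
  ring

private theorem mg_upper {q : ℕ} {l c : ℝ}
    (h : ∑ e : Fin q, Real.exp (-(l * (e.val : ℝ))) ≤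
      q * Real.exp (-(l * ((q : ℝ) - 1) / 2) + c)) (N : ℕ) :
    mg q N l ≤ (q : ℝ) ^ N * Real.exp (N * c) := by
  rw [mg_eq, Real.exp_nat_mul, ← mul_pow]
  apply pow_le_pow_left₀
  · exact mul_nonneg (Real.exp_pos _).le (Finset.sum_nonneg fun _ _ => (Real.exp_pos _).le)
  · calc _ ≤ Real.exp (l * ((q : ℝ) - 1) / 2) *
        (q * Real.exp (-(l * ((q : ℝ) - 1) / 2) + c)) :=
          mul_le_mul_of_nonneg_left h (Real.exp_pos _).le
      _ = q * (Real.exp (l * ((q : ℝ) - 1) / 2) * Real.exp (-(l * ((q : ℝ) - 1) / 2) + c)) := by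
          ring
      _ = q * Real.exp c := by
          rw [← Real.exp_add]
          congr 2
          ring

private theorem mg_lower {q : ℕ} {l c : ℝ}
    (h : q * Real.exp (-(l * ((q : ℝ) - 1) / 2) + c) ≤
      ∑ e : Fin q, Real.exp (-(l * (e.val : ℝ)))) (N : ℕ) :
    (q : ℝ) ^ N * Real.exp (N * c) ≤ mg q N l := by
  rw [mg_eq, Real.exp_nat_mul, ← mul_pow]
  apply pow_le_pow_left₀
  · exact mul_nonneg (Nat.cast_nonneg _) (Real.exp_pos _).le
  · calc (q : ℝ) * Real.exp c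
        = q * (Real.exp (l * ((q : ℝ) - 1) / 2) * Real.exp (-(l * ((q : ℝ) - 1) / 2) + c)) := by
          rw [← Real.exp_add]
          congr 2
          ring
      _ = Real.exp (l * ((q : ℝ) - 1) / 2) *
        (q * Real.exp (-(l * ((q : ℝ) - 1) / 2) + c)) := by ring
      _ ≤ _ := mul_le_mul_of_nonneg_left h (Real.exp_pos _).le

/-- The tilting inequality. -/
private theorem tilt (q N : ℕ) (l d A B : ℝ) (hl : 0 ≤ l) (hd : 0 ≤ d) :
    mg q N l ≤ Real.exp (d * A) * mg q N (l - d) + Real.exp (-(d * B)) * mg q N (l + d) +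
      Real.exp (l * B) * ((Finset.univ.filter fun e : Fin N → Fin q => A ≤ xs q N e).card : ℝ) := by
  have h1 : ((Finset.univ.filter fun e : Fin N → Fin q => A ≤ xs q N e).card : ℝ) =
      ∑ e : Fin N → Fin q, if A ≤ xs q N e then (1 : ℝ) else 0 := by
    rw [Finset.sum_ite, Finset.sum_const_zero, add_zero, Finset.sum_const, nsmul_eq_mul, mul_one]
  rw [h1, mg, mg, mg, Finset.mul_sum, Finset.mul_sum, Finset.mul_sum, ← Finset.sum_add_distrib,
    ← Finset.sum_add_distrib]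
  apply Finset.sum_le_sum
  intro e _
  rw [← Real.exp_add, ← Real.exp_add]
  by_cases hA : A ≤ xs q N e
  · rw [if_pos hA, mul_one]
    by_cases hB : xs q N e ≤ B
    · have : Real.exp (l * xs q N e) ≤ Real.exp (l * B) :=
        Real.exp_le_exp.mpr (mul_le_mul_of_nonneg_left hB hl)
      have h2 := Real.exp_pos (d * A + (l - d) * xs q N e)
      have h3 := Real.exp_pos (-(d * B) + (l + d) * xs q N e)
      linarith
    · have : Real.exp (l * xs q N e) ≤ Real.exp (-(d * B) + (l + d) * xs q N e) := by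
        apply Real.exp_le_exp.mpr
        have := mul_le_mul_of_nonneg_left (not_le.mp hB).le hd
        nlinarith
      have h2 := Real.exp_pos (d * A + (l - d) * xs q N e)
      have h3 := Real.exp_pos (l * B)
      linarith
  · rw [if_neg hA, mul_zero, add_zero]
    have : Real.exp (l * xs q N e) ≤ Real.exp (d * A + (l - d) * xs q N e) := by
      apply Real.exp_le_exp.mpr
      have := mul_le_mul_of_nonneg_left (not_le.mp hA).le hd
      nlinarith
    have h3 := Real.exp_pos (-(d * B) + (l + d) * xs q N e)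
    linarith

private theorem sg_pos' {q : ℕ} (hq : 2 ≤ q) : 0 < sg q := by
  have h : (2 : ℝ) ≤ q := by exact_mod_cast hq
  rw [sg]
  nlinarith

private theorem four_le_exp_two : (4 : ℝ) ≤ Real.exp 2 := by
  have h := Real.add_one_le_exp (1 : ℝ)
  have h2 : Real.exp 2 = Real.exp 1 * Real.exp 1 := by
    rw [← Real.exp_add]
    norm_num
  rw [h2]
  nlinarith

private theorem exp_neg_one_le : Real.exp (-1) ≤ 1 / 2 := by
  have h := Real.add_one_le_exp (1 : ℝ)
  rw [Real.exp_neg, one_div]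
  apply inv_anti₀ (by norm_num)
  linarith

/-- First exponent inequality. -/
private theorem ex1 {σ a s η : ℝ} (hσ : 0 < σ) (ha : 0 < a) (hs : 0 < s)
    (hs2 : s ^ 2 = 8 * σ) (hη : η * ((a + s) ^ 2 + (a + 2 * s) ^ 2) ≤ s ^ 2 / 2) (hη0 : 0 < η) :
    2 * s * a / (2 * σ) + a ^ 2 * (1 + η) / (2 * σ) ≤
      (a + s) ^ 2 * (1 - η) / (2 * σ) - 2 := by
  have h7 : (a + s) ^ 2 * (1 - η) / (2 * σ) - s ^ 2 / (4 * σ) -
      (2 * s * a / (2 * σ) + a ^ 2 * (1 + η) / (2 * σ)) =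
      (s ^ 2 / 2 - η * ((a + s) ^ 2 + a ^ 2)) / (2 * σ) := by
    field_simp
    ring
  have hbig : s ^ 2 / (4 * σ) = 2 := by
    rw [hs2]
    field_simp
    norm_num
  have h8 : 0 ≤ (s ^ 2 / 2 - η * ((a + s) ^ 2 + a ^ 2)) / (2 * σ) := by
    apply div_nonneg _ (by positivity)
    have : η * a ^ 2 ≤ η * (a + 2 * s) ^ 2 := by
      gcongr
      linarith
    linarith
  rw [← h7, hbig] at h8
  linarith

/-- Second exponent inequality. -/
private theorem ex2 {σ a s η : ℝ} (hσ : 0 < σ)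
    (hs2 : s ^ 2 = 8 * σ) (hη : η * ((a + s) ^ 2 + (a + 2 * s) ^ 2) ≤ s ^ 2 / 2) :
    -(2 * s * (a + 2 * s) / (2 * σ)) + (a + 2 * s) ^ 2 * (1 + η) / (2 * σ) ≤
      (a + s) ^ 2 * (1 - η) / (2 * σ) - 2 := by
  have h7 : (a + s) ^ 2 * (1 - η) / (2 * σ) - s ^ 2 / (4 * σ) -
      (-(2 * s * (a + 2 * s) / (2 * σ)) + (a + 2 * s) ^ 2 * (1 + η) / (2 * σ)) =
      (s ^ 2 / 2 - η * ((a + s) ^ 2 + (a + 2 * s) ^ 2)) / (2 * σ) := by
    field_simp
    ring
  have hbig : s ^ 2 / (4 * σ) = 2 := by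
    rw [hs2]
    field_simp
    norm_num
  have h8 : 0 ≤ (s ^ 2 / 2 - η * ((a + s) ^ 2 + (a + 2 * s) ^ 2)) / (2 * σ) :=
    div_nonneg (by linarith) (by positivity)
  rw [← h7, hbig] at h8
  linarith

/-- Third exponent inequality. -/
private theorem ex3 {σ a s η : ℝ} (hσ : 0 < σ)
    (hs2 : s ^ 2 = 8 * σ) (hη : η * ((a + s) ^ 2 + (a + 2 * s) ^ 2) ≤ s ^ 2 / 2) (hη0 : 0 < η) :
    -((a + 2 * s) ^ 2 / (2 * σ)) ≤ (a + s) ^ 2 * (1 - η) / (2 * σ) + (-1) +
      (-(2 * (a + s) * (a + 2 * s) / (2 * σ))) := by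
  have h1 : (1 : ℝ) = s ^ 2 / (8 * σ) := by
    rw [hs2]
    field_simp
  have h7 : (a + s) ^ 2 * (1 - η) / (2 * σ) + (-(s ^ 2 / (8 * σ))) +
      (-(2 * (a + s) * (a + 2 * s) / (2 * σ))) - -((a + 2 * s) ^ 2 / (2 * σ)) =
      (3 * s ^ 2 / 4 - η * (a + s) ^ 2) / (2 * σ) := by
    field_simp
    ring
  have h8 : 0 ≤ (3 * s ^ 2 / 4 - η * (a + s) ^ 2) / (2 * σ) := by
    apply div_nonneg _ (by positivity)
    have h9 : 0 ≤ η * (a + 2 * s) ^ 2 := by positivity
    have h10 : 0 ≤ s ^ 2 := by positivity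
    linarith
  rw [← h7, ← h1] at h8
  linarith

/-- The numerical core, with the exponents rewritten. -/
private theorem core0 (Q M m₁ m₂ C x y u v w z : ℝ) (hQ0 : 0 ≤ Q)
    (ht : M ≤ Real.exp u * m₁ + Real.exp (-v) * m₂ + Real.exp w * C)
    (b0 : Q * Real.exp x ≤ M) (b1 : m₁ ≤ Q * Real.exp y) (b2 : m₂ ≤ Q * Real.exp z)
    (h1 : u + y ≤ x - 2) (h2 : -v + z ≤ x - 2) :
    Q * Real.exp (x + (-1) + -w) ≤ C := by
  have f1 : Real.exp u * m₁ ≤ Q * (Real.exp x / 4) := by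
    calc _ ≤ Real.exp u * (Q * Real.exp y) := mul_le_mul_of_nonneg_left b1 (Real.exp_pos _).le
      _ = Q * Real.exp (u + y) := by
          rw [Real.exp_add]
          ring
      _ ≤ Q * Real.exp (x - 2) :=
          mul_le_mul_of_nonneg_left (Real.exp_le_exp.mpr h1) hQ0
      _ ≤ Q * (Real.exp x / 4) := by
          apply mul_le_mul_of_nonneg_left _ hQ0
          rw [Real.exp_sub]
          gcongr
          exact four_le_exp_two
  have f2 : Real.exp (-v) * m₂ ≤ Q * (Real.exp x / 4) := by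
    calc _ ≤ Real.exp (-v) * (Q * Real.exp z) := mul_le_mul_of_nonneg_left b2 (Real.exp_pos _).le
      _ = Q * Real.exp (-v + z) := by
          rw [Real.exp_add]
          ring
      _ ≤ Q * Real.exp (x - 2) :=
          mul_le_mul_of_nonneg_left (Real.exp_le_exp.mpr h2) hQ0
      _ ≤ Q * (Real.exp x / 4) := by
          apply mul_le_mul_of_nonneg_left _ hQ0
          rw [Real.exp_sub]
          gcongr
          exact four_le_exp_two
  have f3 : Q * (Real.exp x / 2) ≤ Real.exp w * C := by linarith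
  calc Q * Real.exp (x + (-1) + -w) = Q * (Real.exp x * Real.exp (-1)) * Real.exp (-w) := by
        rw [Real.exp_add, Real.exp_add]
        ring
    _ ≤ Q * (Real.exp x * (1 / 2)) * Real.exp (-w) := by
        gcongr
        exact exp_neg_one_le
    _ = Q * (Real.exp x / 2) * Real.exp (-w) := by ring
    _ ≤ Real.exp w * C * Real.exp (-w) := mul_le_mul_of_nonneg_right f3 (Real.exp_pos _).le
    _ = C * (Real.exp w * Real.exp (-w)) := by ring
    _ = C := by rw [← Real.exp_add, add_neg_cancel, Real.exp_zero, mul_one]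

/-- The numerical core: one tilting step with all quantities in units of the standard deviation. -/
private theorem core (q N : ℕ) (hN : 0 < N) (σ a s η : ℝ) (hσ : 0 < σ) (ha : 0 < a) (hs : 0 < s)
    (hs2 : s ^ 2 = 8 * σ) (hη : η * ((a + s) ^ 2 + (a + 2 * s) ^ 2) ≤ s ^ 2 / 2) (hη0 : 0 < η)
    (hu : ∀ l : ℝ, |l| ≤ (a + 2 * s) / (σ * √(N : ℝ)) →
      mg q N l ≤ (q : ℝ) ^ N * Real.exp (N * (l ^ 2 * σ * (1 + η) / 2)))
    (hlo : ∀ l : ℝ, |l| ≤ (a + 2 * s) / (σ * √(N : ℝ)) →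
      (q : ℝ) ^ N * Real.exp (N * (l ^ 2 * σ * (1 - η) / 2)) ≤ mg q N l) :
    (q : ℝ) ^ N * Real.exp (-((a + 2 * s) ^ 2 / (2 * σ))) ≤
      ((Finset.univ.filter fun e : Fin N → Fin q => a * √(N : ℝ) ≤ xs q N e).card : ℝ) := by
  have hN' : (0 : ℝ) < N := by exact_mod_cast hN
  have hr : 0 < √(N : ℝ) := Real.sqrt_pos.mpr hN'
  have hr2 : √(N : ℝ) ^ 2 = N := Real.sq_sqrt hN'.le
  set r := √(N : ℝ) with hrdef
  have ht := tilt q N ((a + s) / (σ * r)) (s / (σ * r)) (a * r) ((a + 2 * s) * r)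
    (by positivity) (by positivity)
  have e1 : (a + s) / (σ * r) - s / (σ * r) = a / (σ * r) := by ring
  have e2 : (a + s) / (σ * r) + s / (σ * r) = (a + 2 * s) / (σ * r) := by ring
  rw [e1, e2] at ht
  have b0 := hlo ((a + s) / (σ * r)) (by
    rw [abs_of_pos (by positivity)]
    gcongr
    linarith)
  have b1 := hu (a / (σ * r)) (by
    rw [abs_of_pos (by positivity)]
    gcongr
    linarith)
  have b2 := hu ((a + 2 * s) / (σ * r)) (by
    rw [abs_of_pos (by positivity)])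
  have c0 : (N : ℝ) * (((a + s) / (σ * r)) ^ 2 * σ * (1 - η) / 2) =
      (a + s) ^ 2 * (1 - η) / (2 * σ) := by
    rw [← hr2]
    field_simp
  have c1 : (N : ℝ) * ((a / (σ * r)) ^ 2 * σ * (1 + η) / 2) = a ^ 2 * (1 + η) / (2 * σ) := by
    rw [← hr2]
    field_simp
  have c2 : (N : ℝ) * (((a + 2 * s) / (σ * r)) ^ 2 * σ * (1 + η) / 2) =
      (a + 2 * s) ^ 2 * (1 + η) / (2 * σ) := by
    rw [← hr2]
    field_simp
  have c3 : s / (σ * r) * (a * r) = 2 * s * a / (2 * σ) := by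
    field_simp
  have c4 : s / (σ * r) * ((a + 2 * s) * r) = 2 * s * (a + 2 * s) / (2 * σ) := by
    field_simp
  have c5 : (a + s) / (σ * r) * ((a + 2 * s) * r) = 2 * (a + s) * (a + 2 * s) / (2 * σ) := by
    field_simp
  rw [c0] at b0
  rw [c1] at b1
  rw [c2] at b2
  rw [c3, c4, c5] at ht
  refine le_trans ?_ (core0 _ _ _ _ _ _ _ _ _ _ _ (by positivity) ht b0 b1 b2
    (ex1 hσ ha hs hs2 hη hη0) (ex2 hσ hs2 hη))
  exact mul_le_mul_of_nonneg_left (Real.exp_le_exp.mpr (ex3 hσ hs2 hη hη0)) (by positivity)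

/-- Lower bound for the lower tail. -/
theorem cnt_lower (q : ℕ) (hq : 2 ≤ q) (ε : ℝ) (hε : 0 < ε) :
    ∃ a₀ > 0, ∀ a ≥ a₀, ∃ N₀ : ℕ, ∀ N ≥ N₀, ∀ D : ℕ,
      ((q : ℝ) - 1) * N / 2 - a * √(N : ℝ) ≤ D →
      (q : ℝ) ^ N * Real.exp (-((1 + ε) * a ^ 2 / (2 * sg q))) ≤ (cnt q (Fin N) D : ℝ) := by
  have hσ := sg_pos' hq
  set σ := sg q with hσdef
  set s := √(8 * σ) with hsdef
  have hs : 0 < s := Real.sqrt_pos.mpr (by positivity)
  have hs2 : s ^ 2 = 8 * σ := Real.sq_sqrt (by positivity)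
  refine ⟨8 * s / ε + s, by positivity, fun a ha => ?_⟩
  have ha1 : 8 * s / ε ≤ a := by linarith
  have ha2 : s ≤ a := by
    have : 0 < 8 * s / ε := by positivity
    linarith
  have ha0 : 0 < a := lt_of_lt_of_le hs ha2
  set η := s ^ 2 / (2 * ((a + s) ^ 2 + (a + 2 * s) ^ 2)) with hηdef
  have hη0 : 0 < η := by positivity
  have hη : η * ((a + s) ^ 2 + (a + 2 * s) ^ 2) ≤ s ^ 2 / 2 := by
    rw [hηdef]
    apply le_of_eq
    field_simp
  obtain ⟨l₁, hl₁, hup⟩ := digit_upper q hq η hη0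
  obtain ⟨l₂, hl₂, hlow⟩ := digit_lower q hq η hη0
  refine ⟨⌈((a + 2 * s) / (σ * min l₁ l₂)) ^ 2⌉₊ + 1, fun N hN D hD => ?_⟩
  have hN0 : 0 < N := by omega
  have hm : 0 < min l₁ l₂ := lt_min hl₁ hl₂
  have hN' : (0 : ℝ) < N := by exact_mod_cast hN0
  have hr : 0 < √(N : ℝ) := Real.sqrt_pos.mpr hN'
  have hrN : (a + 2 * s) / (σ * min l₁ l₂) ≤ √(N : ℝ) := by
    apply Real.le_sqrt_of_sq_le
    calc _ ≤ (⌈((a + 2 * s) / (σ * min l₁ l₂)) ^ 2⌉₊ : ℝ) := Nat.le_ceil _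
      _ ≤ N := by exact_mod_cast (by omega : ⌈((a + 2 * s) / (σ * min l₁ l₂)) ^ 2⌉₊ ≤ N)
  have hll : (a + 2 * s) / (σ * √(N : ℝ)) ≤ min l₁ l₂ := by
    rw [div_le_iff₀ (by positivity)] at hrN ⊢
    nlinarith
  have key := core q N hN0 σ a s η hσ ha0 hs hs2 hη hη0
    (fun l hl => mg_upper (hup l (hl.trans (hll.trans (min_le_left _ _)))) N)
    (fun l hl => mg_lower (hlow l (hl.trans (hll.trans (min_le_right _ _)))) N)
  have hsq : (a + 2 * s) ^ 2 ≤ (1 + ε) * a ^ 2 := by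
    have h1 : 8 * s ≤ a * ε := by
      rwa [div_le_iff₀ hε] at ha1
    nlinarith
  calc (q : ℝ) ^ N * Real.exp (-((1 + ε) * a ^ 2 / (2 * σ)))
      ≤ (q : ℝ) ^ N * Real.exp (-((a + 2 * s) ^ 2 / (2 * σ))) := by
        gcongr
    _ ≤ _ := key
    _ ≤ (cnt q (Fin N) D : ℝ) := by
        rw [cnt]
        exact_mod_cast Finset.card_le_card (by
          intro e he
          simp only [Finset.mem_filter, Finset.mem_univ, true_and] at he ⊢
          rw [xs] at he
          have : ((∑ i, (e i).val : ℕ) : ℝ) ≤ (D : ℝ) := by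
            push_cast
            linarith
          exact_mod_cast this)

end Vale.Agent.P346.FK
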