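import Vale.Agent.P346.K.DigitSum

/-!
# P346 (all finite fields): upper bounds for counts of exponent vectors
-/

namespace Vale.Agent.P346.FK

/-- Chernoff upper bound. -/
theorem cnt_upper (q : ℕ) (hq : 2 ≤ q) (ε : ℝ) (hε : 0 < ε) :
    ∃ l₀ > 0, ∀ (V : Type) [Fintype V] [DecidableEq V] (D : ℕ) (l : ℝ), 0 ≤ l → l ≤ l₀ →
      (cnt q V D : ℝ) ≤ (q : ℝ) ^ Fintype.card V *
        Real.exp (-(l * (((q : ℝ) - 1) * Fintype.card V / 2 - D)) +
          Fintype.card V * (l ^ 2 * sg q * (1 + ε) / 2)) := by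
  obtain ⟨l₀, hl₀, H⟩ := digit_upper q hq ε hε
  refine ⟨l₀, hl₀, fun V _ _ D l hl hll => ?_⟩
  have hd := H l (by rwa [abs_of_nonneg hl])
  have h1 : (cnt q V D : ℝ) ≤ ∑ e : V → Fin q, Real.exp (l * (D - ∑ i, ((e i).val : ℝ))) := by
    rw [cnt, Finset.card_eq_sum_ones, Nat.cast_sum]
    refine (Finset.sum_le_sum fun e he => ?_).trans
      (Finset.sum_le_sum_of_subset_of_nonneg (Finset.subset_univ _)
        fun e _ _ => (Real.exp_pos _).le)
    rw [Finset.mem_filter] at he
    rw [Nat.cast_one, Real.one_le_exp_iff]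
    have h2 : ((∑ i, (e i).val : ℕ) : ℝ) ≤ D := by exact_mod_cast he.2
    push_cast at h2
    have h3 : 0 ≤ (D : ℝ) - ∑ i, ((e i).val : ℝ) := by linarith
    positivity
  have h2 : ∑ e : V → Fin q, Real.exp (l * (D - ∑ i, ((e i).val : ℝ))) =
      Real.exp (l * D) * (∑ e : Fin q, Real.exp (-(l * (e.val : ℝ)))) ^ Fintype.card V := by
    have h3 : (∑ e : Fin q, Real.exp (-(l * (e.val : ℝ)))) ^ Fintype.card V =
        ∏ _i : V, ∑ e : Fin q, Real.exp (-(l * (e.val : ℝ))) := by
      rw [Finset.prod_const, Finset.card_univ]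
    rw [h3, Finset.prod_univ_sum, Fintype.piFinset_univ, Finset.mul_sum]
    refine Finset.sum_congr rfl fun e _ => ?_
    rw [← Real.exp_sum, ← Real.exp_add]
    congr 1
    rw [Finset.sum_neg_distrib, ← Finset.mul_sum]
    ring
  refine h1.trans ?_
  rw [h2]
  calc Real.exp (l * D) * (∑ e : Fin q, Real.exp (-(l * (e.val : ℝ)))) ^ Fintype.card V
      ≤ Real.exp (l * D) *
        (q * Real.exp (-(l * ((q : ℝ) - 1) / 2) + l ^ 2 * sg q * (1 + ε) / 2)) ^
          Fintype.card V := by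
        apply mul_le_mul_of_nonneg_left _ (Real.exp_pos _).le
        exact pow_le_pow_left₀ (Finset.sum_nonneg fun _ _ => (Real.exp_pos _).le) hd _
    _ = (q : ℝ) ^ Fintype.card V * (Real.exp (l * D) *
        Real.exp (Fintype.card V *
          (-(l * ((q : ℝ) - 1) / 2) + l ^ 2 * sg q * (1 + ε) / 2))) := by
        rw [mul_pow, Real.exp_nat_mul]
        ring
    _ = _ := by
        rw [← Real.exp_add]
        congr 2
        ring

private theorem sum_range_cast (n : ℕ) :
    ∑ i ∈ Finset.range n, (i : ℝ) = n * (n - 1) / 2 := by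
  induction n with
  | zero => simp
  | succ n ih =>
    rw [Finset.sum_range_succ, ih]
    push_cast
    ring

private theorem sum_range_cast_sq (n : ℕ) :
    ∑ i ∈ Finset.range n, (i : ℝ) ^ 2 = n * (n - 1) * (2 * n - 1) / 6 := by
  induction n with
  | zero => simp
  | succ n ih =>
    rw [Finset.sum_range_succ, ih]
    push_cast
    ring

private theorem sum_cent (q : ℕ) :
    ∑ e : Fin q, ((e.val : ℝ) - ((q : ℝ) - 1) / 2) = 0 := by
  rw [Finset.sum_sub_distrib, Finset.sum_const, Finset.card_univ, Fintype.card_fin, nsmul_eq_mul,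
    Fin.sum_univ_eq_sum_range (fun i => (i : ℝ)) q, sum_range_cast]
  ring

private theorem sum_cent_sq (q : ℕ) :
    ∑ e : Fin q, ((e.val : ℝ) - ((q : ℝ) - 1) / 2) ^ 2 = q * sg q := by
  have h : ∀ e : Fin q, ((e.val : ℝ) - ((q : ℝ) - 1) / 2) ^ 2 =
      (e.val : ℝ) ^ 2 - ((q : ℝ) - 1) * (e.val : ℝ) + (((q : ℝ) - 1) / 2) ^ 2 := fun e => by ring
  simp only [h]
  rw [Finset.sum_add_distrib, Finset.sum_sub_distrib, ← Finset.mul_sum, Finset.sum_const,
    Finset.card_univ, Fintype.card_fin, nsmul_eq_mul,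
    Fin.sum_univ_eq_sum_range (fun i => (i : ℝ)) q,
    Fin.sum_univ_eq_sum_range (fun i => (i : ℝ) ^ 2) q, sum_range_cast, sum_range_cast_sq, sg]
  ring

private theorem sum_cons {q N : ℕ} (F : (Fin (N + 1) → Fin q) → ℝ) :
    ∑ y, F y = ∑ a : Fin q, ∑ y : Fin N → Fin q, F (Fin.cons a y) := by
  rw [← Fintype.sum_prod_type']
  exact (Fintype.sum_equiv (Fin.consEquiv (fun _ => Fin q)) _ _ fun _ => rfl).symm

/-- The centred sum of digits. -/
private noncomputable def cs (q : ℕ) {N : ℕ} (y : Fin N → Fin q) : ℝ :=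
  ∑ i, (((y i).val : ℝ) - ((q : ℝ) - 1) / 2)

private theorem cs_cons (q : ℕ) {N : ℕ} (a : Fin q) (y : Fin N → Fin q) :
    cs q (Fin.cons a y : Fin (N + 1) → Fin q) =
      ((a.val : ℝ) - ((q : ℝ) - 1) / 2) + cs q y := by
  rw [cs, Fin.sum_univ_succ]
  rfl

private theorem card_fun (q N : ℕ) : (Fintype.card (Fin N → Fin q) : ℝ) = (q : ℝ) ^ N := by
  simp

private theorem sum_cs (q N : ℕ) : ∑ y : Fin N → Fin q, cs q y = 0 := by
  induction N with
  | zero => simp [cs]
  | succ N ih =>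
    rw [sum_cons]
    simp only [cs_cons, Finset.sum_add_distrib, ih, Finset.sum_const, Finset.card_univ,
      nsmul_eq_mul, add_zero]
    rw [← Finset.mul_sum, sum_cent, mul_zero]

private theorem sum_cs_sq (q N : ℕ) :
    ∑ y : Fin N → Fin q, cs q y ^ 2 = (q : ℝ) ^ N * (N * sg q) := by
  induction N with
  | zero => simp [cs]
  | succ N ih =>
    rw [sum_cons]
    have h : ∀ a : Fin q, ∑ y : Fin N → Fin q, cs q (Fin.cons a y : Fin (N + 1) → Fin q) ^ 2 =
        (q : ℝ) ^ N * ((a.val : ℝ) - ((q : ℝ) - 1) / 2) ^ 2 + (q : ℝ) ^ N * (N * sg q) := by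
      intro a
      have h1 : ∀ y : Fin N → Fin q, cs q (Fin.cons a y : Fin (N + 1) → Fin q) ^ 2 =
          ((a.val : ℝ) - ((q : ℝ) - 1) / 2) ^ 2 +
            2 * ((a.val : ℝ) - ((q : ℝ) - 1) / 2) * cs q y + cs q y ^ 2 := fun y => by
        rw [cs_cons]
        ring
      simp only [h1]
      rw [Finset.sum_add_distrib, Finset.sum_add_distrib, ← Finset.mul_sum, sum_cs, ih,
        Finset.sum_const, Finset.card_univ, nsmul_eq_mul, card_fun]
      ring
    simp only [h]
    rw [Finset.sum_add_distrib, ← Finset.mul_sum, sum_cent_sq, Finset.sum_const,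
      Finset.card_univ, Fintype.card_fin, nsmul_eq_mul]
    push_cast
    ring

/-- Chebyshev. -/
theorem cheb_digits (q : ℕ) (hq : 2 ≤ q) (N : ℕ) (T : ℝ) (hT : 0 ≤ T) :
    T ^ 2 * ((Finset.univ.filter fun y : Fin N → Fin q =>
      T ≤ |((∑ i, (y i).val : ℕ) : ℝ) - ((q : ℝ) - 1) * N / 2|).card : ℝ) ≤
      (q : ℝ) ^ N * (N * sg q) := by
  have key : ∀ y : Fin N → Fin q, ((∑ i, (y i).val : ℕ) : ℝ) - ((q : ℝ) - 1) * N / 2 =
      cs q y := by
    intro y
    rw [cs, Finset.sum_sub_distrib, Finset.sum_const, Finset.card_univ, Fintype.card_fin,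
      nsmul_eq_mul]
    push_cast
    ring
  rw [← sum_cs_sq, mul_comm, ← nsmul_eq_mul, ← Finset.sum_const]
  refine (Finset.sum_le_sum fun y hy => ?_).trans
    (Finset.sum_le_sum_of_subset_of_nonneg (Finset.subset_univ _) fun y _ _ => sq_nonneg (cs q y))
  rw [Finset.mem_filter, key] at hy
  rw [← sq_abs (cs q y)]
  exact pow_le_pow_left₀ hT hy.2 2

/-- The number of subsets of size at most `k`. -/
theorem card_small_subsets (L k : ℕ) (hk : 1 ≤ k) (hkL : k ≤ L) :
    (Fintype.card {A : Finset (Fin L) // A.card ≤ k} : ℝ) ≤ (Real.exp 1 * L / k) ^ k := by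
  have hL0 : (0 : ℝ) < L := by exact_mod_cast (by omega : 0 < L)
  have hk0 : (0 : ℝ) < k := by exact_mod_cast hk
  set b : ℝ := (k : ℝ) / L with hb
  have hb0 : 0 < b := by positivity
  have hb1 : b ≤ 1 := by
    rw [hb, div_le_one hL0]
    exact_mod_cast hkL
  have h1 : b ^ k * (Fintype.card {A : Finset (Fin L) // A.card ≤ k} : ℝ) ≤
      Real.exp k := by
    rw [Fintype.card_subtype, mul_comm, ← nsmul_eq_mul, ← Finset.sum_const]
    calc ∑ _x ∈ Finset.univ.filter (fun A : Finset (Fin L) => A.card ≤ k), b ^ k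
        ≤ ∑ A ∈ Finset.univ.filter (fun A : Finset (Fin L) => A.card ≤ k), b ^ A.card := by
          refine Finset.sum_le_sum fun A hA => ?_
          rw [Finset.mem_filter] at hA
          exact pow_le_pow_of_le_one hb0.le hb1 hA.2
      _ ≤ ∑ A : Finset (Fin L), b ^ A.card :=
          Finset.sum_le_sum_of_subset_of_nonneg (Finset.subset_univ _)
            fun A _ _ => (pow_pos hb0 _).le
      _ = (b + 1) ^ L := by
          have := Fintype.sum_pow_mul_eq_add_pow (Fin L) b (1 : ℝ)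
          simpa using this
      _ ≤ (Real.exp b) ^ L :=
          pow_le_pow_left₀ (by positivity) (Real.add_one_le_exp b) L
      _ = Real.exp k := by
          rw [← Real.exp_nat_mul]
          congr 1
          rw [hb]
          field_simp
  have h2 : (Real.exp 1 * L / k) ^ k = Real.exp k / b ^ k := by
    rw [div_pow, mul_pow, ← Real.exp_nat_mul, mul_one, hb, div_pow]
    field_simp
  rw [h2, le_div_iff₀ (by positivity), mul_comm]
  exact h1

end Vale.Agent.P346.FK
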