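import Vale.Agent.P346.K.DegK

/-!
# P346 (all finite fields): functions on products of balls, and the bit forms
-/

namespace Vale.Agent.P346.FK

variable {K : Type} [Field K] [Fintype K] [DecidableEq K]

/-- An enumeration of `K`. -/
noncomputable def idx (K : Type) [Fintype K] : K ≃ Fin (Fintype.card K) := Fintype.equivFin K

/-- The statistic `s_c(x) = ∑ i, idx (x_i - c_i)`. -/
noncomputable def stat {N : ℕ} (c x : Fin N → K) : ℕ := ∑ i, (idx K (x i - c i)).val

/-- The index of one coordinate. -/
noncomputable def wI {W : Type} (c X : W → K) (i : W) : ℕ := (idx K (X i - c i)).val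

/-- The test polynomial. -/
noncomputable def pY {W : Type} [Fintype W] (c Y : W → K) : FnK K W := fun X =>
  ∏ i, ∏ a ∈ Finset.univ.filter (fun a : Fin (Fintype.card K) => a.val < wI c Y i),
    (X i - (c i + (idx K).symm a))

theorem card_lt_filter {q w : ℕ} (h : w ≤ q) :
    (Finset.univ.filter (fun a : Fin q => a.val < w)).card = w := by
  have : (Finset.univ.filter (fun a : Fin q => a.val < w)) =
      (Finset.univ : Finset (Fin w)).map (Fin.castLEEmb h) := by
    ext a
    simp only [Finset.mem_filter, Finset.mem_univ, true_and, Finset.mem_map]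
    constructor
    · intro ha
      exact ⟨⟨a.val, ha⟩, rfl⟩
    · rintro ⟨b, rfl⟩
      exact b.isLt
  rw [this, Finset.card_map, Finset.card_univ, Fintype.card_fin]

theorem pY_mem {W : Type} [Fintype W] (c Y : W → K) :
    pY c Y ∈ VK K W (∑ i, wI c Y i) := by
  have h : pY c Y = ∏ i, ∏ a ∈ Finset.univ.filter (fun a : Fin (Fintype.card K) =>
      a.val < wI c Y i), (fun X : PtK K W => X i - (c i + (idx K).symm a)) := by
    funext X
    simp only [pY, Finset.prod_apply]
  rw [h]
  refine VK_prod _ _ _ fun i _ => ?_
  have h2 := VK_prod (K := K) (V := W)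
    (Finset.univ.filter (fun a : Fin (Fintype.card K) => a.val < wI c Y i))
    (fun a => (fun X : PtK K W => X i - (c i + (idx K).symm a))) (fun _ => 1) (fun a _ => by
      have e : (fun X : PtK K W => X i - (c i + (idx K).symm a)) =
          (fun X : PtK K W => X i) - (fun _ : PtK K W => c i + (idx K).symm a) := rfl
      rw [e]
      exact Submodule.sub_mem _ (coordK_mem i le_rfl) (constK_mem _ _))
  rw [Finset.sum_const, smul_eq_mul, mul_one, card_lt_filter] at h2
  · exact h2
  · exact (idx K (Y i - c i)).isLt.le

theorem pY_ne {W : Type} [Fintype W] (c X Y : W → K) :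
    pY c Y X ≠ 0 ↔ ∀ i, wI c Y i ≤ wI c X i := by
  unfold pY
  rw [Finset.prod_ne_zero_iff]
  constructor
  · intro h i
    have h1 := h i (Finset.mem_univ i)
    rw [Finset.prod_ne_zero_iff] at h1
    by_contra hlt
    push Not at hlt
    refine h1 (idx K (X i - c i)) ?_ ?_
    · rw [Finset.mem_filter]
      exact ⟨Finset.mem_univ _, hlt⟩
    · rw [Equiv.symm_apply_apply]
      ring
  · intro h i _
    rw [Finset.prod_ne_zero_iff]
    intro a ha h0
    rw [Finset.mem_filter] at ha
    have h1 : X i - c i = (idx K).symm a := by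
      have := sub_eq_zero.mp h0
      rw [this]
      ring
    have h2 : wI c X i = a.val := by
      unfold wI
      rw [h1, Equiv.apply_symm_apply]
    have := h i
    omega

theorem wI_inj {W : Type} (c X Y : W → K) (h : ∀ i, wI c X i = wI c Y i) : X = Y := by
  funext i
  have h1 := h i
  unfold wI at h1
  have h2 := (idx K).injective (Fin.val_injective h1)
  have := sub_left_inj.mp h2
  exact this

/-- Every function on a product of balls `{s_c < θ}` has degree at most `(#U) * (θ - 1)`. -/
theorem ballK {U : Type} [Fintype U] (N θ : ℕ) (c : U → Fin N → K) (h : FnK K (U × Fin N)) :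
    ∃ f ∈ VK K (U × Fin N) (Fintype.card U * (θ - 1)),
      ∀ X : PtK K (U × Fin N), (∀ u, stat (c u) (fun i => X (u, i)) < θ) → f X = h X := by
  classical
  set C : U × Fin N → K := fun i => c i.1 i.2 with hC
  set S : Finset (PtK K (U × Fin N)) := Finset.univ.filter
    (fun X => ∀ u, stat (c u) (fun i => X (u, i)) < θ) with hS
  have htot : ∀ X ∈ S, ∑ i, wI C X i ≤ Fintype.card U * (θ - 1) := by
    intro X hX
    rw [hS, Finset.mem_filter] at hX
    have e : ∑ i, wI C X i = ∑ u, stat (c u) (fun i => X (u, i)) := by
      rw [Fintype.sum_prod_type]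
      rfl
    rw [e]
    calc ∑ u, stat (c u) (fun i => X (u, i)) ≤ ∑ _u : U, (θ - 1) :=
          Finset.sum_le_sum fun u _ => by
            have := hX.2 u
            omega
      _ = Fintype.card U * (θ - 1) := by
          rw [Finset.sum_const, Finset.card_univ, smul_eq_mul]
  have key : ∀ t : ℕ, ∃ f ∈ VK K (U × Fin N) (Fintype.card U * (θ - 1)),
      ∀ X ∈ S, ∑ i, wI C X i < t → f X = h X := by
    intro t
    induction t with
    | zero => exact ⟨0, Submodule.zero_mem _, fun X _ h0 => absurd h0 (Nat.not_lt_zero _)⟩
    | succ t ih =>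
      obtain ⟨f, hf, hfX⟩ := ih
      refine ⟨f + ∑ Y ∈ S.filter (fun Y => ∑ i, wI C Y i = t),
        ((h Y - f Y) / pY C Y Y) • pY C Y, ?_, ?_⟩
      · refine Submodule.add_mem _ hf (Submodule.sum_mem _ fun Y hY => ?_)
        rw [Finset.mem_filter] at hY
        exact Submodule.smul_mem _ _ (VK_mono (htot Y hY.1) (pY_mem C Y))
      · intro X hX hXt
        have hval : (f + ∑ Y ∈ S.filter (fun Y => ∑ i, wI C Y i = t),
            ((h Y - f Y) / pY C Y Y) • pY C Y) X = f X +
            ∑ Y ∈ S.filter (fun Y => ∑ i, wI C Y i = t),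
              ((h Y - f Y) / pY C Y Y) * pY C Y X := by
          simp only [Pi.add_apply, Finset.sum_apply, Pi.smul_apply, smul_eq_mul]
        rw [hval]
        have hzero : ∀ Y ∈ S.filter (fun Y => ∑ i, wI C Y i = t), Y ≠ X → pY C Y X = 0 := by
          intro Y hY hne
          rw [Finset.mem_filter] at hY
          by_contra hn
          have h1 := (pY_ne C X Y).mp hn
          apply hne
          apply (wI_inj C Y X _)
          intro i
          by_contra hni
          have hlt : ∑ i, wI C Y i < ∑ i, wI C X i :=
            Finset.sum_lt_sum (fun i _ => h1 i) ⟨i, Finset.mem_univ i, lt_of_le_of_ne (h1 i) hni⟩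
          omega
        rcases Nat.lt_succ_iff_lt_or_eq.mp hXt with hlt | heq
        · rw [Finset.sum_eq_zero, add_zero]
          · exact hfX X hX hlt
          · intro Y hY
            rw [hzero Y hY, mul_zero]
            rintro rfl
            rw [Finset.mem_filter] at hY
            omega
        · rw [Finset.sum_eq_single X]
          · have hne : pY C X X ≠ 0 := (pY_ne C X X).mpr fun i => le_rfl
            rw [div_mul_cancel₀ _ hne]
            ring
          · intro Y hY hne
            rw [hzero Y hY hne, mul_zero]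
          · intro hn
            exact absurd (Finset.mem_filter.mpr ⟨hX, heq⟩) hn
  obtain ⟨f, hf, hfX⟩ := key (Fintype.card U * (θ - 1) + 1)
  refine ⟨f, hf, fun X hX => ?_⟩
  have hXS : X ∈ S := by
    rw [hS, Finset.mem_filter]
    exact ⟨Finset.mem_univ _, hX⟩
  exact hfX X hXS (Nat.lt_succ_of_le (htot X hXS))

/-- The bit forms: positions `(i, a, j)` carry `x_i - c_i - k_a` if `j < q - 1 - a` and `0`
otherwise; the extra positions carry `1`. -/
noncomputable def bitAff {N : ℕ} (c : Fin N → K) (u₀ : ℕ) :
    (Fin N × Fin (Fintype.card K) × Fin (Fintype.card K)) ⊕ Fin u₀ → (Fin N → K) → K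
  | Sum.inl (i, a, j), x =>
      if j.val < Fintype.card K - 1 - a.val then x i - c i - (idx K).symm a else 0
  | Sum.inr _, _ => 1

end Vale.Agent.P346.FK
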