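import Vale.Agent.P346.K.BallK

/-!
# P346 (all finite fields): counting the nonzero bit forms, and digits
-/

namespace Vale.Agent.P346.FK

variable {K : Type} [Field K] [Fintype K] [DecidableEq K]

theorem sum_rev (q : ℕ) : ∑ a : Fin q, (q - 1 - a.val) = q * (q - 1) / 2 := by
  rw [Fin.sum_univ_eq_sum_range (fun a => q - 1 - a) q, Finset.sum_range_reflect (fun a => a) q,
    Finset.sum_range_id]

theorem card_fin_lt {q w : ℕ} (h : w ≤ q) :
    (∑ j : Fin q, if j.val < w then 1 else 0) = w := by
  rw [← Finset.card_filter]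
  exact card_lt_filter h

theorem bit_inner (z : K) :
    (∑ a : Fin (Fintype.card K), ∑ j : Fin (Fintype.card K),
      if (if j.val < Fintype.card K - 1 - a.val then z - (idx K).symm a else 0) ≠ 0
        then 1 else 0) =
      (Fintype.card K - 1) * (Fintype.card K - 2) / 2 + (idx K z).val := by
  classical
  have hq : 1 < Fintype.card K := Fintype.one_lt_card
  have h1 : ∀ a : Fin (Fintype.card K), (∑ j : Fin (Fintype.card K),
      if (if j.val < Fintype.card K - 1 - a.val then z - (idx K).symm a else 0) ≠ 0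
        then 1 else 0) = if a = idx K z then 0 else Fintype.card K - 1 - a.val := by
    intro a
    by_cases ha : a = idx K z
    · rw [if_pos ha]
      refine Finset.sum_eq_zero fun j _ => ?_
      rw [if_neg]
      rw [not_not, ha, Equiv.symm_apply_apply, sub_self, ite_self]
    · rw [if_neg ha]
      have hne : z - (idx K).symm a ≠ 0 := by
        intro h0
        apply ha
        rw [sub_eq_zero.1 h0, Equiv.apply_symm_apply]
      refine Eq.trans (Finset.sum_congr rfl fun j _ => ?_)
        (card_fin_lt (q := Fintype.card K) (w := Fintype.card K - 1 - a.val) (by omega))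
      by_cases hj : j.val < Fintype.card K - 1 - a.val
      · rw [if_pos hj, if_pos hj, if_pos hne]
      · rw [if_neg hj, if_neg hj, if_neg (by simp)]
  rw [Finset.sum_congr rfl fun a _ => h1 a]
  have h2 : (∑ a : Fin (Fintype.card K), if a = idx K z then 0 else Fintype.card K - 1 - a.val) +
      (Fintype.card K - 1 - (idx K z).val) =
      ∑ a : Fin (Fintype.card K), (Fintype.card K - 1 - a.val) := by
    rw [← Finset.sum_erase_add _ _ (Finset.mem_univ (idx K z)),
      ← Finset.sum_erase_add (Finset.univ : Finset (Fin (Fintype.card K)))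
        (fun a => Fintype.card K - 1 - a.val) (Finset.mem_univ (idx K z)), if_pos rfl, add_zero]
    congr 1
    refine Finset.sum_congr rfl fun a ha => ?_
    rw [if_neg (Finset.ne_of_mem_erase ha)]
  rw [sum_rev] at h2
  have h3 : Fintype.card K * (Fintype.card K - 1) / 2 =
      (Fintype.card K - 1) * (Fintype.card K - 2) / 2 + (Fintype.card K - 1) := by
    obtain ⟨m, hm⟩ : ∃ m, Fintype.card K = m + 2 := ⟨Fintype.card K - 2, by omega⟩
    rw [hm]
    simp only [Nat.add_sub_cancel, show m + 2 - 1 = m + 1 by omega]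
    rw [show (m + 2) * (m + 1) = (m + 1) * m + (m + 1) * 2 by ring,
      Nat.add_mul_div_right _ _ (by norm_num)]
  have h4 := (idx K z).isLt
  omega

theorem bitcount {N : ℕ} (c x : Fin N → K) (u₀ : ℕ) :
    (Finset.univ.filter fun t => bitAff c u₀ t x ≠ 0).card =
      N * ((Fintype.card K - 1) * (Fintype.card K - 2) / 2) + u₀ + stat c x := by
  classical
  rw [Finset.card_filter, Fintype.sum_sum_type]
  have h1 : (∑ t : Fin u₀, if bitAff c u₀ (Sum.inr t) x ≠ 0 then 1 else 0) = u₀ := by
    simp [bitAff]
  have h2 : (∑ t : Fin N × Fin (Fintype.card K) × Fin (Fintype.card K),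
      if bitAff c u₀ (Sum.inl t) x ≠ 0 then 1 else 0) =
      N * ((Fintype.card K - 1) * (Fintype.card K - 2) / 2) + stat c x := by
    rw [Fintype.sum_prod_type]
    have h3 : ∀ i : Fin N, (∑ y : Fin (Fintype.card K) × Fin (Fintype.card K),
        if bitAff c u₀ (Sum.inl (i, y)) x ≠ 0 then 1 else 0) =
        (Fintype.card K - 1) * (Fintype.card K - 2) / 2 + (idx K (x i - c i)).val := by
      intro i
      rw [Fintype.sum_prod_type]
      exact bit_inner (x i - c i)
    rw [Finset.sum_congr rfl fun i _ => h3 i, Finset.sum_add_distrib, Finset.sum_const,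
      Finset.card_univ, Fintype.card_fin, smul_eq_mul]
    rfl
  rw [h1, h2]
  ring

theorem choose_pow_mod (p : ℕ) [Fact p.Prime] (j : ℕ) :
    ∀ w : ℕ, (w.choose (p ^ j)) % p = (w / p ^ j) % p := by
  have hp : 0 < p := (Fact.out : p.Prime).pos
  induction j with
  | zero => intro w; simp
  | succ j ih =>
    intro w
    have h := Choose.choose_modEq_choose_mod_mul_choose_div_nat (n := w) (k := p ^ (j + 1)) (p := p)
    have h1 : p ^ (j + 1) % p = 0 := by
      rw [pow_succ]; exact Nat.mul_mod_left _ _
    have h2 : p ^ (j + 1) / p = p ^ j := by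
      rw [pow_succ]; exact Nat.mul_div_cancel _ hp
    rw [h1, h2, Nat.choose_zero_right, one_mul] at h
    rw [h, ih, Nat.div_div_eq_div_mul, pow_succ' p j]

/-- A `p`-adic digit is a threshold function in a window. -/
theorem choose_windowK (p : ℕ) [Fact p.Prime] [CharP K p] (j T w : ℕ)
    (h1 : p ^ (j + 1) * T - p ^ j ≤ w) (h2 : w < p ^ (j + 1) * T + p ^ j) (hT : 1 ≤ T) :
    ((w.choose (p ^ j) : ℕ) : K) = if w < p ^ (j + 1) * T then -1 else 0 := by
  have hp : p.Prime := Fact.out
  have hp2 : 2 ≤ p := hp.two_le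
  have hpj : 0 < p ^ j := pow_pos hp.pos _
  have e1 : p ^ (j + 1) * T = p * T * p ^ j := by rw [pow_succ]; ring
  rw [e1] at h1 h2 ⊢
  have key := choose_pow_mod p j w
  have hpT : 1 ≤ p * T := Nat.one_le_iff_ne_zero.2 (by positivity)
  by_cases hw : w < p * T * p ^ j
  · rw [if_pos hw]
    have hq : w / p ^ j = p * T - 1 := by
      apply Nat.div_eq_of_lt_le
      · rw [Nat.sub_mul, one_mul]; exact h1
      · have : p * T - 1 + 1 = p * T := by omega
        rw [this]; exact hw
    rw [hq] at key
    have h3 : (w.choose (p ^ j) + 1) % p = 0 % p := by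
      rw [Nat.add_mod, key, ← Nat.add_mod, Nat.sub_add_cancel hpT, Nat.mul_mod_right,
        Nat.zero_mod]
    have h4 : ((w.choose (p ^ j) + 1 : ℕ) : K) = ((0 : ℕ) : K) :=
      (CharP.cast_eq_iff_mod_eq K p).2 h3
    rw [Nat.cast_add, Nat.cast_one, Nat.cast_zero] at h4
    exact eq_neg_of_add_eq_zero_left h4
  · rw [if_neg hw]
    have hq : w / p ^ j = p * T := by
      apply Nat.div_eq_of_lt_le
      · exact not_lt.1 hw
      · rw [Nat.add_mul, one_mul]; exact h2
    rw [hq] at key
    have h3 : w.choose (p ^ j) % p = 0 % p := by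
      rw [key, Nat.mul_mod_right, Nat.zero_mod]
    have h4 : ((w.choose (p ^ j) : ℕ) : K) = ((0 : ℕ) : K) :=
      (CharP.cast_eq_iff_mod_eq K p).2 h3
    rw [h4, Nat.cast_zero]

end Vale.Agent.P346.FK
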