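import Vale.Agent.P346.K.GoodK

/-!
# P346 (all finite fields): formal degrees and bottom sums
-/

open MvPolynomial

namespace Vale.Agent.P346.FK

variable {K : Type} [Field K]

theorem isHomogeneous_multiset_prod {σ ι : Type} (S : Multiset ι) (f : ι → MvPolynomial σ K)
    (d : ι → ℕ) (hf : ∀ i ∈ S, (f i).IsHomogeneous (d i)) :
    (S.map f).prod.IsHomogeneous (S.map d).sum := by
  induction S using Multiset.induction_on with
  | empty => simpa using isHomogeneous_one σ K
  | cons a S ih =>
    rw [Multiset.map_cons, Multiset.prod_cons, Multiset.map_cons, Multiset.sum_cons]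
    exact (hf a (Multiset.mem_cons_self a S)).mul
      (ih fun i hi => hf i (Multiset.mem_cons_of_mem hi))

theorem isHomogeneous_comb {σ ι : Type} (s : Finset ι) (c : ι → K) (f : ι → MvPolynomial σ K)
    (d : ℕ) (hf : ∀ i ∈ s, (f i).IsHomogeneous d) :
    (∑ i ∈ s, MvPolynomial.C (c i) * f i).IsHomogeneous d := by
  apply IsHomogeneous.sum
  intro i hi
  have := (isHomogeneous_C σ (c i)).mul (hf i hi)
  rwa [zero_add] at this

theorem genMat_list_homogeneous (w d : ℕ) (L : List (Fin d)) (i j : Fin w) :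
    ((L.map (genMat K w d)).prod i j).IsHomogeneous L.length := by
  induction L generalizing i j with
  | nil =>
    rw [List.map_nil, List.prod_nil, List.length_nil]
    by_cases h : i = j
    · subst h
      rw [Matrix.one_apply_eq]
      exact isHomogeneous_one _ _
    · rw [Matrix.one_apply_ne h]
      exact isHomogeneous_zero _ _ _
  | cons l L ih =>
    rw [List.map_cons, List.prod_cons, List.length_cons, Matrix.mul_apply]
    apply IsHomogeneous.sum
    intro m _
    have h1 : (genMat K w d l i m).IsHomogeneous 1 := isHomogeneous_X _ _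
    have := h1.mul (ih m j)
    rwa [add_comm 1] at this

theorem IMM_homogeneous (w d : ℕ) (hw : 0 < w) : (IMM K w d hw).IsHomogeneous d := by
  have h := genMat_list_homogeneous (K := K) w d (List.finRange d) ⟨0, hw⟩ ⟨0, hw⟩
  rw [List.length_finRange, ← List.ofFn_eq_map] at h
  exact h

theorem IMM_ne_zero (w d : ℕ) (hw : 0 < w) : IMM K w d hw ≠ 0 := by
  intro h0
  set φ : MvPolynomial (IVar w d) K →+* K :=
    MvPolynomial.eval (fun v : IVar w d => if v.2.1 = v.2.2 then (1 : K) else 0) with hφ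
  have h1 : ∀ l, φ.mapMatrix (genMat K w d l) = 1 := by
    intro l
    ext i j
    rw [RingHom.mapMatrix_apply, Matrix.map_apply, genMat, Matrix.of_apply, hφ,
      MvPolynomial.eval_X, Matrix.one_apply]
  have h2 : φ.mapMatrix (List.ofFn (genMat K w d)).prod = 1 := by
    rw [map_list_prod, List.map_ofFn]
    have : (⇑φ.mapMatrix ∘ genMat K w d) = fun _ => 1 := by
      funext l
      exact h1 l
    rw [this]
    simp
  have h3 : φ (IMM K w d hw) = 1 := by
    have := congrFun (congrFun h2 ⟨0, hw⟩) ⟨0, hw⟩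
    rw [RingHom.mapMatrix_apply, Matrix.map_apply, Matrix.one_apply_eq] at this
    exact this
  rw [h0, map_zero] at h3
  exact zero_ne_one h3

/-- A homogeneous circuit for `IMM_{n,n}` has formal degree `n`. -/
theorem formal_degree (n : ℕ) (hn : 0 < n) (C : Circuit K (IVar n n))
    (hC : C.out = IMM K n n hn) (d1 : Fin C.n1 → ℕ) (d3 : Fin C.n3 → ℕ) (d5 : ℕ)
    (h1 : ∀ g, ∀ l ∈ C.s1 g, C.leafDeg l = d1 g)
    (h3 : ∀ g, ∀ h ∈ C.s3 g, ((C.p2 h).map d1).sum = d3 g)
    (h5 : ∀ h ∈ C.s5, ((C.p4 h).map d3).sum = d5) : d5 = n := by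
  have v0 : ∀ l, (C.v0 l).IsHomogeneous (C.leafDeg l) := by
    intro l
    unfold Circuit.v0 Circuit.leafDeg
    rcases C.leaf l with v | k
    · exact isHomogeneous_X _ _
    · exact isHomogeneous_C _ _
  have v1 : ∀ g, (C.v1 g).IsHomogeneous (d1 g) := fun g =>
    isHomogeneous_comb _ _ _ _ fun l hl => (h1 g l hl) ▸ v0 l
  have v2 : ∀ g, (C.v2 g).IsHomogeneous ((C.p2 g).map d1).sum := fun g =>
    isHomogeneous_multiset_prod _ _ _ fun i _ => v1 i
  have v3 : ∀ g, (C.v3 g).IsHomogeneous (d3 g) := fun g =>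
    isHomogeneous_comb _ _ _ _ fun h hh => (h3 g h hh) ▸ v2 h
  have v4 : ∀ g, (C.v4 g).IsHomogeneous ((C.p4 g).map d3).sum := fun g =>
    isHomogeneous_multiset_prod _ _ _ fun i _ => v3 i
  have v5 : C.out.IsHomogeneous d5 :=
    isHomogeneous_comb _ _ _ _ fun h hh => (h5 h hh) ▸ v4 h
  rw [hC] at v5
  exact v5.inj_right (IMM_homogeneous n n hn) (IMM_ne_zero n n hn)

theorem isAffK_const {VX VY : Type} [Fintype VX] [Fintype VY] (c : K) :
    IsAffK (MvPolynomial.C (fun _ => c) : MvPolynomial VY (FnK K VX)) := by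
  refine ⟨c, 0, 0, ?_⟩
  have h : ∀ y : VY, (MvPolynomial.C (fun _ : PtK K VX => (0 : VY → K) y) :
      MvPolynomial VY (FnK K VX)) = 0 := by
    intro y
    have : (fun _ : PtK K VX => (0 : VY → K) y) = (0 : FnK K VX) := by
      funext x
      rfl
    rw [this, map_zero]
  simp only [h, zero_mul, Finset.sum_const_zero, add_zero]
  congr 1
  funext x
  simp

theorem isAffK_add {VX VY : Type} [Fintype VX] [Fintype VY] {P Q : MvPolynomial VY (FnK K VX)}
    (hP : IsAffK P) (hQ : IsAffK Q) : IsAffK (P + Q) := by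
  obtain ⟨a, b, c, rfl⟩ := hP
  obtain ⟨a', b', c', rfl⟩ := hQ
  refine ⟨a + a', b + b', c + c', ?_⟩
  have h1 : (fun x : PtK K VX => a + a' + ∑ v, (b + b') v * x v) =
      (fun x => a + ∑ v, b v * x v) + fun x => a' + ∑ v, b' v * x v := by
    funext x
    simp only [Pi.add_apply, add_mul, Finset.sum_add_distrib]
    ring
  have h2 : ∀ y, (MvPolynomial.C (fun _ : PtK K VX => (c + c') y) : MvPolynomial VY (FnK K VX)) =
      MvPolynomial.C (fun _ => c y) + MvPolynomial.C (fun _ => c' y) := by
    intro y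
    rw [← map_add]
    rfl
  rw [h1, map_add]
  simp only [h2, add_mul, Finset.sum_add_distrib]
  ring

theorem smul_eq_constK {VX VY : Type} (r : K) (P : MvPolynomial VY (FnK K VX)) :
    r • P = MvPolynomial.C (fun _ => r) * P := by
  rw [Algebra.smul_def, MvPolynomial.algebraMap_apply]
  rfl

theorem isAffK_smul {VX VY : Type} [Fintype VX] [Fintype VY] (r : K)
    {P : MvPolynomial VY (FnK K VX)} (hP : IsAffK P) : IsAffK (r • P) := by
  obtain ⟨a, b, c, rfl⟩ := hP
  refine ⟨r * a, fun v => r * b v, fun y => r * c y, ?_⟩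
  have h1 : (fun x : PtK K VX => r * a + ∑ v, r * b v * x v) =
      (fun _ => r) * fun x => a + ∑ v, b v * x v := by
    funext x
    simp only [Pi.mul_apply, mul_add, Finset.mul_sum, mul_assoc]
  have h2 : ∀ y, (MvPolynomial.C (fun _ : PtK K VX => r * c y) : MvPolynomial VY (FnK K VX)) =
      MvPolynomial.C (fun _ => r) * MvPolynomial.C (fun _ => c y) := by
    intro y
    rw [← map_mul]
    rfl
  rw [smul_eq_constK, h1, map_mul, mul_add, Finset.mul_sum]
  congr 1
  apply Finset.sum_congr rfl
  intro y _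
  rw [h2, mul_assoc]

theorem isAffK_zero {VX VY : Type} [Fintype VX] [Fintype VY] :
    IsAffK (0 : MvPolynomial VY (FnK K VX)) := by
  have h := isAffK_smul 0 (isAffK_const (VX := VX) (VY := VY) (0 : K))
  rwa [zero_smul] at h

theorem isAffK_sum {VX VY ι : Type} [Fintype VX] [Fintype VY] (s : Finset ι)
    (f : ι → MvPolynomial VY (FnK K VX)) (hf : ∀ i ∈ s, IsAffK (f i)) :
    IsAffK (∑ i ∈ s, f i) := by
  classical
  induction s using Finset.induction_on with
  | empty =>
    rw [Finset.sum_empty]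
    exact isAffK_zero
  | insert a s ha ih =>
    rw [Finset.sum_insert ha]
    exact isAffK_add (hf a (Finset.mem_insert_self a s))
      (ih fun i hi => hf i (Finset.mem_insert_of_mem hi))

theorem good_sumK {VX VY ι : Type} [Fintype VX] {E : Finset (PtK K VX)} {k d : ℕ} (s : Finset ι)
    (f : ι → MvPolynomial VY (FnK K VX)) (hf : ∀ i ∈ s, Good E k d (f i)) :
    Good E k d (∑ i ∈ s, f i) := by
  classical
  induction s using Finset.induction_on with
  | empty =>
    rw [Finset.sum_empty]
    intro μ _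
    rw [coeff_zero]
    exact Submodule.zero_mem _
  | insert a s ha ih =>
    rw [Finset.sum_insert ha]
    exact good_add (hf a (Finset.mem_insert_self a s))
      (ih fun i hi => hf i (Finset.mem_insert_of_mem hi))

/-- Bottom sums become affine forms; those of formal degree zero become constants. -/
theorem bottomK {X VX VY : Type} [Fintype VX] [Fintype VY] (C : Circuit K X)
    (θ : X → MvPolynomial VY (FnK K VX)) (hθ : ∀ v, IsAffK (θ v)) (d1 : Fin C.n1 → ℕ)
    (h1 : ∀ g, ∀ l ∈ C.s1 g, C.leafDeg l = d1 g) (g : Fin C.n1) :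
    IsAffK (aeval θ (C.v1 g)) ∧
      ∀ (E : Finset (PtK K VX)) (k : ℕ), Good E k (d1 g) (aeval θ (C.v1 g)) := by
  have hv : aeval θ (C.v1 g) = ∑ l ∈ C.s1 g, C.c1 g l • aeval θ (C.v0 l) := by
    unfold Circuit.v1
    rw [map_sum]
    apply Finset.sum_congr rfl
    intro l _
    rw [map_mul, aeval_C, Algebra.smul_def]
  have haff : ∀ l, IsAffK (aeval θ (C.v0 l)) := by
    intro l
    unfold Circuit.v0
    rcases C.leaf l with v | r
    · simpa using hθ v
    · rw [Sum.elim_inr, aeval_C, MvPolynomial.algebraMap_apply]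
      exact isAffK_const r
  have hgood : ∀ (E : Finset (PtK K VX)) (k : ℕ) (l), Good E k (C.leafDeg l)
      (aeval θ (C.v0 l)) := by
    intro E k l
    unfold Circuit.v0 Circuit.leafDeg
    rcases C.leaf l with v | r
    · simpa using good_aff (hθ v)
    · rw [Sum.elim_inr, Sum.elim_inr, aeval_C, MvPolynomial.algebraMap_apply]
      exact good_const r
  rw [hv]
  refine ⟨isAffK_sum _ _ fun l _ => isAffK_smul _ (haff l), fun E k => ?_⟩
  apply good_sumK
  intro l hl
  apply good_smul
  rw [← h1 g l hl]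
  exact hgood E k l

end Vale.Agent.P346.FK
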