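import Mathlib

/-!
# P346 (all finite fields): grouping
-/

namespace Vale.Agent.P346.FK

theorem groupsK_aux {ι : Type} (d : ι → ℕ) (t : ℕ) (ht : 0 < t) (J : Multiset ι) :
    ∃ (G : List (Multiset ι)) (o : Multiset ι), G.sum + o = J ∧ (o.map d).sum < t ∧
      G.length * t + (o.map d).sum ≤ (J.map d).sum ∧
      ∀ g ∈ G, (g.map d).sum ≤ 2 * t ∨ ∃ j, g = {j} := by
  induction J using Multiset.induction_on with
  | empty => exact ⟨[], 0, by simp, by simpa using ht, by simp, by simp⟩
  | cons j J ih =>
    obtain ⟨G, o, h1, h2, h3, h4⟩ := ih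
    by_cases hj : t ≤ d j
    · refine ⟨{j} :: G, o, ?_, h2, ?_, ?_⟩
      · rw [List.sum_cons, add_assoc, h1, Multiset.singleton_add]
      · rw [List.length_cons, Multiset.map_cons, Multiset.sum_cons, Nat.succ_mul]
        omega
      · intro g hg
        rw [List.mem_cons] at hg
        rcases hg with rfl | hg
        · exact Or.inr ⟨j, rfl⟩
        · exact h4 g hg
    · push Not at hj
      by_cases hc : d j + (o.map d).sum < t
      · refine ⟨G, j ::ₘ o, ?_, ?_, ?_, h4⟩
        · rw [Multiset.add_cons, h1]
        · rw [Multiset.map_cons, Multiset.sum_cons]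
          exact hc
        · rw [Multiset.map_cons, Multiset.sum_cons, Multiset.map_cons, Multiset.sum_cons]
          omega
      · refine ⟨(j ::ₘ o) :: G, 0, ?_, by simpa using ht, ?_, ?_⟩
        · rw [List.sum_cons, add_zero, Multiset.cons_add, add_comm o, h1]
        · rw [List.length_cons, Multiset.map_cons, Multiset.sum_cons, Nat.succ_mul,
            Multiset.map_zero, Multiset.sum_zero]
          omega
        · intro g hg
          rw [List.mem_cons] at hg
          rcases hg with rfl | hg
          · left
            rw [Multiset.map_cons, Multiset.sum_cons]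
            omega
          · exact h4 g hg

/-- Grouping: a multiset of weighted elements splits into few groups, each of weight at most
`2 * t` or a singleton. -/
theorem groupsK {ι : Type} (J : Multiset ι) (d : ι → ℕ) (t : ℕ) (ht : 0 < t) :
    ∃ G : List (Multiset ι), G.sum = J ∧ G.length ≤ (J.map d).sum / t + 1 ∧
      ∀ g ∈ G, (g.map d).sum ≤ 2 * t ∨ ∃ j, g = {j} := by
  obtain ⟨G, o, h1, h2, h3, h4⟩ := groupsK_aux d t ht J
  refine ⟨o :: G, ?_, ?_, ?_⟩
  · rw [List.sum_cons, add_comm, h1]
  · rw [List.length_cons, Nat.add_le_add_iff_right, Nat.le_div_iff_mul_le ht]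
    omega
  · intro g hg
    rw [List.mem_cons] at hg
    rcases hg with rfl | hg
    · left
      omega
    · exact h4 g hg

end Vale.Agent.P346.FK
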