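import Vale.Agent.P346.K.GoodK

/-!
# P346 (all finite fields): coefficients of a product of few factors
-/

open MvPolynomial

namespace Vale.Agent.P346.FK

variable {K : Type} [Field K]

theorem top_coeff_aux {VX VY : Type} [Fintype VX] [DecidableEq VY] {E : Finset (PtK K VX)}
    {k : ℕ} (L t : ℕ)
    (G : Fin L → MvPolynomial VY (FnK K VX)) (hG : ∀ l, Good E k t (G l))
    (s : Finset (Fin L)) :
    ∃ v : (VY →₀ ℕ) → Finset (Fin L) → FnK K VX, ∀ μ : VY →₀ ℕ, μ.degree ≤ k →
      (∀ A, v μ A ∈ VK K VX (A.card * t)) ∧ (∀ A, μ.degree < A.card → v μ A = 0) ∧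
      ∀ x ∈ E, coeff μ (∏ l ∈ s, G l) x =
        ∑ A ∈ s.powerset, (∏ l ∈ s \ A, coeff 0 (G l) x) * v μ A x := by
  have hG' : ∀ l, ∀ μ : VY →₀ ℕ, ∃ g : FnK K VX, μ.degree ≤ k →
      (g ∈ VK K VX t ∧ ∀ x ∈ E, coeff μ (G l) x = g x) := by
    intro l μ
    by_cases h : μ.degree ≤ k
    · obtain ⟨g, hg1, hg2⟩ := hG l μ h
      exact ⟨g, fun _ => ⟨hg1, hg2⟩⟩
    · exact ⟨0, fun h' => absurd h' h⟩
  choose g hg using hG'
  induction s using Finset.induction_on with
  | empty =>
    refine ⟨fun μ A => if A = ∅ then (fun _ => if μ = 0 then 1 else 0) else 0, ?_⟩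
    intro μ _
    refine ⟨?_, ?_, ?_⟩
    · intro A
      by_cases hA : A = ∅
      · simp only [if_pos hA]
        exact constK_mem _ _
      · simp only [if_neg hA]
        exact Submodule.zero_mem _
    · intro A hA
      beta_reduce
      rw [if_neg]
      rintro rfl
      simp at hA
    · intro x _
      rw [Finset.prod_empty, Finset.powerset_empty, Finset.sum_singleton]
      beta_reduce
      rw [if_pos rfl, coeff_one]
      by_cases hμ : μ = 0
      · simp [hμ]
      · simp [hμ, Ne.symm hμ]
  | insert a s ha ih =>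
    obtain ⟨v, hv⟩ := ih
    refine ⟨fun μ A => if a ∈ A then
      ∑ p ∈ (Finset.HasAntidiagonal.antidiagonal μ).filter (fun p => p.1 ≠ 0), g a p.1 * v p.2 (A.erase a)
      else v μ A, ?_⟩
    intro μ hμ
    have hdeg : ∀ p ∈ Finset.HasAntidiagonal.antidiagonal μ, p.1.degree + p.2.degree = μ.degree := by
      intro p hp
      rw [Finset.HasAntidiagonal.mem_antidiagonal] at hp
      rw [← hp, map_add]
    refine ⟨?_, ?_, ?_⟩
    · intro A
      by_cases hA : a ∈ A
      · simp only [if_pos hA]
        refine Submodule.sum_mem _ fun p hp => ?_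
        obtain ⟨hp1, hp2⟩ := Finset.mem_filter.1 hp
        have h1 := hdeg p hp1
        have h2 := VK_mul (hg a p.1 (by omega)).1 ((hv p.2 (by omega)).1 (A.erase a))
        refine VK_mono ?_ h2
        have h3 := Finset.card_erase_add_one hA
        rw [← h3]
        ring_nf
        exact le_rfl
      · simp only [if_neg hA]
        exact (hv μ hμ).1 A
    · intro A hA'
      by_cases hA : a ∈ A
      · simp only [if_pos hA]
        refine Finset.sum_eq_zero fun p hp => ?_
        obtain ⟨hp1, hp2⟩ := Finset.mem_filter.1 hp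
        have h1 := hdeg p hp1
        have h3 := Finset.card_erase_add_one hA
        have h4 : p.1.degree ≠ 0 := fun h => hp2 ((Finsupp.degree_eq_zero_iff _).1 h)
        rw [(hv p.2 (by omega)).2.1 (A.erase a) (by omega), mul_zero]
      · simp only [if_neg hA]
        exact (hv μ hμ).2.1 A hA'
    · intro x hx
      rw [Finset.prod_insert ha, coeff_mul, Finset.sum_apply, Finset.sum_powerset_insert ha]
      have hsplit : ∑ p ∈ Finset.HasAntidiagonal.antidiagonal μ,
          (coeff p.1 (G a) * coeff p.2 (∏ l ∈ s, G l)) x =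
          coeff 0 (G a) x * coeff μ (∏ l ∈ s, G l) x +
          ∑ p ∈ (Finset.HasAntidiagonal.antidiagonal μ).filter (fun p => p.1 ≠ 0),
            g a p.1 x * coeff p.2 (∏ l ∈ s, G l) x := by
        rw [← Finset.sum_filter_add_sum_filter_not (Finset.HasAntidiagonal.antidiagonal μ) (fun p => p.1 = 0)]
        congr 1
        · rw [Finset.sum_eq_single ((0 : VY →₀ ℕ), μ)]
          · rfl
          · intro p hp hp'
            obtain ⟨hp1, hp2⟩ := Finset.mem_filter.1 hp
            rw [Finset.HasAntidiagonal.mem_antidiagonal, hp2, zero_add] at hp1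
            exact absurd (Prod.ext hp2 hp1) hp'
          · intro h
            exfalso
            apply h
            rw [Finset.mem_filter, Finset.HasAntidiagonal.mem_antidiagonal]
            simp
        · refine Finset.sum_congr rfl fun p hp => ?_
          obtain ⟨hp1, hp2⟩ := Finset.mem_filter.1 hp
          have h1 := hdeg p hp1
          rw [Pi.mul_apply, (hg a p.1 (by omega)).2 x hx]
      rw [hsplit]
      congr 1
      · rw [(hv μ hμ).2.2 x hx, Finset.mul_sum]
        refine Finset.sum_congr rfl fun A hA => ?_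
        have hA' := Finset.mem_powerset.1 hA
        have haA : a ∉ A := fun h => ha (hA' h)
        beta_reduce
        rw [if_neg haA, Finset.insert_sdiff_of_notMem _ haA, Finset.prod_insert, mul_assoc]
        exact fun h => ha (Finset.mem_sdiff.1 h).1
      · have h5 : ∀ p ∈ (Finset.HasAntidiagonal.antidiagonal μ).filter (fun p => p.1 ≠ 0),
            g a p.1 x * coeff p.2 (∏ l ∈ s, G l) x =
            ∑ A ∈ s.powerset, (∏ l ∈ s \ A, coeff 0 (G l) x) * (g a p.1 x * v p.2 A x) := by
          intro p hp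
          obtain ⟨hp1, hp2⟩ := Finset.mem_filter.1 hp
          have h1 := hdeg p hp1
          rw [(hv p.2 (by omega)).2.2 x hx, Finset.mul_sum]
          refine Finset.sum_congr rfl fun A _ => ?_
          ring
        rw [Finset.sum_congr rfl h5, Finset.sum_comm]
        refine Finset.sum_congr rfl fun A hA => ?_
        have hA' := Finset.mem_powerset.1 hA
        have haA : a ∉ A := fun h => ha (hA' h)
        beta_reduce
        rw [if_pos (Finset.mem_insert_self a A), Finset.erase_insert haA, Finset.sum_apply,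
          ← Finset.mul_sum, Finset.insert_sdiff_insert, Finset.sdiff_insert_of_notMem ha]
        rfl

/-- Low order coefficients of a product of `L` factors. -/
theorem top_coeffK {VX VY : Type} [Fintype VX] {E : Finset (PtK K VX)} {k : ℕ} (L t : ℕ)
    (G : Fin L → MvPolynomial VY (FnK K VX)) (hG : ∀ l, Good E k t (G l)) (μ : VY →₀ ℕ)
    (hμ : μ.degree ≤ k) :
    ∃ v : {A : Finset (Fin L) // A.card ≤ k} → FnK K VX, (∀ A, v A ∈ VK K VX (k * t)) ∧
      ∀ x ∈ E, coeff μ (∏ l, G l) x = ∑ A, (∏ l ∈ A.1ᶜ, coeff 0 (G l) x) * v A x := by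
  classical
  obtain ⟨v, hv⟩ := top_coeff_aux L t G hG Finset.univ
  obtain ⟨h1, h2, h3⟩ := hv μ hμ
  refine ⟨fun A => v μ A.1, fun A => VK_mono (Nat.mul_le_mul_right t A.2) (h1 A.1), ?_⟩
  intro x hx
  rw [h3 x hx, Finset.powerset_univ]
  have h4 : ∀ A : Finset (Fin L), Aᶜ = Finset.univ \ A := fun A => Finset.compl_eq_univ_sdiff A
  simp only [h4]
  rw [← Finset.sum_subtype (Finset.univ.filter fun A : Finset (Fin L) => A.card ≤ k)
    (p := fun A => A.card ≤ k) (by simp)
    (fun A => (∏ l ∈ Finset.univ \ A, coeff 0 (G l) x) * v μ A x)]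
  symm
  refine Finset.sum_filter_of_ne fun A _ hA => ?_
  by_contra h
  apply hA
  rw [h2 A (by omega)]
  simp

end Vale.Agent.P346.FK
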