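import Vale.Agent.P346.K.GateK
import Vale.Agent.P346.K.GroupK
import Vale.Agent.P346.K.TopK
import Vale.Agent.P346.K.FormK

/-!
# P346 (all finite fields): homogeneous circuits
-/

open MvPolynomial

namespace Vale.Agent.P346.FK

variable {K : Type} [Field K]

theorem prod_groups {ι M : Type} [CommMonoid M] (f : ι → M) : ∀ (G : List (Multiset ι)) (L : ℕ),
    G.length ≤ L → ∏ l ∈ Finset.range L, ((G.getD l 0).map f).prod = (G.sum.map f).prod
  | [], L, _ => by simp
  | (g :: G), L, h => by
    obtain ⟨L', rfl⟩ : ∃ L', L = L' + 1 := ⟨L - 1, by simp at h; omega⟩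
    rw [Finset.prod_range_succ']
    have h' : G.length ≤ L' := by simpa using h
    have ih := prod_groups f G L' h'
    simp only [List.getD_cons_succ, List.getD_cons_zero, List.sum_cons, Multiset.map_add,
      Multiset.prod_add]
    rw [ih, mul_comm]

theorem good_zero_circ {VX VY : Type} [Fintype VX] {E : Finset (PtK K VX)} {k D : ℕ} :
    Good E k D (0 : MvPolynomial VY (FnK K VX)) := by
  intro μ _
  rw [coeff_zero]
  exact Submodule.zero_mem _

theorem good_sum_circ {VX VY : Type} [Fintype VX] {E : Finset (PtK K VX)} {k D : ℕ} {ι : Type}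
    (s : Finset ι) (f : ι → MvPolynomial VY (FnK K VX)) (h : ∀ i ∈ s, Good E k D (f i)) :
    Good E k D (∑ i ∈ s, f i) := by
  classical
  induction s using Finset.induction_on with
  | empty =>
    rw [Finset.sum_empty]
    exact good_zero_circ
  | insert a s ha ih =>
    rw [Finset.sum_insert ha]
    exact good_add (h a (Finset.mem_insert_self a s))
      (ih fun i hi => h i (Finset.mem_insert_of_mem hi))

theorem aeval_C_mul {X VX VY : Type} (θ : X → MvPolynomial VY (FnK K VX)) (c : K)
    (P : MvPolynomial X K) : aeval θ (C c * P) = c • aeval θ P := by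
  rw [map_mul, ← algebraMap_eq, AlgHom.commutes, ← Algebra.smul_def]

/-- The low order coefficients of the output of a homogeneous circuit. -/
theorem circK [Fintype K] [DecidableEq K] {VX VY : Type} [Fintype VX] [DecidableEq VX]
    [Fintype VY] (n : ℕ) (hn : 0 < n) (C : Circuit K (IVar n n)) (hom : C.Homogeneous)
    (hC : C.out = IMM K n n hn) (θ : IVar n n → MvPolynomial VY (FnK K VX))
    (hθ : ∀ v, IsAffK (θ v)) (τ k : ℕ) (hτ : 1 ≤ τ) :
    ∃ (Bad : Finset (PtK K VX)) (L : ℕ)
      (h : Fin C.n4 × {A : Finset (Fin L) // A.card ≤ k} → FnK K VX),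
      Bad.card * (2 * Fintype.card K) ^ τ ≤
        C.size * (2 ^ k * (2 * Fintype.card K - 1) ^ τ * Fintype.card K ^ Fintype.card VX) ∧
      L = n / ((Fintype.card K - 1) * τ) + 1 ∧
      ∀ μ : VY →₀ ℕ, μ.degree ≤ k →
        ∃ v : Fin C.n4 × {A : Finset (Fin L) // A.card ≤ k} → FnK K VX,
          (∀ i, v i ∈ VK K VX (k * (2 * ((Fintype.card K - 1) * τ)))) ∧
          ∀ x ∉ Bad, coeff μ (aeval θ (IMM K n n hn)) x = ∑ i, h i x * v i x := by
  classical
  obtain ⟨d1, d3, d5, h1, h3, h5⟩ := hom
  have hd5 : d5 = n := formal_degree n hn C hC d1 d3 d5 h1 h3 h5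
  have hq : 2 ≤ Fintype.card K := Fintype.one_lt_card
  set t := (Fintype.card K - 1) * τ with ht
  have ht0 : 0 < t := Nat.mul_pos (by omega) (by omega)
  -- bad sets
  have hgate := fun g : Fin C.n2 => gateK ((C.p2 g).map (fun l => aeval θ (C.v1 l)))
    (fun P hP => by
      obtain ⟨l, _, rfl⟩ := Multiset.mem_map.mp hP
      exact (bottomK C θ hθ d1 h1 l).1) τ k hτ
  choose B hBc hBg using hgate
  set Bad : Finset (PtK K VX) := Finset.univ.biUnion B with hBad
  set E : Finset (PtK K VX) := Badᶜ with hE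
  have hdisj : ∀ g, Disjoint E (B g) := by
    intro g
    rw [hE, Finset.disjoint_left]
    intro x hx hxB
    exact Finset.mem_compl.mp hx (Finset.mem_biUnion.mpr ⟨g, Finset.mem_univ g, hxB⟩)
  have e2 : ∀ g, aeval θ (C.v2 g) = ((C.p2 g).map (fun l => aeval θ (C.v1 l))).prod := by
    intro g
    rw [Circuit.v2, map_multiset_prod, Multiset.map_map]
    rfl
  have g2 : ∀ g, Good E k t (aeval θ (C.v2 g)) := by
    intro g
    rw [e2]
    exact hBg g E (hdisj g)
  have g2' : ∀ g, Good E k ((C.p2 g).map d1).sum (aeval θ (C.v2 g)) := by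
    intro g
    rw [e2]
    exact good_multiset _ _ _ fun l _ => (bottomK C θ hθ d1 h1 l).2 E k
  have e3 : ∀ g, aeval θ (C.v3 g) = ∑ h ∈ C.s3 g, C.c3 g h • aeval θ (C.v2 h) := by
    intro g
    rw [Circuit.v3, map_sum]
    exact Finset.sum_congr rfl fun h _ => aeval_C_mul θ _ _
  have g3 : ∀ g, Good E k t (aeval θ (C.v3 g)) := by
    intro g
    rw [e3]
    exact good_sum_circ _ _ fun h _ => good_smul _ (g2 h)
  have g3' : ∀ g, Good E k (d3 g) (aeval θ (C.v3 g)) := by
    intro g
    rw [e3]
    refine good_sum_circ _ _ fun h hh => good_smul _ ?_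
    have := g2' h
    rwa [h3 g h hh] at this
  -- groups
  have hex : ∀ g : Fin C.n4, ∃ G : Fin (n / t + 1) → MvPolynomial VY (FnK K VX), g ∈ C.s5 →
      ((∀ l, Good E k (2 * t) (G l)) ∧ ∏ l, G l = aeval θ (C.v4 g)) := by
    intro g
    by_cases hg : g ∈ C.s5
    · obtain ⟨G, hsum, hlen, hGr⟩ := groupsK (C.p4 g) d3 t ht0
      rw [h5 g hg, hd5] at hlen
      refine ⟨fun l => ((G.getD l.val 0).map (fun j => aeval θ (C.v3 j))).prod, fun _ => ⟨?_, ?_⟩⟩
      · intro l
        have hcase : ((G.getD l.val 0).map d3).sum ≤ 2 * t ∨ ∃ j, G.getD l.val 0 = {j} := by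
          by_cases hl : l.val < G.length
          · rw [List.getD_eq_getElem _ _ hl]
            exact hGr _ (List.getElem_mem hl)
          · left
            rw [List.getD_eq_default _ _ (by omega)]
            simp
        rcases hcase with hw | ⟨j, hj⟩
        · exact good_mono hw (good_multiset _ _ _ fun i _ => g3' i)
        · simp only [hj, Multiset.map_singleton, Multiset.prod_singleton]
          exact good_mono (by omega) (g3 j)
      · rw [Fin.prod_univ_eq_prod_range
          (fun l => ((G.getD l 0).map (fun j => aeval θ (C.v3 j))).prod), prod_groups _ G _ hlen,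
          hsum, Circuit.v4, map_multiset_prod, Multiset.map_map]
        rfl
    · exact ⟨fun _ => 1, fun h => absurd h hg⟩
  choose G hG using hex
  refine ⟨Bad, n / t + 1, fun i x => if i.1 ∈ C.s5 then
    C.c5 i.1 * ∏ l ∈ i.2.1ᶜ, coeff 0 (G i.1 l) x else 0, ?_, rfl, ?_⟩
  · calc Bad.card * (2 * Fintype.card K) ^ τ
        ≤ (∑ g, (B g).card) * (2 * Fintype.card K) ^ τ :=
          Nat.mul_le_mul_right _ Finset.card_biUnion_le
      _ = ∑ g, (B g).card * (2 * Fintype.card K) ^ τ := Finset.sum_mul _ _ _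
      _ ≤ ∑ _g : Fin C.n2, 2 ^ k * (2 * Fintype.card K - 1) ^ τ *
            Fintype.card K ^ Fintype.card VX := Finset.sum_le_sum fun g _ => hBc g
      _ = C.n2 * (2 ^ k * (2 * Fintype.card K - 1) ^ τ *
            Fintype.card K ^ Fintype.card VX) := by
          rw [Finset.sum_const, Finset.card_univ, Fintype.card_fin, smul_eq_mul]
      _ ≤ _ := Nat.mul_le_mul_right _ (by unfold Circuit.size; omega)
  · intro μ hμ
    have htop : ∀ g : Fin C.n4, ∃ v : {A : Finset (Fin (n / t + 1)) // A.card ≤ k} → FnK K VX,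
        g ∈ C.s5 → ((∀ A, v A ∈ VK K VX (k * (2 * t))) ∧
        ∀ x ∈ E, coeff μ (∏ l, G g l) x =
          ∑ A, (∏ l ∈ A.1ᶜ, coeff 0 (G g l) x) * v A x) := by
      intro g
      by_cases hg : g ∈ C.s5
      · obtain ⟨v, hv⟩ := top_coeffK (n / t + 1) (2 * t) (G g) (hG g hg).1 μ hμ
        exact ⟨v, fun _ => hv⟩
      · exact ⟨fun _ => 0, fun h => absurd h hg⟩
    choose v hv using htop
    refine ⟨fun i => if i.1 ∈ C.s5 then v i.1 i.2 else 0, ?_, ?_⟩
    · intro i
      by_cases hi : i.1 ∈ C.s5
      · simp only [hi, if_true]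
        exact (hv i.1 hi).1 i.2
      · simp only [hi, if_false]
        exact Submodule.zero_mem _
    · intro x hx
      have hxE : x ∈ E := Finset.mem_compl.mpr hx
      have eout : aeval θ (IMM K n n hn) = ∑ g ∈ C.s5, C.c5 g • aeval θ (C.v4 g) := by
        rw [← hC, Circuit.out, map_sum]
        exact Finset.sum_congr rfl fun h _ => aeval_C_mul θ _ _
      have e1 : coeff μ (aeval θ (IMM K n n hn)) x =
          ∑ g ∈ C.s5, C.c5 g * coeff μ (∏ l, G g l) x := by
        rw [eout, coeff_sum, Finset.sum_apply]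
        refine Finset.sum_congr rfl fun g hg => ?_
        rw [coeff_smul, Pi.smul_apply, smul_eq_mul, (hG g hg).2]
      rw [e1, Fintype.sum_prod_type, ← Finset.sum_filter_add_sum_filter_not Finset.univ
        (fun g => g ∈ C.s5)]
      have hz : ∑ g ∈ Finset.univ.filter (fun g => ¬ g ∈ C.s5),
          ∑ A : {A : Finset (Fin (n / t + 1)) // A.card ≤ k},
            (if (g, A).1 ∈ C.s5 then
              C.c5 (g, A).1 * ∏ l ∈ (g, A).2.1ᶜ, coeff 0 (G (g, A).1 l) x else 0) *
            (if (g, A).1 ∈ C.s5 then v (g, A).1 (g, A).2 else 0) x = 0 := by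
        refine Finset.sum_eq_zero fun g hg => Finset.sum_eq_zero fun A _ => ?_
        rw [Finset.mem_filter] at hg
        simp only [hg.2, if_false, zero_mul]
      rw [hz, add_zero]
      have hf : Finset.univ.filter (fun g => g ∈ C.s5) = C.s5 := by
        ext g
        simp
      rw [hf]
      refine Finset.sum_congr rfl fun g hg => ?_
      rw [(hv g hg).2 x hxE, Finset.mul_sum]
      refine Finset.sum_congr rfl fun A _ => ?_
      simp only [hg, if_true]
      ring

end Vale.Agent.P346.FK
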