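import Vale.Agent.P346.K.BallK
import Vale.Agent.P346.K.AnUp

/-!
# P346 (all finite fields): covering by few balls
-/

namespace Vale.Agent.P346.FK

variable {K : Type} [Field K] [Fintype K] [DecidableEq K]

/-- Reading off the digits of `x - c` as a function of `c`. -/
noncomputable def digC {N : ℕ} (x : Fin N → K) : (Fin N → K) ≃ (Fin N → Fin (Fintype.card K)) :=
  Equiv.piCongrRight fun i => (Equiv.subLeft (x i)).trans (idx K)

/-- Reading off the digits of `x - c` as a function of `x`. -/
noncomputable def digX {N : ℕ} (c : Fin N → K) : (Fin N → K) ≃ (Fin N → Fin (Fintype.card K)) :=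
  Equiv.piCongrRight fun i => (Equiv.subRight (c i)).trans (idx K)

theorem stat_digC {N : ℕ} (c x : Fin N → K) : stat c x = ∑ i, (digC x c i).val := rfl

theorem stat_digX {N : ℕ} (c x : Fin N → K) : stat c x = ∑ i, (digX c x i).val := rfl

theorem card_statC {N : ℕ} (x : Fin N → K) (p : ℕ → Prop) [DecidablePred p] :
    (Finset.univ.filter fun c : Fin N → K => p (stat c x)).card =
      (Finset.univ.filter fun y : Fin N → Fin (Fintype.card K) => p (∑ i, (y i).val)).card := by
  refine Finset.card_equiv (digC x) fun c => ?_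
  rw [Finset.mem_filter, Finset.mem_filter, stat_digC]
  simp only [Finset.mem_univ, true_and]

theorem card_statX {N : ℕ} (c : Fin N → K) (p : ℕ → Prop) [DecidablePred p] :
    (Finset.univ.filter fun x : Fin N → K => p (stat c x)).card =
      (Finset.univ.filter fun y : Fin N → Fin (Fintype.card K) => p (∑ i, (y i).val)).card := by
  refine Finset.card_equiv (digX c) fun x => ?_
  rw [Finset.mem_filter, Finset.mem_filter, stat_digX]
  simp only [Finset.mem_univ, true_and]

theorem card_allK {α : Type} [Fintype α] {r : ℕ} (p : α → Prop) [DecidablePred p] :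
    (Finset.univ.filter fun c : Fin r → α => ∀ i, p (c i)).card =
      (Finset.univ.filter fun y : α => p y).card ^ r := by
  classical
  have : (Finset.univ.filter fun c : Fin r → α => ∀ i, p (c i)) =
      Fintype.piFinset fun _ : Fin r => Finset.univ.filter fun y : α => p y := by
    ext c
    simp [Fintype.mem_piFinset]
  rw [this, Fintype.card_piFinset]
  simp

theorem exists_coverK (N θ r : ℕ) :
    ∃ c : Fin r → Fin N → K,
      (Finset.univ.filter fun x : Fin N → K => ∀ i, θ ≤ stat (c i) x).card *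
        (Fintype.card K ^ N) ^ r ≤
      (Finset.univ.filter fun y : Fin N → Fin (Fintype.card K) => θ ≤ ∑ i, (y i).val).card ^ r *
        Fintype.card K ^ N := by
  classical
  by_contra hcon
  push Not at hcon
  set A := (Finset.univ.filter fun y : Fin N → Fin (Fintype.card K) =>
    θ ≤ ∑ i, (y i).val).card with hA
  have hcardN : Fintype.card (Fin N → K) = Fintype.card K ^ N := by simp
  have hsum : ∑ c : Fin r → Fin N → K,
      (Finset.univ.filter fun x : Fin N → K => ∀ i, θ ≤ stat (c i) x).card =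
        Fintype.card K ^ N * A ^ r := by
    simp_rw [Finset.card_filter]
    rw [Finset.sum_comm]
    have : ∀ x : Fin N → K, (∑ c : Fin r → Fin N → K,
        if ∀ i, θ ≤ stat (c i) x then 1 else 0) = A ^ r := by
      intro x
      rw [← Finset.card_filter, card_allK (fun y => θ ≤ stat y x), card_statC x (fun n => θ ≤ n)]
    rw [Finset.sum_congr rfl fun x _ => this x, Finset.sum_const, Finset.card_univ, hcardN,
      smul_eq_mul]
  have hlt : ∑ c : Fin r → Fin N → K, A ^ r * Fintype.card K ^ N <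
      ∑ c : Fin r → Fin N → K,
        (Finset.univ.filter fun x : Fin N → K => ∀ i, θ ≤ stat (c i) x).card *
          (Fintype.card K ^ N) ^ r :=
    Finset.sum_lt_sum_of_nonempty ⟨fun _ _ => 0, Finset.mem_univ _⟩ fun c _ => hcon c
  rw [← Finset.sum_mul (f := fun c : Fin r → Fin N → K =>
    (Finset.univ.filter fun x : Fin N → K => ∀ i, θ ≤ stat (c i) x).card), hsum,
    Finset.sum_const, Finset.card_univ, Fintype.card_fun, hcardN, Fintype.card_fin,
    smul_eq_mul] at hlt
  exact absurd hlt (not_lt.2 (le_of_eq (by ring)))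

/-- Points whose statistics all lie in the window `(μ - T, μ + T)`, one of them below `θ`. -/
noncomputable def WsetK {N r : ℕ} (c : Fin r → Fin N → K) (θ : ℕ) (T : ℝ) :
    Finset (Fin N → K) := by
  classical
  exact Finset.univ.filter fun x =>
    (∀ i, |(stat (c i) x : ℝ) - ((Fintype.card K : ℝ) - 1) * N / 2| < T) ∧
      ∃ i, stat (c i) x < θ

/-- Existence of a good set of centres: if the lower tail has measure at least `π₀`, `r` is large
and the window is wide, then half of the points are good. -/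
theorem exists_goodK (N θ r : ℕ) (T π₀ : ℝ) (hT : 0 < T) (hπ : 0 ≤ π₀) (hπ1 : π₀ ≤ 1)
    (h1 : (Fintype.card K : ℝ) ^ N * π₀ ≤ (cnt (Fintype.card K) (Fin N) (θ - 1) : ℝ))
    (hθ : 1 ≤ θ) (h2 : (1 - π₀) ^ r ≤ 1 / 4)
    (h3 : r * (N * sg (Fintype.card K)) ≤ T ^ 2 / 4) :
    ∃ c : Fin r → Fin N → K,
      (Fintype.card K : ℝ) ^ N / 2 ≤ ((WsetK c θ T).card : ℝ) := by
  classical
  obtain ⟨c, hc⟩ := exists_coverK (K := K) N θ r
  refine ⟨c, ?_⟩
  set q := Fintype.card K with hq
  have hq2 : 2 ≤ q := Fintype.one_lt_card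
  have hqpos : (0 : ℝ) < q := by exact_mod_cast (by omega : 0 < q)
  have hqN : (0 : ℝ) < (q : ℝ) ^ N := by positivity
  set U := (Finset.univ.filter fun x : Fin N → K => ∀ i, θ ≤ stat (c i) x) with hU
  set A := (Finset.univ.filter fun y : Fin N → Fin q => θ ≤ ∑ i, (y i).val).card with hA
  set B := (Finset.univ.filter fun y : Fin N → Fin q =>
      T ≤ |((∑ i, (y i).val : ℕ) : ℝ) - ((q : ℝ) - 1) * N / 2|).card with hB
  have hcardN : Fintype.card (Fin N → K) = q ^ N := by simp [hq]
  -- the lower tail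
  have hAc : (A : ℝ) ≤ (q : ℝ) ^ N * (1 - π₀) := by
    have e1 := Finset.card_filter_add_card_filter_not
      (s := (Finset.univ : Finset (Fin N → Fin q))) (fun y => θ ≤ ∑ i, (y i).val)
    have e2 : (Finset.univ.filter fun y : Fin N → Fin q => ¬ θ ≤ ∑ i, (y i).val).card =
        cnt q (Fin N) (θ - 1) := by
      rw [cnt]
      congr 1
      ext y
      simp only [Finset.mem_filter, Finset.mem_univ, true_and]
      omega
    rw [e2, Finset.card_univ] at e1
    have e3 : Fintype.card (Fin N → Fin q) = q ^ N := by simp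
    rw [e3] at e1
    have e4 : (A : ℝ) + (cnt q (Fin N) (θ - 1) : ℝ) = (q : ℝ) ^ N := by exact_mod_cast e1
    linarith
  have hUc : (U.card : ℝ) ≤ (q : ℝ) ^ N / 4 := by
    have e1 : (U.card : ℝ) * ((q : ℝ) ^ N) ^ r ≤ (A : ℝ) ^ r * (q : ℝ) ^ N := by
      exact_mod_cast hc
    have e2 : (A : ℝ) ^ r ≤ ((q : ℝ) ^ N) ^ r * (1 - π₀) ^ r := by
      rw [← mul_pow]
      exact pow_le_pow_left₀ (Nat.cast_nonneg _) hAc r
    have e3 : (A : ℝ) ^ r ≤ ((q : ℝ) ^ N) ^ r * (1 / 4) :=
      e2.trans (mul_le_mul_of_nonneg_left h2 (by positivity))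
    have e4 : (U.card : ℝ) * ((q : ℝ) ^ N) ^ r ≤ (q : ℝ) ^ N / 4 * ((q : ℝ) ^ N) ^ r := by
      refine e1.trans ?_
      have := mul_le_mul_of_nonneg_right e3 hqN.le
      linarith
    exact le_of_mul_le_mul_right e4 (by positivity)
  have hBc : r * (B : ℝ) ≤ (q : ℝ) ^ N / 4 := by
    have e1 := cheb_digits q hq2 N T hT.le
    rw [← hB] at e1
    have hT2 : 0 < T ^ 2 := by positivity
    have e2 : T ^ 2 * (r * (B : ℝ)) ≤ T ^ 2 * ((q : ℝ) ^ N / 4) := by
      have e3 := mul_le_mul_of_nonneg_left e1 (Nat.cast_nonneg (α := ℝ) r)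
      have e4 := mul_le_mul_of_nonneg_left h3 hqN.le
      nlinarith
    exact le_of_mul_le_mul_left e2 hT2
  -- the covering
  have hcov : (Finset.univ : Finset (Fin N → K)) ⊆
      (WsetK c θ T ∪ U) ∪ (Finset.univ : Finset (Fin r)).biUnion fun i =>
        Finset.univ.filter fun x : Fin N → K =>
          T ≤ |(stat (c i) x : ℝ) - ((q : ℝ) - 1) * N / 2| := by
    intro x _
    rw [Finset.mem_union, Finset.mem_union]
    by_cases g1 : ∀ i, |(stat (c i) x : ℝ) - ((q : ℝ) - 1) * N / 2| < T
    · left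
      by_cases g2 : ∃ i, stat (c i) x < θ
      · left
        rw [WsetK, Finset.mem_filter]
        exact ⟨Finset.mem_univ _, g1, g2⟩
      · right
        rw [hU, Finset.mem_filter]
        push Not at g2
        exact ⟨Finset.mem_univ _, g2⟩
    · right
      push Not at g1
      obtain ⟨i, hi⟩ := g1
      rw [Finset.mem_biUnion]
      exact ⟨i, Finset.mem_univ _, by rw [Finset.mem_filter]; exact ⟨Finset.mem_univ _, hi⟩⟩
  have g3 := (Finset.card_le_card hcov).trans ((Finset.card_union_le _ _).trans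
    (Nat.add_le_add (Finset.card_union_le _ _) Finset.card_biUnion_le))
  rw [Finset.card_univ, hcardN] at g3
  have g4 : ∀ i : Fin r, (Finset.univ.filter fun x : Fin N → K =>
      T ≤ |(stat (c i) x : ℝ) - ((q : ℝ) - 1) * N / 2|).card = B := fun i =>
    card_statX (c i) (fun n => T ≤ |(n : ℝ) - ((q : ℝ) - 1) * N / 2|)
  rw [Finset.sum_congr rfl fun i _ => g4 i, Finset.sum_const, Finset.card_univ,
    Fintype.card_fin, smul_eq_mul] at g3
  have g5 : (q : ℝ) ^ N ≤ ((WsetK c θ T).card : ℝ) + U.card + r * B := by exact_mod_cast g3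
  linarith

end Vale.Agent.P346.FK
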