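import Vale.Agent.P346.K.DegK

/-!
# P346 (all finite fields): row sums count subsets
-/

namespace Vale.Agent.P346.FK

/-- Elementary symmetric sums over a finset. -/
def esum {R : Type} [CommRing R] {N' : ℕ} (z : Fin N' → R) (s : Finset (Fin N')) (k : ℕ) : R :=
  ∑ S ∈ s.powersetCard k, ∏ t ∈ S, z t

theorem esum_insert {R : Type} [CommRing R] {N' : ℕ} (z : Fin N' → R) (s : Finset (Fin N'))
    (a : Fin N') (ha : a ∉ s) (k : ℕ) :
    esum z (insert a s) (k + 1) = z a * esum z s k + esum z s (k + 1) := by
  unfold esum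
  rw [Finset.powersetCard_succ_insert ha, Finset.sum_union, Finset.sum_image, add_comm,
    Finset.mul_sum]
  · congr 1
    refine Finset.sum_congr rfl fun S hS => ?_
    rw [Finset.prod_insert]
    exact fun h => ha ((Finset.mem_powersetCard.1 hS).1 h)
  · intro S hS T hT hST
    have h1 : a ∉ S := fun h => ha ((Finset.mem_powersetCard.1 hS).1 h)
    have h2 : a ∉ T := fun h => ha ((Finset.mem_powersetCard.1 hT).1 h)
    rw [← Finset.erase_insert h1, ← Finset.erase_insert h2, hST]
  · rw [Finset.disjoint_left]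
    intro S hS hS'
    obtain ⟨T, _, rfl⟩ := Finset.mem_image.1 hS'
    exact ha ((Finset.mem_powersetCard.1 hS).1 (Finset.mem_insert_self a T))

/-- The elementary symmetric sums over the positions `≥ i`. -/
def esumGe {R : Type} [CommRing R] {N' : ℕ} (z : Fin N' → R) (k i : ℕ) : R :=
  esum z (Finset.univ.filter fun t : Fin N' => i ≤ (t : ℕ)) k

theorem sum_esumGe {R : Type} [CommRing R] {N' : ℕ} (z : Fin N' → R) (k : ℕ) (d : ℕ) :
    ∀ i : ℕ, i + d = N' →
    ∑ t : Fin N', (if i ≤ (t : ℕ) then z t * esumGe z k ((t : ℕ) + 1) else 0) =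
      esumGe z (k + 1) i := by
  induction d with
  | zero =>
    intro i hi
    have h0 : (Finset.univ.filter fun t : Fin N' => i ≤ (t : ℕ)) = ∅ := by
      rw [Finset.filter_eq_empty_iff]
      intro t _
      omega
    have h1 : esumGe z (k + 1) i = 0 := by
      unfold esumGe esum
      rw [h0, Finset.powersetCard_eq_empty.2 (by simp)]
      simp
    rw [h1]
    refine Finset.sum_eq_zero fun t _ => ?_
    rw [if_neg (by omega)]
  | succ d ih =>
    intro i hi
    have hiN : i < N' := by omega
    have h1 := ih (i + 1) (by omega)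
    have h2 : ∑ t : Fin N', (if i ≤ (t : ℕ) then z t * esumGe z k ((t : ℕ) + 1) else 0) =
        (∑ t : Fin N', if t = ⟨i, hiN⟩ then z t * esumGe z k ((t : ℕ) + 1) else 0) +
        ∑ t : Fin N', (if i + 1 ≤ (t : ℕ) then z t * esumGe z k ((t : ℕ) + 1) else 0) := by
      rw [← Finset.sum_add_distrib]
      refine Finset.sum_congr rfl fun t _ => ?_
      by_cases h1 : t = ⟨i, hiN⟩
      · subst h1
        simp
      · have h4 : (t : ℕ) ≠ i := fun e => h1 (Fin.ext e)
        have h5 : (i ≤ (t : ℕ)) ↔ (i + 1 ≤ (t : ℕ)) := by omega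
        simp only [h1, if_false, zero_add, h5]
    have h3 : (Finset.univ.filter fun t : Fin N' => i ≤ (t : ℕ)) =
        insert ⟨i, hiN⟩ (Finset.univ.filter fun t : Fin N' => i + 1 ≤ (t : ℕ)) := by
      ext t
      simp only [Finset.mem_filter, Finset.mem_univ, true_and, Finset.mem_insert, Fin.ext_iff]
      omega
    rw [h2, h1, Finset.sum_ite_eq' Finset.univ, if_pos (Finset.mem_univ _)]
    unfold esumGe
    rw [h3, esum_insert]
    simp

/-- Row sums of powers of the matrix with entry `z_{j-1}` at `(i, j)`, `i < j`, where the `z` are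
idempotent: they count subsets. -/
theorem rowsumK {R : Type} [CommRing R] (N' k : ℕ) (z : Fin N' → R) :
    ∑ j, ((Matrix.of fun (i j : Fin (N' + 1)) =>
      if h : i < j then z ⟨j - 1, by omega⟩ else 0) ^ k) 0 j =
      ∑ S ∈ (Finset.univ : Finset (Fin N')).powersetCard k, ∏ t ∈ S, z t := by
  have hstep : ∀ k : ℕ, (Matrix.of fun (i j : Fin (N' + 1)) =>
      if h : i < j then z ⟨j - 1, by omega⟩ else 0).mulVec
        (fun i : Fin (N' + 1) => esumGe z k i) = fun i : Fin (N' + 1) => esumGe z (k + 1) i := by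
    intro k
    funext i
    rw [Matrix.mulVec, dotProduct, Fin.sum_univ_succ, ← sum_esumGe z k (N' - i) i (by omega)]
    rw [Matrix.of_apply, dif_neg (Fin.not_lt_zero i), zero_mul, zero_add]
    refine Finset.sum_congr rfl fun t _ => ?_
    simp only [Matrix.of_apply, Fin.val_succ, Nat.add_sub_cancel]
    by_cases h : i ≤ (t : ℕ)
    · have h' : i < t.succ := by
        rw [Fin.lt_def, Fin.val_succ]; omega
      rw [dif_pos h', if_pos h]
    · have h' : ¬ i < t.succ := by
        rw [Fin.lt_def, Fin.val_succ]; omega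
      rw [dif_neg h', if_neg h, zero_mul]
  have hpow : ∀ k : ℕ, ((Matrix.of fun (i j : Fin (N' + 1)) =>
      if h : i < j then z ⟨j - 1, by omega⟩ else 0) ^ k).mulVec (fun _ => 1) =
        fun i : Fin (N' + 1) => esumGe z k i := by
    intro k
    induction k with
    | zero =>
      rw [pow_zero, Matrix.one_mulVec]
      funext i
      simp [esumGe, esum]
    | succ k ih =>
      rw [pow_succ', ← Matrix.mulVec_mulVec, ih, hstep]
  have h := congrFun (hpow k) 0
  simp only [Matrix.mulVec, dotProduct, mul_one] at h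
  rw [h]
  unfold esumGe esum
  simp

end Vale.Agent.P346.FK
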