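import Vale.Agent.P346.K.AffK
import Vale.Agent.P346.K.RowK
import Vale.Agent.P346.Proj

/-!
# P346 (all finite fields): the hard polynomial is a projection of `IMM`
-/

open MvPolynomial

namespace Vale.Agent.P346.FK

section Emb

variable {ι R : Type} [Fintype ι] [DecidableEq ι] [CommRing R] {n : ℕ}

/-- Embedding of matrices. -/
noncomputable def embM (g : ι → Fin n) (M : Matrix ι ι R) : Matrix (Fin n) (Fin n) R :=
  Matrix.of fun i j => (Function.partialInv g i).elim 0 fun a =>
    (Function.partialInv g j).elim 0 fun b => M a b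

theorem embM_apply (g : ι → Fin n) (hg : Function.Injective g) (M : Matrix ι ι R) (a b : ι) :
    embM g M (g a) (g b) = M a b := by
  simp [embM, Function.partialInv_left hg]

theorem embM_pred (g : ι → Fin n) (M : Matrix ι ι R) (p : R → Prop) (h0 : p 0)
    (h : ∀ a b, p (M a b)) (i j : Fin n) : p (embM g M i j) := by
  unfold embM
  rw [Matrix.of_apply]
  cases Function.partialInv g i with
  | none => exact h0
  | some a =>
    cases Function.partialInv g j with
    | none => exact h0
    | some b => exact h a b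

theorem embM_mul (g : ι → Fin n) (hg : Function.Injective g) (M N : Matrix ι ι R) :
    embM g M * embM g N = embM g (M * N) := by
  ext i j
  rw [Matrix.mul_apply]
  have h := Fintype.sum_of_injective g hg (fun c => embM g M i (g c) * embM g N (g c) j)
    (fun k => embM g M i k * embM g N k j) (by
      intro k hk
      have h2 : Function.partialInv g k = none := by
        cases h : Function.partialInv g k with
        | none => rfl
        | some a => exact absurd ⟨a, (Function.Injective.isPartialInv hg a k).1 h⟩ hk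
      simp [embM, h2]) (fun c => rfl)
  rw [← h]
  cases hi : Function.partialInv g i with
  | none => simp [embM, hi]
  | some a =>
    cases hj : Function.partialInv g j with
    | none => simp [embM, hi, hj, Function.partialInv_left hg]
    | some b => simp [embM, hi, hj, Function.partialInv_left hg, Matrix.mul_apply]

theorem embM_list_prod (g : ι → Fin n) (hg : Function.Injective g)
    (l : List (Matrix ι ι R)) (hl : l ≠ []) : (l.map (embM g)).prod = embM g l.prod := by
  induction l with
  | nil => exact absurd rfl hl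
  | cons a l ih =>
    by_cases h : l = []
    · subst h
      simp
    · rw [List.map_cons, List.prod_cons, ih h, embM_mul g hg, List.prod_cons]

/-- Matrices whose row `s0` vanishes outside `s0`. -/
theorem row_prodK (s0 : ι) (l : List (Matrix ι ι R))
    (hl : ∀ A ∈ l, ∀ j, j ≠ s0 → A s0 j = 0) :
    (l.prod s0 s0 = (l.map fun A => A s0 s0).prod) ∧ ∀ j, j ≠ s0 → l.prod s0 j = 0 := by
  induction l with
  | nil =>
    constructor
    · simp
    · intro j hj
      simp [hj.symm]
  | cons A l ih =>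
    obtain ⟨ih1, ih2⟩ := ih fun B hB => hl B (List.mem_cons_of_mem _ hB)
    have hA := hl A List.mem_cons_self
    have key : ∀ j, (A * l.prod) s0 j = A s0 s0 * l.prod s0 j := by
      intro j
      rw [Matrix.mul_apply]
      refine Finset.sum_eq_single s0 (fun b _ hb => ?_) (fun h => absurd (Finset.mem_univ _) h)
      rw [hA b hb, zero_mul]
    constructor
    · rw [List.prod_cons, key, ih1, List.map_cons, List.prod_cons]
    · intro j hj
      rw [List.prod_cons, key, ih2 j hj, mul_zero]

end Emb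

section Layers

variable {R : Type} [CommRing R] {N' r : ℕ}

/-- Product over an initial range. -/
def rprod {M : Type} [Monoid M] (G : ℕ → M) (a : ℕ) : M := ((List.range a).map G).prod

theorem rprod_add {M : Type} [Monoid M] (G : ℕ → M) (a b : ℕ) :
    rprod G (a + b) = rprod G a * rprod (fun i => G (a + i)) b := by
  unfold rprod
  rw [List.range_add, List.map_append, List.prod_append, List.map_map]
  rfl

theorem rprod_one {M : Type} [Monoid M] (G : ℕ → M) : rprod G 1 = G 0 := by
  simp [rprod]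

theorem rprod_congr {M : Type} [Monoid M] (G H : ℕ → M) (a : ℕ) (h : ∀ i, i < a → G i = H i) :
    rprod G a = rprod H a := by
  unfold rprod
  rw [List.map_congr_left fun i hi => h i (List.mem_range.1 hi)]

theorem rprod_const {M : Type} [Monoid M] (x : M) (a : ℕ) : rprod (fun _ => x) a = x ^ a := by
  simp [rprod]

theorem rprod_block {M : Type} [Monoid M] (G : ℕ → M) (m k : ℕ) :
    rprod G (m * k) = rprod (fun v => rprod (fun s => G (v * k + s)) k) m :=
  range_block G m k

theorem rprod_macro {M : Type} [Monoid M] (T D : M) (q κ : ℕ) (hq : 0 < q) :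
    rprod (fun u => if u % q = 0 then T else D) (κ * q) = (T * D ^ (q - 1)) ^ κ := by
  rw [rprod_block]
  have h : ∀ v, rprod (fun s => if (v * q + s) % q = 0 then T else D) q = T * D ^ (q - 1) := by
    intro v
    have h1 : rprod (fun s => if (v * q + s) % q = 0 then T else D) q =
        rprod (fun s => if s = 0 then T else D) q := by
      refine rprod_congr _ _ _ fun s hs => ?_
      have h2 : (v * q + s) % q = s := by
        rw [mul_comm, Nat.mul_add_mod, Nat.mod_eq_of_lt hs]
      rw [h2]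
    have h3 : q = 1 + (q - 1) := by omega
    rw [h1]
    conv_lhs => rw [h3]
    rw [rprod_add, rprod_one, if_pos rfl]
    have h4 : rprod (fun i => if 1 + i = 0 then T else D) (q - 1) = D ^ (q - 1) := by
      rw [← rprod_const]
      refine rprod_congr _ _ _ fun s _ => ?_
      rw [if_neg (by omega)]
    rw [h4]
  simp only [h]
  rw [rprod_const]

/-- Start layer. -/
def Smat (s0 : Fin (N' + 1) × Fin r) :
    Matrix (Fin (N' + 1) × Fin r) (Fin (N' + 1) × Fin r) R :=
  Matrix.of fun a b => if a = s0 then (if b.1 = 0 then 1 else 0) else 0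

/-- Shift layer. -/
def Tmat : Matrix (Fin (N' + 1) × Fin r) (Fin (N' + 1) × Fin r) R :=
  Matrix.blockDiagonal fun _ : Fin r =>
    Matrix.of fun i j : Fin (N' + 1) => if i < j then 1 else 0

/-- Diagonal layer. -/
def Dmat (z : Fin r → Fin N' → R) : Matrix (Fin (N' + 1) × Fin r) (Fin (N' + 1) × Fin r) R :=
  Matrix.blockDiagonal fun c : Fin r =>
    Matrix.diagonal fun j : Fin (N' + 1) => if h : 0 < (j : ℕ) then z c ⟨j - 1, by omega⟩ else 0

/-- Switch layer. -/
def Wmat (y : Fin r → Fin r → R) : Matrix (Fin (N' + 1) × Fin r) (Fin (N' + 1) × Fin r) R :=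
  Matrix.of fun a b => if b.1 = 0 then y a.2 b.2 else 0

/-- End layer. -/
def Nmat (s0 : Fin (N' + 1) × Fin r) :
    Matrix (Fin (N' + 1) × Fin r) (Fin (N' + 1) × Fin r) R :=
  Matrix.of fun _ b => if b = s0 then 1 else 0

/-- The matrix of one macro step of one block. -/
def Mz (z : Fin N' → R) (e : ℕ) : Matrix (Fin (N' + 1)) (Fin (N' + 1)) R :=
  Matrix.of fun i j => if h : i < j then (z ⟨j - 1, by omega⟩) ^ e else 0

theorem macro_eq (z : Fin r → Fin N' → R) (e κ : ℕ) :
    (Tmat * Dmat z ^ e) ^ κ = Matrix.blockDiagonal fun c => Mz (z c) e ^ κ := by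
  have h1 : Dmat z ^ e = Matrix.blockDiagonal fun c : Fin r =>
      Matrix.diagonal fun j : Fin (N' + 1) =>
        (if h : 0 < (j : ℕ) then z c ⟨j - 1, by omega⟩ else 0) ^ e := by
    unfold Dmat
    rw [← Matrix.blockDiagonal_pow]
    congr 1
    funext c
    rw [Pi.pow_apply, Matrix.diagonal_pow]
    rfl
  have h2 : Tmat * Dmat z ^ e = Matrix.blockDiagonal fun c => Mz (z c) e := by
    rw [h1, Tmat, ← Matrix.blockDiagonal_mul]
    congr 1
    funext c
    ext i j
    rw [Matrix.mul_diagonal, Mz, Matrix.of_apply, Matrix.of_apply]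
    by_cases h : i < j
    · have hj : 0 < (j : ℕ) := by
        rw [Fin.lt_def] at h; omega
      rw [if_pos h, dif_pos h, dif_pos hj, one_mul]
    · rw [if_neg h, dif_neg h, zero_mul]
  rw [h2, ← Matrix.blockDiagonal_pow]
  rfl

/-- The block product. -/
theorem block_entry (s0 : Fin (N' + 1) × Fin r) (P Q : Fin r → Matrix (Fin (N' + 1)) (Fin (N' + 1)) R)
    (y : Fin r → Fin r → R) (b : Fin (N' + 1) × Fin r) :
    (Smat s0 * (Matrix.blockDiagonal P * (Wmat y * (Matrix.blockDiagonal Q * Nmat s0))) :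
      Matrix (Fin (N' + 1) × Fin r) (Fin (N' + 1) × Fin r) R) s0 b =
      if b = s0 then ∑ c, ∑ c', y c c' * ((∑ j, P c 0 j) * (∑ j, Q c' 0 j)) else 0 := by
  have h1 : ∀ a, (Matrix.blockDiagonal Q * Nmat s0 :
      Matrix (Fin (N' + 1) × Fin r) (Fin (N' + 1) × Fin r) R) a b =
      if b = s0 then ∑ j, Q a.2 a.1 j else 0 := by
    intro a
    rw [Matrix.mul_apply, Fintype.sum_prod_type]
    simp only [Nmat, Matrix.of_apply, Matrix.blockDiagonal_apply]
    by_cases hb : b = s0
    · simp [hb]
    · simp [hb]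
  have h2 : ∀ a, (Wmat y * (Matrix.blockDiagonal Q * Nmat s0) :
      Matrix (Fin (N' + 1) × Fin r) (Fin (N' + 1) × Fin r) R) a b =
      if b = s0 then ∑ c', y a.2 c' * ∑ j, Q c' 0 j else 0 := by
    intro a
    rw [Matrix.mul_apply, Fintype.sum_prod_type_right]
    simp only [h1, Wmat, Matrix.of_apply]
    by_cases hb : b = s0
    · simp [hb]
    · simp [hb]
  have h3 : ∀ a, (Matrix.blockDiagonal P * (Wmat y * (Matrix.blockDiagonal Q * Nmat s0)) :
      Matrix (Fin (N' + 1) × Fin r) (Fin (N' + 1) × Fin r) R) a b =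
      if b = s0 then ∑ j, P a.2 a.1 j * ∑ c', y a.2 c' * ∑ j, Q c' 0 j else 0 := by
    intro a
    rw [Matrix.mul_apply, Fintype.sum_prod_type]
    simp only [h2, Matrix.blockDiagonal_apply]
    by_cases hb : b = s0
    · simp [hb]
    · simp [hb]
  rw [Matrix.mul_apply, Fintype.sum_prod_type_right]
  simp only [h3, Smat, Matrix.of_apply]
  by_cases hb : b = s0
  · simp only [hb, if_true, if_pos]
    refine Finset.sum_congr rfl fun c _ => ?_
    simp only [ite_mul, one_mul, zero_mul, Finset.sum_ite_eq', Finset.mem_univ, if_true]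
    rw [← Finset.sum_mul, Finset.mul_sum]
    refine Finset.sum_congr rfl fun c' _ => ?_
    ring
  · simp [hb]

/-- The layers of one block. -/
def layB (q κ : ℕ) (s0 : Fin (N' + 1) × Fin r) (z0 z1 : Fin r → Fin N' → R)
    (y : Fin r → Fin r → R) (ρ : ℕ) :
    Matrix (Fin (N' + 1) × Fin r) (Fin (N' + 1) × Fin r) R :=
  if ρ = 0 then Smat s0
  else if ρ < 1 + κ * q then (if (ρ - 1) % q = 0 then Tmat else Dmat z0)
  else if ρ = 1 + κ * q then Wmat y
  else if ρ < 2 + κ * q + κ * q then (if (ρ - (2 + κ * q)) % q = 0 then Tmat else Dmat z1)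
  else Nmat s0

theorem layB_prod (q κ : ℕ) (hq : 0 < q) (s0 : Fin (N' + 1) × Fin r)
    (z0 z1 : Fin r → Fin N' → R) (y : Fin r → Fin r → R) :
    rprod (layB q κ s0 z0 z1 y) (2 * (κ * q) + 3) =
      Smat s0 * (Matrix.blockDiagonal (fun c => Mz (z0 c) (q - 1) ^ κ) *
        (Wmat y * (Matrix.blockDiagonal (fun c => Mz (z1 c) (q - 1) ^ κ) * Nmat s0))) := by
  have e : 2 * (κ * q) + 3 = 1 + (κ * q + (1 + (κ * q + 1))) := by ring
  rw [e, rprod_add, rprod_one, rprod_add, rprod_add, rprod_one, rprod_add, rprod_one,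
    ← macro_eq, ← macro_eq, ← rprod_macro _ _ q κ hq, ← rprod_macro _ _ q κ hq]
  have h1 : layB q κ s0 z0 z1 y 0 = Smat s0 := by
    simp [layB]
  have h2 : rprod (fun i => layB q κ s0 z0 z1 y (1 + i)) (κ * q) =
      rprod (fun u => if u % q = 0 then Tmat else Dmat z0) (κ * q) := by
    refine rprod_congr _ _ _ fun i hi => ?_
    unfold layB
    rw [if_neg (by omega), if_pos (by omega)]
    have : 1 + i - 1 = i := by omega
    rw [this]
  have h3 : layB q κ s0 z0 z1 y (1 + (κ * q + 0)) = Wmat y := by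
    unfold layB
    rw [if_neg (by omega), if_neg (by omega), if_pos (by omega)]
  have h4 : rprod (fun i => layB q κ s0 z0 z1 y (1 + (κ * q + (1 + i)))) (κ * q) =
      rprod (fun u => if u % q = 0 then Tmat else Dmat z1) (κ * q) := by
    refine rprod_congr _ _ _ fun i hi => ?_
    unfold layB
    rw [if_neg (by omega), if_neg (by omega), if_neg (by omega), if_pos (by omega)]
    have : 1 + (κ * q + (1 + i)) - (2 + κ * q) = i := by omega
    rw [this]
  have h5 : layB q κ s0 z0 z1 y (1 + (κ * q + (1 + (κ * q + 0)))) = Nmat s0 := by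
    unfold layB
    rw [if_neg (by omega), if_neg (by omega), if_neg (by omega), if_neg (by omega)]
  rw [h1, h2, h3, h4, h5]

theorem layB_pred (p : R → Prop) (h0 : p 0) (h1 : p 1) (q κ : ℕ) (s0 : Fin (N' + 1) × Fin r)
    (z0 z1 : Fin r → Fin N' → R) (y : Fin r → Fin r → R) (hz0 : ∀ c t, p (z0 c t))
    (hz1 : ∀ c t, p (z1 c t)) (hy : ∀ c c', p (y c c')) (ρ : ℕ) (a b : Fin (N' + 1) × Fin r) :
    p (layB q κ s0 z0 z1 y ρ a b) := by
  have hT : ∀ a b, p ((Tmat : Matrix (Fin (N' + 1) × Fin r) (Fin (N' + 1) × Fin r) R) a b) := by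
    intro a b
    unfold Tmat
    rw [Matrix.blockDiagonal_apply]
    split_ifs
    · rw [Matrix.of_apply]
      split_ifs
      · exact h1
      · exact h0
    · exact h0
  have hD : ∀ z : Fin r → Fin N' → R, (∀ c t, p (z c t)) → ∀ a b, p (Dmat z a b) := by
    intro z hz a b
    unfold Dmat
    rw [Matrix.blockDiagonal_apply]
    split_ifs
    · rw [Matrix.diagonal_apply]
      split_ifs
      · exact hz _ _
      · exact h0
      · exact h0
    · exact h0
  unfold layB
  split_ifs
  · unfold Smat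
    rw [Matrix.of_apply]
    split_ifs
    · exact h1
    · exact h0
    · exact h0
  · exact hT a b
  · exact hD z0 hz0 a b
  · unfold Wmat
    rw [Matrix.of_apply]
    split_ifs
    · exact hy _ _
    · exact h0
  · exact hT a b
  · exact hD z1 hz1 a b
  · unfold Nmat
    rw [Matrix.of_apply]
    split_ifs
    · exact h1
    · exact h0

/-- All layers. -/
def layL {m : ℕ} (q κ : ℕ) (s0 : Fin (N' + 1) × Fin r) (z0 z1 : Fin m → Fin r → Fin N' → R)
    (y : Fin m → Fin r → Fin r → R) (l : ℕ) :
    Matrix (Fin (N' + 1) × Fin r) (Fin (N' + 1) × Fin r) R :=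
  if h : l / (2 * (κ * q) + 3) < m then
    layB q κ s0 (z0 ⟨l / (2 * (κ * q) + 3), h⟩) (z1 ⟨l / (2 * (κ * q) + 3), h⟩)
      (y ⟨l / (2 * (κ * q) + 3), h⟩) (l % (2 * (κ * q) + 3))
  else 1

theorem layL_entry {m : ℕ} (n q κ : ℕ) (hq : 0 < q) (s0 : Fin (N' + 1) × Fin r)
    (z0 z1 : Fin m → Fin r → Fin N' → R) (y : Fin m → Fin r → Fin r → R)
    (hL : m * (2 * (κ * q) + 3) ≤ n) :
    rprod (layL q κ s0 z0 z1 y) n s0 s0 =
      ∏ b : Fin m, ∑ c, ∑ c', y b c c' *
        ((∑ j, (Mz (z0 b c) (q - 1) ^ κ) 0 j) * (∑ j, (Mz (z1 b c') (q - 1) ^ κ) 0 j)) := by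
  obtain ⟨e, rfl⟩ : ∃ e, n = m * (2 * (κ * q) + 3) + e := ⟨n - m * (2 * (κ * q) + 3), by omega⟩
  have h1 : rprod (fun i => layL q κ s0 z0 z1 y (m * (2 * (κ * q) + 3) + i)) e = 1 := by
    rw [rprod_congr _ (fun _ => 1), rprod_const, one_pow]
    intro i _
    unfold layL
    rw [dif_neg]
    rw [not_lt, Nat.le_div_iff_mul_le (by omega)]
    exact Nat.le_add_right _ _
  rw [rprod_add, h1, mul_one, rprod_block]
  have h2 : ∀ v : Fin m, rprod (fun s => layL q κ s0 z0 z1 y ((v : ℕ) * (2 * (κ * q) + 3) + s))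
      (2 * (κ * q) + 3) = rprod (layB q κ s0 (z0 v) (z1 v) (y v)) (2 * (κ * q) + 3) := by
    intro v
    refine rprod_congr _ _ _ fun s hs => ?_
    have hd : ((v : ℕ) * (2 * (κ * q) + 3) + s) / (2 * (κ * q) + 3) = v := by
      rw [mul_comm, Nat.mul_add_div (by omega), Nat.div_eq_of_lt hs, add_zero]
    have hm : ((v : ℕ) * (2 * (κ * q) + 3) + s) % (2 * (κ * q) + 3) = s := by
      rw [mul_comm, Nat.mul_add_mod, Nat.mod_eq_of_lt hs]
    unfold layL
    simp only [hd, hm, dif_pos v.2]
  have h3 : rprod (fun v => rprod (fun s => layL q κ s0 z0 z1 y (v * (2 * (κ * q) + 3) + s))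
      (2 * (κ * q) + 3)) m = (List.ofFn fun v : Fin m =>
        rprod (layB q κ s0 (z0 v) (z1 v) (y v)) (2 * (κ * q) + 3)).prod := by
    have hr : List.range m = (List.finRange m).map (fun x : Fin m => (x : ℕ)) :=
      List.map_coe_finRange_eq_range.symm
    rw [rprod, List.ofFn_eq_map, hr, List.map_map]
    congr 1
    refine List.map_congr_left fun v _ => ?_
    exact h2 v
  have h4 := (row_prodK s0 (List.ofFn fun v : Fin m =>
    rprod (layB q κ s0 (z0 v) (z1 v) (y v)) (2 * (κ * q) + 3)) (by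
      intro A hA j hj
      obtain ⟨v, rfl⟩ := (List.mem_ofFn' _ _).1 hA
      beta_reduce
      rw [layB_prod q κ hq, block_entry, if_neg hj])).1
  rw [h3, h4, List.map_ofFn, List.prod_ofFn]
  refine Finset.prod_congr rfl fun v _ => ?_
  simp only [Function.comp_apply]
  rw [layB_prod q κ hq, block_entry, if_pos rfl]

end Layers

variable {K : Type} [Field K] [Fintype K] [DecidableEq K]

section Aff

variable {VX VY : Type} [Fintype VX] [Fintype VY]

theorem isAffK_C (f : FnK K VX) (hf : IsAffFn f) :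
    IsAffK (C f : MvPolynomial VY (FnK K VX)) := by
  obtain ⟨α, β, rfl⟩ := hf
  refine ⟨α, β, fun _ => 0, ?_⟩
  have : (C (fun _ => (0 : K)) : MvPolynomial VY (FnK K VX)) = 0 := map_zero C
  simp [this]

theorem isAffFn_const (a : K) : IsAffFn (fun _ => a : FnK K VX) :=
  ⟨a, fun _ => 0, by funext x; simp⟩

theorem isAffK_zero_proj : IsAffK (0 : MvPolynomial VY (FnK K VX)) := by
  have h := isAffK_C (VY := VY) _ (isAffFn_const (VX := VX) (0 : K))
  have e : (C (fun _ => (0 : K)) : MvPolynomial VY (FnK K VX)) = 0 := map_zero C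
  rwa [e] at h

theorem isAffK_one : IsAffK (1 : MvPolynomial VY (FnK K VX)) := by
  have h := isAffK_C (VY := VY) _ (isAffFn_const (VX := VX) (1 : K))
  have e : (C (fun _ => (1 : K)) : MvPolynomial VY (FnK K VX)) = 1 := map_one C
  rwa [e] at h

theorem isAffK_X [DecidableEq VY] (y : VY) : IsAffK (X y : MvPolynomial VY (FnK K VX)) := by
  refine ⟨0, fun _ => 0, Pi.single y 1, ?_⟩
  have e : (C (fun _ => (0 : K)) : MvPolynomial VY (FnK K VX)) = 0 := map_zero C
  have e1 : (C (fun _ => (1 : K)) : MvPolynomial VY (FnK K VX)) = 1 := map_one C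
  rw [Finset.sum_eq_single y]
  · simp [e, e1]
  · intro b _ hb
    rw [Pi.single_eq_of_ne hb, e, zero_mul]
  · intro h
    exact absurd (Finset.mem_univ _) h

end Aff

/-- The row sums of one block. -/
theorem rowsum_choose {VX VY : Type} (N' κ : ℕ) (ℓ : Fin N' → FnK K VX) :
    ∑ j, (Mz (fun t => (C (ℓ t) : MvPolynomial VY (FnK K VX))) (Fintype.card K - 1) ^ κ) 0 j =
      C (fun x => (((Finset.univ.filter fun t => ℓ t x ≠ 0).card.choose κ : ℕ) : K)) := by
  have h := rowsumK N' κ (fun t => (C (ℓ t) : MvPolynomial VY (FnK K VX)) ^ (Fintype.card K - 1))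
  have e : Mz (fun t => (C (ℓ t) : MvPolynomial VY (FnK K VX))) (Fintype.card K - 1) =
      Matrix.of fun (i j : Fin (N' + 1)) =>
        if h : i < j then (C (ℓ ⟨j - 1, by omega⟩) : MvPolynomial VY (FnK K VX)) ^
          (Fintype.card K - 1) else 0 := rfl
  rw [e, h]
  simp only [← map_pow, ← map_prod, ← map_sum]
  congr 1
  funext x
  simp only [Finset.sum_apply, Finset.prod_apply, Pi.pow_apply]
  have h1 : ∀ t, ℓ t x ^ (Fintype.card K - 1) = if ℓ t x ≠ 0 then 1 else 0 := by
    intro t
    by_cases ht : ℓ t x = 0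
    · rw [if_neg (not_not.2 ht), ht, zero_pow]
      have := Fintype.one_lt_card (α := K)
      omega
    · rw [if_pos ht, FiniteField.pow_card_sub_one_eq_one _ ht]
  have h2 : ∀ S : Finset (Fin N'), ∏ t ∈ S, ℓ t x ^ (Fintype.card K - 1) =
      if S ⊆ (Finset.univ.filter fun t => ℓ t x ≠ 0) then 1 else 0 := by
    intro S
    simp only [h1]
    by_cases hS : S ⊆ (Finset.univ.filter fun t => ℓ t x ≠ 0)
    · rw [if_pos hS]
      refine Finset.prod_eq_one fun t ht => ?_
      rw [if_pos (Finset.mem_filter.1 (hS ht)).2]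
    · rw [if_neg hS]
      obtain ⟨t, ht, ht2⟩ := Finset.not_subset.1 hS
      refine Finset.prod_eq_zero ht ?_
      rw [if_neg]
      intro h
      exact ht2 (Finset.mem_filter.2 ⟨Finset.mem_univ _, h⟩)
  simp only [h2]
  rw [← Finset.sum_filter, Finset.sum_const, nsmul_eq_mul, mul_one, ← Finset.card_powersetCard]
  congr 2
  ext S
  simp only [Finset.mem_filter, Finset.mem_powersetCard, Finset.subset_univ, true_and]
  tauto

theorem projK {VX : Type} [Fintype VX] [DecidableEq VX] (n m N' κ r : ℕ) (hn : 0 < n)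
    (hr : 0 < r)
    (ℓ : Fin m → Fin 2 → Fin r → Fin N' → FnK K VX) (hℓ : ∀ b s c t, IsAffFn (ℓ b s c t))
    (hw : r * (N' + 1) ≤ n) (hL : m * (2 * (κ * Fintype.card K) + 3) ≤ n) :
    ∃ θ : IVar n n → MvPolynomial (Fin m × Fin r × Fin r) (FnK K VX),
      (∀ v, IsAffK (θ v)) ∧
      aeval θ (IMM K n n hn) =
        ∏ b : Fin m, ∑ c : Fin r, ∑ c' : Fin r, X (b, c, c') * C (fun x =>
          (((Finset.univ.filter fun t => ℓ b 0 c t x ≠ 0).card.choose κ : ℕ) : K) *
          (((Finset.univ.filter fun t => ℓ b 1 c' t x ≠ 0).card.choose κ : ℕ) : K)) := by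
  classical
  set s0 : Fin (N' + 1) × Fin r := (0, ⟨0, hr⟩) with hs0
  set g : Fin (N' + 1) × Fin r → Fin n := fun a =>
    Fin.castLE (by rw [mul_comm]; exact hw) (finProdFinEquiv a) with hgdef
  have hg : Function.Injective g := by
    intro a b hab
    exact finProdFinEquiv.injective (Fin.castLE_injective _ hab)
  have hg0 : g s0 = ⟨0, hn⟩ := by
    rw [hgdef, hs0]
    apply Fin.ext
    simp [finProdFinEquiv]
  set z0 : Fin m → Fin r → Fin N' → MvPolynomial (Fin m × Fin r × Fin r) (FnK K VX) :=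
    fun b c t => C (ℓ b 0 c t) with hz0
  set z1 : Fin m → Fin r → Fin N' → MvPolynomial (Fin m × Fin r × Fin r) (FnK K VX) :=
    fun b c t => C (ℓ b 1 c t) with hz1
  set y : Fin m → Fin r → Fin r → MvPolynomial (Fin m × Fin r × Fin r) (FnK K VX) :=
    fun b c c' => X (b, c, c') with hy
  set L : ℕ → Matrix (Fin (N' + 1) × Fin r) (Fin (N' + 1) × Fin r)
    (MvPolynomial (Fin m × Fin r × Fin r) (FnK K VX)) :=
    layL (Fintype.card K) κ s0 z0 z1 y with hLdef
  refine ⟨fun v => embM g (L v.1) v.2.1 v.2.2, ?_, ?_⟩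
  · intro v
    refine embM_pred g _ IsAffK isAffK_zero_proj ?_ _ _
    intro a b
    rw [hLdef]
    unfold layL
    split_ifs with h
    · exact layB_pred IsAffK isAffK_zero_proj isAffK_one _ _ _ _ _ _
        (fun c t => isAffK_C _ (hℓ _ _ _ _)) (fun c t => isAffK_C _ (hℓ _ _ _ _))
        (fun c c' => isAffK_X _) _ _ _
    · rw [Matrix.one_apply]
      split_ifs
      · exact isAffK_one
      · exact isAffK_zero_proj
  · set f : MvPolynomial (IVar n n) K →+* MvPolynomial (Fin m × Fin r × Fin r) (FnK K VX) :=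
      (aeval fun v : IVar n n => embM g (L v.1) v.2.1 v.2.2 :
        MvPolynomial (IVar n n) K →ₐ[K] _).toRingHom with hf
    have h1 : aeval (fun v : IVar n n => embM g (L v.1) v.2.1 v.2.2) (IMM K n n hn) =
        ((List.ofFn fun l : Fin n => embM g (L l)).prod) ⟨0, hn⟩ ⟨0, hn⟩ := by
      unfold IMM
      have h2 := map_list_prod (f.mapMatrix (m := Fin n)) (List.ofFn (genMat K n n))
      rw [List.map_ofFn] at h2
      have h3 : (⇑(f.mapMatrix (m := Fin n)) ∘ (genMat K n n)) =
          fun l : Fin n => embM g (L l) := by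
        funext l
        ext i j
        simp [genMat, hf]
      rw [h3] at h2
      rw [← h2]
      rfl
    rw [h1]
    have h4 : (List.ofFn fun l : Fin n => embM g (L l)) = ((List.range n).map L).map (embM g) := by
      have hrn : List.range n = (List.finRange n).map (fun x : Fin n => (x : ℕ)) :=
        List.map_coe_finRange_eq_range.symm
      rw [List.ofFn_eq_map, hrn, List.map_map, List.map_map]
      rfl
    rw [h4, embM_list_prod g hg _ (by
      intro h
      rw [List.map_eq_nil_iff, List.range_eq_nil] at h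
      omega), ← hg0, embM_apply g hg]
    have h5 := layL_entry n (Fintype.card K) κ Fintype.card_pos s0 z0 z1 y hL
    rw [rprod] at h5
    rw [h5]
    refine Finset.prod_congr rfl fun b _ => Finset.sum_congr rfl fun c _ =>
      Finset.sum_congr rfl fun c' _ => ?_
    rw [hz0, hz1, hy]
    beta_reduce
    rw [rowsum_choose, rowsum_choose, ← map_mul]
    rfl

end Vale.Agent.P346.FK
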