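import Vale.Agent.P346.K.CircK
import Vale.Agent.P346.K.CoverK
import Vale.Agent.P346.K.BitK
import Vale.Agent.P346.K.ProjK

/-!
# P346 (all finite fields): the core inequality
-/

open MvPolynomial

namespace Vale.Agent.P346.FK

variable {K : Type} [Field K] [Fintype K] [DecidableEq K]

/-- The exponent vector of a choice. -/
noncomputable def muS {m : ℕ} {Y : Type} (σ : Fin m → Y) : (Fin m × Y) →₀ ℕ :=
  ∑ b, Finsupp.single (b, σ b) 1

theorem muS_apply {m : ℕ} {Y : Type} [DecidableEq Y] (σ : Fin m → Y) (b : Fin m) (y : Y) :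
    muS σ (b, y) = if σ b = y then 1 else 0 := by
  classical
  unfold muS
  rw [Finsupp.finset_sum_apply, Finset.sum_eq_single b]
  · rw [Finsupp.single_apply]
    simp
  · intro b' _ hb
    rw [Finsupp.single_apply, if_neg]
    intro h
    exact hb (Prod.ext_iff.mp h).1
  · intro h
    exact absurd (Finset.mem_univ b) h

theorem muS_inj {m : ℕ} {Y : Type} [DecidableEq Y] {σ σ' : Fin m → Y} (h : muS σ = muS σ') :
    σ = σ' := by
  funext b
  have h1 := congrArg (fun f => f (b, σ' b)) h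
  simp only [muS_apply, if_true] at h1
  by_contra hne
  rw [if_neg hne] at h1
  exact absurd h1 (by norm_num)

theorem muS_degree {m : ℕ} {Y : Type} (σ : Fin m → Y) : (muS σ).degree = m := by
  unfold muS
  rw [map_sum]
  simp

theorem coeff_mu {R : Type} [CommRing R] {m : ℕ} {Y : Type} [Fintype Y] [DecidableEq Y]
    (f : Fin m → Y → R) (σ : Fin m → Y) :
    coeff (muS σ) (∏ b, ∑ y, (X (b, y) * C (f b y) : MvPolynomial (Fin m × Y) R)) =
      ∏ b, f b (σ b) := by
  classical
  rw [Finset.prod_univ_sum, coeff_sum]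
  have h : ∀ σ' : Fin m → Y, (∏ b, (X (b, σ' b) * C (f b (σ' b)) :
      MvPolynomial (Fin m × Y) R)) = monomial (muS σ') (∏ b, f b (σ' b)) := by
    intro σ'
    rw [Finset.prod_mul_distrib, ← map_prod]
    have h1 : (∏ b, (X (b, σ' b) : MvPolynomial (Fin m × Y) R)) = monomial (muS σ') 1 := by
      unfold muS
      rw [monomial_sum_one]
      rfl
    rw [h1, mul_comm, C_mul_monomial, mul_one]
  have h2 : ∀ σ' ∈ Fintype.piFinset (fun _ : Fin m => (Finset.univ : Finset Y)),
      coeff (muS σ) (∏ b, (X (b, σ' b) * C (f b (σ' b)) : MvPolynomial (Fin m × Y) R)) =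
      if σ' = σ then ∏ b, f b (σ b) else 0 := by
    intro σ' _
    rw [h, coeff_monomial]
    by_cases he : σ' = σ
    · rw [he, if_pos rfl, if_pos rfl]
    · rw [if_neg he, if_neg fun h' => he (muS_inj h')]
  rw [Finset.sum_congr rfl h2, Finset.sum_ite_eq' , if_pos]
  rw [Fintype.mem_piFinset]
  exact fun _ => Finset.mem_univ _

/-- Points all of whose blocks lie in `W`. -/
noncomputable def BW {U : Type} [Fintype U] [DecidableEq U] {N : ℕ} (W : Finset (Fin N → K)) :
    Finset (U × Fin N → K) := by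
  classical
  exact Finset.univ.filter fun x => ∀ u, (fun i => x (u, i)) ∈ W

theorem card_BW {U : Type} [Fintype U] [DecidableEq U] {N : ℕ} (W : Finset (Fin N → K)) :
    (BW (U := U) W).card = W.card ^ Fintype.card U := by
  classical
  have h : (BW (U := U) W).card = (Fintype.piFinset fun _ : U => W).card := by
    unfold BW
    refine Finset.card_bij (fun x _ => fun v i => x (v, i)) ?_ ?_ ?_
    · intro x hx
      rw [Fintype.mem_piFinset]
      exact (Finset.mem_filter.1 hx).2
    · intro x _ y _ h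
      funext p
      exact congrFun (congrFun h p.1) p.2
    · intro y hy
      rw [Fintype.mem_piFinset] at hy
      exact ⟨fun p => y p.1 p.2, Finset.mem_filter.2 ⟨Finset.mem_univ _, hy⟩, rfl⟩
  rw [h, Fintype.card_piFinset]
  simp

theorem bitAff_aff {N : ℕ} {U : Type} [Fintype U] [DecidableEq U] (c : Fin N → K) (u₀ : ℕ)
    (t : (Fin N × Fin (Fintype.card K) × Fin (Fintype.card K)) ⊕ Fin u₀) (u : U) :
    IsAffFn (fun x : PtK K (U × Fin N) => bitAff c u₀ t (fun i => x (u, i))) := by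
  classical
  rcases t with ⟨i, a, j⟩ | t
  · by_cases h : j.val < Fintype.card K - 1 - a.val
    · refine ⟨-(c i) - (idx K).symm a, Pi.single (u, i) 1, ?_⟩
      funext x
      simp only [bitAff, h, if_true]
      rw [Finset.sum_eq_single (u, i)]
      · rw [Pi.single_eq_same]
        ring
      · intro b _ hb
        rw [Pi.single_eq_of_ne hb, zero_mul]
      · intro hn
        exact absurd (Finset.mem_univ _) hn
    · refine ⟨0, 0, ?_⟩
      funext x
      simp [bitAff, h]
  · refine ⟨1, 0, ?_⟩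
    funext x
    simp [bitAff]

/-- The value of the selector in the window. -/
theorem sel_window (p : ℕ) [Fact p.Prime] [CharP K p] {N r : ℕ} (j u₀ θ TT : ℕ) (T : ℝ)
    (hTT : 1 ≤ TT) 
    (halign : N * ((Fintype.card K - 1) * (Fintype.card K - 2) / 2) + u₀ + θ = p ^ (j + 1) * TT)
    (hwin1 : (θ : ℝ) - p ^ j ≤ ((Fintype.card K : ℝ) - 1) * N / 2 - T)
    (hwin2 : ((Fintype.card K : ℝ) - 1) * N / 2 + T ≤ (θ : ℝ) + p ^ j)
    (c : Fin r → Fin N → K) {y : Fin N → K} (hy : y ∈ WsetK c θ T) (i : Fin r) :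
    (((N * ((Fintype.card K - 1) * (Fintype.card K - 2) / 2) + u₀ + stat (c i) y).choose
      (p ^ j) : ℕ) : K) = if stat (c i) y < θ then -1 else 0 := by
  unfold WsetK at hy
  rw [Finset.mem_filter] at hy
  have h1 := hy.2.1 i
  rw [abs_lt] at h1
  have ha : (θ : ℝ) < stat (c i) y + p ^ j := by linarith
  have hb : (stat (c i) y : ℝ) < θ + p ^ j := by linarith
  have ha' : θ < stat (c i) y + p ^ j := by exact_mod_cast ha
  have hb' : stat (c i) y < θ + p ^ j := by exact_mod_cast hb
  generalize hM : N * ((Fintype.card K - 1) * (Fintype.card K - 2) / 2) + u₀ = M at *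
  generalize hQ : p ^ (j + 1) * TT = Q at *
  have h2 := choose_windowK (K := K) p j TT (M + stat (c i) y) (by rw [hQ]; omega)
    (by rw [hQ]; omega) hTT
  rw [h2, hQ]
  by_cases hlt : stat (c i) y < θ
  · rw [if_pos hlt, if_pos (by omega)]
  · rw [if_neg hlt, if_neg (by omega)]

/-- The core inequality for a homogeneous circuit computing `IMM_{n,n}`. -/
theorem coreK (p : ℕ) [Fact p.Prime] [CharP K p] (n : ℕ) (hn : 0 < n)
    (C : Circuit K (IVar n n)) (hom : C.Homogeneous) (hC : C.out = IMM K n n hn)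
    (m N j r u₀ θ τ TT : ℕ) (T : ℝ) (hr : 0 < r) (hτ : 1 ≤ τ) (hm : 1 ≤ m) (hTT : 1 ≤ TT)
    (hθ : 1 ≤ θ)
    (hw : r * (N * (Fintype.card K * Fintype.card K) + u₀ + 1) ≤ n)
    (hL : m * (2 * (p ^ j * Fintype.card K) + 3) ≤ n)
    (halign : N * ((Fintype.card K - 1) * (Fintype.card K - 2) / 2) + u₀ + θ = p ^ (j + 1) * TT)
    (hwin1 : (θ : ℝ) - p ^ j ≤ ((Fintype.card K : ℝ) - 1) * N / 2 - T)
    (hwin2 : ((Fintype.card K : ℝ) - 1) * N / 2 + T ≤ (θ : ℝ) + p ^ j)
    (c : Fin r → Fin N → K) (hc : (Fintype.card K : ℝ) ^ N / 2 ≤ ((WsetK c θ T).card : ℝ)) :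
    ((1 : ℝ) / 4) ^ m ≤ (C.size : ℝ) *
      (2 ^ m * ((2 * (Fintype.card K : ℝ) - 1) / (2 * Fintype.card K)) ^ τ +
        (Fintype.card {A : Finset (Fin (n / ((Fintype.card K - 1) * τ) + 1)) // A.card ≤ m} : ℝ) *
        ((cnt (Fintype.card K) ((Fin m × Fin 2) × Fin N)
          (2 * m * (θ - 1) + m * (2 * ((Fintype.card K - 1) * τ))) : ℝ) /
          (Fintype.card K : ℝ) ^ (m * 2 * N))) := by
  classical
  have hq : 2 ≤ Fintype.card K := Fintype.one_lt_card
  set q := Fintype.card K with hqdef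
  set I' := (Fin N × Fin q × Fin q) ⊕ Fin u₀ with hI'
  have hcardI : Fintype.card I' = N * (q * q) + u₀ := by
    show Fintype.card ((Fin N × Fin q × Fin q) ⊕ Fin u₀) = _
    rw [Fintype.card_sum, Fintype.card_prod, Fintype.card_prod, Fintype.card_fin,
      Fintype.card_fin, Fintype.card_fin]
  let e : Fin (Fintype.card I') ≃ I' := (Fintype.equivFin I').symm
  set W := WsetK c θ T with hW
  -- the projection
  obtain ⟨Θ, hΘ, hIMM⟩ := projK (K := K) (VX := (Fin m × Fin 2) × Fin N) n m (Fintype.card I')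
    (p ^ j) r hn hr
    (fun b s i t => fun x => bitAff (c i) u₀ (e t) (fun k => x ((b, s), k)))
    (fun b s i t => bitAff_aff (c i) u₀ (e t) (b, s)) (by rw [hcardI]; exact hw) hL
  have hcount : ∀ (b : Fin m) (s : Fin 2) (i : Fin r) (x : PtK K ((Fin m × Fin 2) × Fin N)),
      (Finset.univ.filter fun t => bitAff (c i) u₀ (e t) (fun k => x ((b, s), k)) ≠ 0).card =
      N * ((q - 1) * (q - 2) / 2) + u₀ + stat (c i) (fun k => x ((b, s), k)) := by
    intro b s i x
    rw [← bitcount (c i) (fun k => x ((b, s), k)) u₀]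
    refine Finset.card_bij (fun t _ => e t) ?_ ?_ ?_
    · intro t ht
      rw [Finset.mem_filter] at ht ⊢
      exact ⟨Finset.mem_univ _, ht.2⟩
    · intro a _ b _ h
      exact e.injective h
    · intro t ht
      rw [Finset.mem_filter] at ht
      refine ⟨e.symm t, ?_, by simp⟩
      rw [Finset.mem_filter]
      exact ⟨Finset.mem_univ _, by simpa using ht.2⟩
  -- the coefficients
  set F : Fin m → (Fin r × Fin r) → FnK K ((Fin m × Fin 2) × Fin N) := fun b y x =>
    (((N * ((q - 1) * (q - 2) / 2) + u₀ + stat (c y.1) (fun k => x ((b, 0), k))).choose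
      (p ^ j) : ℕ) : K) *
    (((N * ((q - 1) * (q - 2) / 2) + u₀ + stat (c y.2) (fun k => x ((b, 1), k))).choose
      (p ^ j) : ℕ) : K) with hF
  have hIMM2 : aeval Θ (IMM K n n hn) = ∏ b : Fin m, ∑ y : Fin r × Fin r,
      (X (b, y) * MvPolynomial.C (F b y) :
        MvPolynomial (Fin m × Fin r × Fin r) (FnK K ((Fin m × Fin 2) × Fin N))) := by
    rw [hIMM]
    refine Finset.prod_congr rfl fun b _ => ?_
    rw [Fintype.sum_prod_type]
    refine Finset.sum_congr rfl fun c1 _ => Finset.sum_congr rfl fun c2 _ => ?_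
    congr 2
    funext x
    simp only [hF]
    rw [hcount, hcount]
  have hcoef : ∀ (σ : Fin m → Fin r × Fin r) (x : PtK K ((Fin m × Fin 2) × Fin N)),
      coeff (muS σ) (aeval Θ (IMM K n n hn)) x = ∏ b, F b (σ b) x := by
    intro σ x
    rw [hIMM2, coeff_mu F σ, Finset.prod_apply]
  -- validity of a tuple of centres
  let valid : (Fin m → Fin r × Fin r) → PtK K ((Fin m × Fin 2) × Fin N) → Prop := fun σ x =>
    ∀ b, stat (c (σ b).1) (fun k => x ((b, 0), k)) < θ ∧
      stat (c (σ b).2) (fun k => x ((b, 1), k)) < θ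
  have hval : ∀ x ∈ BW (U := Fin m × Fin 2) W, ∀ σ,
      ∏ b, F b (σ b) x = if valid σ x then 1 else 0 := by
    intro x hx σ
    have hx' : ∀ u, (fun i => x (u, i)) ∈ W := by
      unfold BW at hx
      exact (Finset.mem_filter.mp hx).2
    have hb : ∀ b, F b (σ b) x = if (stat (c (σ b).1) (fun k => x ((b, 0), k)) < θ ∧
        stat (c (σ b).2) (fun k => x ((b, 1), k)) < θ) then 1 else 0 := by
      intro b
      simp only [hF]
      rw [sel_window p j u₀ θ TT T hTT halign hwin1 hwin2 c (hx' (b, 0)) (σ b).1,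
        sel_window p j u₀ θ TT T hTT halign hwin1 hwin2 c (hx' (b, 1)) (σ b).2]
      by_cases h1 : stat (c (σ b).1) (fun k => x ((b, 0), k)) < θ
      · by_cases h2 : stat (c (σ b).2) (fun k => x ((b, 1), k)) < θ
        · rw [if_pos h1, if_pos h2, if_pos ⟨h1, h2⟩]
          ring
        · rw [if_neg h2, mul_zero, if_neg (fun h => h2 h.2)]
      · rw [if_neg h1, zero_mul, if_neg (fun h => h1 h.1)]
    by_cases hv : valid σ x
    · rw [if_pos hv]
      exact Finset.prod_eq_one fun b _ => by rw [hb, if_pos (hv b)]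
    · rw [if_neg hv]
      have : ∃ b, ¬ (stat (c (σ b).1) (fun k => x ((b, 0), k)) < θ ∧
        stat (c (σ b).2) (fun k => x ((b, 1), k)) < θ) := by
        by_contra hcon
        push Not at hcon
        apply hv
        intro b
        by_contra hb'
        exact absurd (hcon b) hb'
      obtain ⟨b, hb'⟩ := this
      exact Finset.prod_eq_zero (Finset.mem_univ b) (by rw [hb, if_neg hb'])
  have hexv : ∀ x ∈ BW (U := Fin m × Fin 2) W, ∃ σ, valid σ x := by
    intro x hx
    have hx' : ∀ u, ∃ i, stat (c i) (fun i => x (u, i)) < θ := by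
      intro u
      unfold BW at hx
      have h1 := (Finset.mem_filter.mp hx).2 u
      rw [hW, WsetK, Finset.mem_filter] at h1
      exact h1.2.2
    choose s hs using hx'
    exact ⟨fun b => (s (b, 0), s (b, 1)), fun b => ⟨hs (b, 0), hs (b, 1)⟩⟩
  -- the circuit
  obtain ⟨Bad, L, h, hBad, hLn, hcirc⟩ := circK n hn C hom hC Θ hΘ τ m hτ
  subst hLn
  choose v hvmem hvx using fun σ : Fin m → Fin r × Fin r =>
    hcirc (muS σ) (le_of_eq (muS_degree σ))
  set E := BW (U := Fin m × Fin 2) W \ Bad with hE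
  have hdim := dimK h (2 * m * (θ - 1) + m * (2 * ((q - 1) * τ))) E (by
    intro f
    -- the chosen tuple
    have hball := fun σ : Fin m → Fin r × Fin r =>
      ballK (K := K) (U := Fin m × Fin 2) N θ
        (fun u => if u.2 = 0 then c (σ u.1).1 else c (σ u.1).2)
        (fun x => if (if hx : ∃ σ, valid σ x then hx.choose else fun _ => (⟨0, hr⟩, ⟨0, hr⟩)) = σ
          then f x else 0)
    choose Q hQmem hQx using hball
    refine ⟨fun i => ∑ σ, v σ i * Q σ, ?_, ?_⟩
    · intro i
      refine Submodule.sum_mem _ fun σ _ => ?_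
      have h1 := VK_mul (hvmem σ i) (hQmem σ)
      refine VK_mono (le_of_eq ?_) h1
      rw [Fintype.card_prod, Fintype.card_fin, Fintype.card_fin]
      ring
    · intro x hx
      rw [hE, Finset.mem_sdiff] at hx
      obtain ⟨hxW, hxB⟩ := hx
      have hex := hexv x hxW
      have hch := hex.choose_spec
      have h1 : ∀ σ, (∏ b, F b (σ b) x) * Q σ x =
          if hex.choose = σ then f x else 0 := by
        intro σ
        rw [hval x hxW σ]
        by_cases hv : valid σ x
        · rw [if_pos hv, one_mul, hQx σ x, dif_pos hex]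
          rintro ⟨b, s⟩
          fin_cases s
          · exact (hv b).1
          · exact (hv b).2
        · rw [if_neg hv, zero_mul, if_neg]
          intro h2
          exact hv (h2 ▸ hch)
      calc f x = ∑ σ, (if hex.choose = σ then f x else 0) := by
            rw [Finset.sum_ite_eq, if_pos (Finset.mem_univ _)]
        _ = ∑ σ, (∏ b, F b (σ b) x) * Q σ x := Finset.sum_congr rfl fun σ _ => (h1 σ).symm
        _ = ∑ σ, (∑ i, h i x * v σ i x) * Q σ x := by
            refine Finset.sum_congr rfl fun σ _ => ?_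
            rw [← hcoef, hvx σ x hxB]
        _ = ∑ i, h i x * (∑ σ, v σ i * Q σ) x := by
            simp only [Finset.sum_apply, Pi.mul_apply, Finset.mul_sum, Finset.sum_mul]
            rw [Finset.sum_comm]
            refine Finset.sum_congr rfl fun i _ => Finset.sum_congr rfl fun σ _ => ?_
            ring)
  -- numbers
  have hcardVX : Fintype.card ((Fin m × Fin 2) × Fin N) = m * 2 * N := by
    rw [Fintype.card_prod, Fintype.card_prod, Fintype.card_fin, Fintype.card_fin,
      Fintype.card_fin]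
  have hEW : W.card ^ (m * 2) ≤ E.card + Bad.card := by
    have h1 := card_BW (U := Fin m × Fin 2) W
    rw [Fintype.card_prod, Fintype.card_fin, Fintype.card_fin] at h1
    rw [← h1, hE]
    have := Finset.le_card_sdiff Bad (BW (U := Fin m × Fin 2) W)
    omega
  rw [Fintype.card_prod, Fintype.card_fin] at hdim
  rw [hcardVX] at hBad
  have hq0 : (0 : ℝ) < q := by exact_mod_cast (by omega : 0 < q)
  have hqN : (0 : ℝ) < (q : ℝ) ^ (m * 2 * N) := by positivity
  have h2q : (0 : ℝ) < (2 * (q : ℝ)) ^ τ := by positivity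
  have hBad' : (Bad.card : ℝ) ≤ (C.size : ℝ) *
      (2 ^ m * ((2 * (q : ℝ) - 1) / (2 * q)) ^ τ * (q : ℝ) ^ (m * 2 * N)) := by
    have h1 : (Bad.card : ℝ) * (2 * (q : ℝ)) ^ τ ≤
        C.size * (2 ^ m * (2 * (q : ℝ) - 1) ^ τ * (q : ℝ) ^ (m * 2 * N)) := by
      have h2 : ((2 * q - 1 : ℕ) : ℝ) = 2 * (q : ℝ) - 1 := by
        rw [Nat.cast_sub (by omega)]
        push_cast
        ring
      rw [← h2]
      exact_mod_cast hBad
    rw [div_pow]
    have h3 : (C.size : ℝ) * (2 ^ m * ((2 * (q : ℝ) - 1) ^ τ / (2 * (q : ℝ)) ^ τ) *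
        (q : ℝ) ^ (m * 2 * N)) =
        (C.size * (2 ^ m * (2 * (q : ℝ) - 1) ^ τ * (q : ℝ) ^ (m * 2 * N))) /
          (2 * (q : ℝ)) ^ τ := by
      field_simp
    rw [h3, le_div_iff₀ h2q]
    exact h1
  have hdim' : (E.card : ℝ) ≤ (C.size : ℝ) *
      ((Fintype.card {A : Finset (Fin (n / ((q - 1) * τ) + 1)) // A.card ≤ m} : ℝ) *
        (cnt q ((Fin m × Fin 2) × Fin N) (2 * m * (θ - 1) + m * (2 * ((q - 1) * τ))) : ℝ)) := by
    have h1 : (E.card : ℝ) ≤ (C.n4 : ℝ) *
      (Fintype.card {A : Finset (Fin (n / ((q - 1) * τ) + 1)) // A.card ≤ m} : ℝ) *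
        (cnt q ((Fin m × Fin 2) × Fin N) (2 * m * (θ - 1) + m * (2 * ((q - 1) * τ))) : ℝ) := by
      exact_mod_cast hdim
    have h2 : (C.n4 : ℝ) ≤ C.size := by
      exact_mod_cast (by unfold Circuit.size; omega : C.n4 ≤ C.size)
    refine h1.trans ?_
    rw [mul_assoc]
    exact mul_le_mul_of_nonneg_right h2 (by positivity)
  have hWc : ((q : ℝ) ^ N / 2) ^ (m * 2) ≤ (W.card : ℝ) ^ (m * 2) :=
    pow_le_pow_left₀ (by positivity) hc _
  have hEW' : (W.card : ℝ) ^ (m * 2) ≤ (E.card : ℝ) + Bad.card := by exact_mod_cast hEW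
  have hpow : ((q : ℝ) ^ N / 2) ^ (m * 2) = (1 / 4 : ℝ) ^ m * (q : ℝ) ^ (m * 2 * N) := by
    rw [div_pow, ← pow_mul, mul_comm N (m * 2), div_eq_mul_inv, mul_comm]
    congr 1
    rw [mul_comm m 2, pow_mul, one_div, inv_pow]
    norm_num
  have hfin : (1 / 4 : ℝ) ^ m * (q : ℝ) ^ (m * 2 * N) ≤ (C.size : ℝ) *
      (2 ^ m * ((2 * (q : ℝ) - 1) / (2 * q)) ^ τ +
        (Fintype.card {A : Finset (Fin (n / ((q - 1) * τ) + 1)) // A.card ≤ m} : ℝ) *
        ((cnt q ((Fin m × Fin 2) × Fin N)
          (2 * m * (θ - 1) + m * (2 * ((q - 1) * τ))) : ℝ) /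
          (q : ℝ) ^ (m * 2 * N))) * (q : ℝ) ^ (m * 2 * N) := by
    rw [← hpow]
    refine (hWc.trans hEW').trans ((add_le_add hdim' hBad').trans (le_of_eq ?_))
    field_simp
    ring
  exact le_of_mul_le_mul_right hfin hqN

end Vale.Agent.P346.FK
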