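import Vale.Agent.P346.Defs

/-!
# P346 (all finite fields): functions on `K^V` of bounded degree
-/

namespace Vale.Agent.P346.FK

/-- Points of `K^V`. -/
abbrev PtK (K V : Type) : Type := V → K

/-- Functions on `K^V`. -/
abbrev FnK (K V : Type) : Type := PtK K V → K

variable {K : Type} [Field K] {V : Type} [Fintype V]

/-- The monomial with exponent vector `e`. -/
def monoK (e : V → ℕ) : FnK K V := fun x => ∏ i, x i ^ e i

/-- Functions of degree at most `D`. -/
def VK (K : Type) [Field K] (V : Type) [Fintype V] (D : ℕ) : Submodule K (FnK K V) :=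
  Submodule.span K {f | ∃ e : V → ℕ, ∑ i, e i ≤ D ∧ f = monoK e}

/-- The number of exponent vectors in `{0, …, q-1}^V` with sum at most `D`. -/
def cnt (q : ℕ) (V : Type) [Fintype V] [DecidableEq V] (D : ℕ) : ℕ :=
  (Finset.univ.filter fun e : V → Fin q => ∑ i, (e i).val ≤ D).card

theorem monoK_mem {e : V → ℕ} {D : ℕ} (h : ∑ i, e i ≤ D) : (monoK e : FnK K V) ∈ VK K V D :=
  Submodule.subset_span ⟨e, h, rfl⟩

theorem VK_mono {a b : ℕ} (h : a ≤ b) : VK K V a ≤ VK K V b := by
  apply Submodule.span_mono
  rintro f ⟨e, he, rfl⟩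
  exact ⟨e, he.trans h, rfl⟩

theorem constK_mem (a : K) (D : ℕ) : (fun _ => a : FnK K V) ∈ VK K V D := by
  have h : (fun _ => a : FnK K V) = a • monoK (fun _ => 0) := by
    funext x
    simp [monoK]
  rw [h]
  exact Submodule.smul_mem _ _ (monoK_mem (by simp))

theorem coordK_mem (i : V) {D : ℕ} (hD : 1 ≤ D) : (fun x => x i : FnK K V) ∈ VK K V D := by
  classical
  have h : (fun x => x i : FnK K V) = monoK (Pi.single i 1) := by
    funext x
    rw [monoK, Finset.prod_eq_single i]
    · simp
    · intro b _ hb
      simp [Pi.single_eq_of_ne hb]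
    · intro h
      exact absurd (Finset.mem_univ _) h
  rw [h]
  exact monoK_mem (by simpa using hD)

theorem monoK_mul (e f : V → ℕ) : (monoK e * monoK f : FnK K V) = monoK (e + f) := by
  funext x
  simp [monoK, pow_add, Finset.prod_mul_distrib]

theorem VK_mul {a b : ℕ} {f g : FnK K V} (hf : f ∈ VK K V a) (hg : g ∈ VK K V b) :
    f * g ∈ VK K V (a + b) := by
  induction hf using Submodule.span_induction with
  | mem f hf =>
    obtain ⟨e, he, rfl⟩ := hf
    induction hg using Submodule.span_induction with
    | mem g hg =>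
      obtain ⟨e', he', rfl⟩ := hg
      rw [monoK_mul]
      apply monoK_mem
      simp only [Pi.add_apply, Finset.sum_add_distrib]
      exact Nat.add_le_add he he'
    | zero =>
      rw [mul_zero]
      exact Submodule.zero_mem _
    | add g1 g2 _ _ h1 h2 =>
      rw [mul_add]
      exact Submodule.add_mem _ h1 h2
    | smul c g1 _ h1 =>
      rw [mul_smul_comm]
      exact Submodule.smul_mem _ _ h1
  | zero =>
    rw [zero_mul]
    exact Submodule.zero_mem _
  | add f1 f2 _ _ h1 h2 =>
    rw [add_mul]
    exact Submodule.add_mem _ h1 h2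
  | smul c f1 _ h1 =>
    rw [smul_mul_assoc]
    exact Submodule.smul_mem _ _ h1

theorem VK_prod {ι : Type} (s : Finset ι) (f : ι → FnK K V) (d : ι → ℕ)
    (hf : ∀ i ∈ s, f i ∈ VK K V (d i)) : (∏ i ∈ s, f i) ∈ VK K V (∑ i ∈ s, d i) := by
  classical
  induction s using Finset.induction_on with
  | empty =>
    simp only [Finset.prod_empty, Finset.sum_empty]
    exact constK_mem 1 0
  | insert a s ha ih =>
    rw [Finset.prod_insert ha, Finset.sum_insert ha]
    exact VK_mul (hf a (Finset.mem_insert_self a s))
      (ih fun i hi => hf i (Finset.mem_insert_of_mem hi))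

/-- Affine functions have degree at most one. -/
theorem affK_mem (α : K) (β : V → K) {D : ℕ} (hD : 1 ≤ D) :
    (fun x => α + ∑ i, β i * x i : FnK K V) ∈ VK K V D := by
  have h : (fun x => α + ∑ i, β i * x i : FnK K V) =
      (fun _ => α : FnK K V) + ∑ i, β i • (fun x => x i : FnK K V) := by
    funext x
    simp [Finset.sum_apply]
  rw [h]
  exact Submodule.add_mem _ (constK_mem _ _)
    (Submodule.sum_mem _ fun i _ => Submodule.smul_mem _ _ (coordK_mem i hD))

/-- Every exponent can be reduced below `q`. -/
theorem exists_red_exp [Fintype K] (a : ℕ) :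
    ∃ a' : Fin (Fintype.card K), a'.val ≤ a ∧ ∀ x : K, x ^ a = x ^ a'.val := by
  induction a using Nat.strong_induction_on with
  | _ a ih =>
    rcases lt_or_ge a (Fintype.card K) with h | h
    · exact ⟨⟨a, h⟩, le_rfl, fun _ => rfl⟩
    · have hq : 1 < Fintype.card K := Fintype.one_lt_card
      obtain ⟨a', h1, h2⟩ := ih (a - Fintype.card K + 1) (by omega)
      refine ⟨a', by omega, fun x => ?_⟩
      rw [← h2 x, pow_succ]
      conv_lhs => rw [show a = (a - Fintype.card K) + Fintype.card K by omega, pow_add,
        FiniteField.pow_card]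

/-- Functions of degree at most `D` are combinations of reduced monomials. -/
theorem exists_red [Fintype K] [DecidableEq V] {D : ℕ} {v : FnK K V} (hv : v ∈ VK K V D) :
    ∃ w : {e : V → Fin (Fintype.card K) // ∑ i, (e i).val ≤ D} → K,
      v = ∑ e, w e • (monoK (fun i => (e.1 i).val) : FnK K V) := by
  classical
  have hle : VK K V D ≤ Submodule.span K (Set.range
      fun e : {e : V → Fin (Fintype.card K) // ∑ i, (e i).val ≤ D} =>
        (monoK (fun i => (e.1 i).val) : FnK K V)) := by
    rw [VK, Submodule.span_le]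
    rintro f ⟨e, he, rfl⟩
    choose r hr1 hr2 using fun a : ℕ => exists_red_exp (K := K) a
    refine Submodule.subset_span ⟨⟨fun i => r (e i), ?_⟩, ?_⟩
    · exact (Finset.sum_le_sum fun i _ => hr1 (e i)).trans he
    · funext x
      exact Finset.prod_congr rfl fun i _ => (hr2 (e i) (x i)).symm
  obtain ⟨w, hw⟩ := (Submodule.mem_span_range_iff_exists_fun K).1 (hle hv)
  exact ⟨w, hw.symm⟩

/-- If all functions on `E` are combinations, with coefficients of degree at most `D`, of a family
of functions indexed by `I`, then `E` is small. -/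
theorem dimK [Fintype K] [DecidableEq K] [DecidableEq V] {I : Type} [Fintype I]
    (h : I → FnK K V) (D : ℕ) (E : Finset (PtK K V))
    (H : ∀ f : FnK K V, ∃ v : I → FnK K V, (∀ i, v i ∈ VK K V D) ∧
      ∀ x ∈ E, f x = ∑ i, h i x * v i x) :
    E.card ≤ Fintype.card I * cnt (Fintype.card K) V D := by
  classical
  let b : I × {e : V → Fin (Fintype.card K) // ∑ i, (e i).val ≤ D} → ({x // x ∈ E} → K) :=
    fun p x => h p.1 x.1 * (monoK (fun i => (p.2.1 i).val) : FnK K V) x.1
  have htop : Submodule.span K (Set.range b) = ⊤ := by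
    rw [eq_top_iff]
    rintro f -
    obtain ⟨v, hv, hf⟩ := H fun x => if hx : x ∈ E then f ⟨x, hx⟩ else 0
    choose w hw using fun i => exists_red (hv i)
    have hfe : f = ∑ i, ∑ e, w i e • b (i, e) := by
      funext x
      have h1 := hf x.1 x.2
      rw [dif_pos x.2] at h1
      rw [show f x = f ⟨x.1, x.2⟩ from rfl, h1, Finset.sum_apply]
      refine Finset.sum_congr rfl fun i _ => ?_
      conv_lhs => rw [hw i]
      rw [Finset.sum_apply, Finset.sum_apply, Finset.mul_sum]
      refine Finset.sum_congr rfl fun e _ => ?_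
      simp only [Pi.smul_apply, smul_eq_mul, b]
      ring
    rw [hfe]
    exact Submodule.sum_mem _ fun i _ => Submodule.sum_mem _ fun e _ =>
      Submodule.smul_mem _ _ (Submodule.subset_span ⟨(i, e), rfl⟩)
  have h1 := finrank_range_le_card (R := K) b
  rw [Set.finrank, htop, finrank_top, Module.finrank_fintype_fun_eq_card, Fintype.card_prod,
    Fintype.card_coe] at h1
  refine h1.trans (Nat.mul_le_mul_left _ (le_of_eq ?_))
  rw [cnt, Fintype.card_subtype]

end Vale.Agent.P346.FK
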