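import Vale.Agent.P346.K.DegK

/-!
# P346 (all finite fields): exponential sums of a digit
-/

namespace Vale.Agent.P346.FK

/-- The variance of a uniform digit. -/
noncomputable def sg (q : ℕ) : ℝ := ((q : ℝ) ^ 2 - 1) / 12

private theorem dsg_pos {q : ℕ} (hq : 2 ≤ q) : 0 < sg q := by
  have h : (2 : ℝ) ≤ q := by exact_mod_cast hq
  rw [sg]
  nlinarith

private theorem dsum_range_cast (n : ℕ) :
    ∑ i ∈ Finset.range n, (i : ℝ) = n * (n - 1) / 2 := by
  induction n with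
  | zero => simp
  | succ n ih =>
    rw [Finset.sum_range_succ, ih]
    push_cast
    ring

private theorem dsum_range_cast_sq (n : ℕ) :
    ∑ i ∈ Finset.range n, (i : ℝ) ^ 2 = n * (n - 1) * (2 * n - 1) / 6 := by
  induction n with
  | zero => simp
  | succ n ih =>
    rw [Finset.sum_range_succ, ih]
    push_cast
    ring

/-- The centred digit. -/
private noncomputable def cd (q : ℕ) (e : Fin q) : ℝ := ((q : ℝ) - 1) / 2 - (e.val : ℝ)

private theorem sum_cd (q : ℕ) : ∑ e : Fin q, cd q e = 0 := by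
  simp only [cd]
  rw [Finset.sum_sub_distrib, Finset.sum_const, Finset.card_univ, Fintype.card_fin, nsmul_eq_mul,
    Fin.sum_univ_eq_sum_range (fun i => (i : ℝ)) q, dsum_range_cast]
  ring

private theorem sum_cd_sq (q : ℕ) : ∑ e : Fin q, cd q e ^ 2 = q * sg q := by
  have h : ∀ e : Fin q, cd q e ^ 2 =
      (e.val : ℝ) ^ 2 - ((q : ℝ) - 1) * (e.val : ℝ) + (((q : ℝ) - 1) / 2) ^ 2 := fun e => by
    rw [cd]
    ring
  simp only [h]
  rw [Finset.sum_add_distrib, Finset.sum_sub_distrib, ← Finset.mul_sum, Finset.sum_const,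
    Finset.card_univ, Fintype.card_fin, nsmul_eq_mul,
    Fin.sum_univ_eq_sum_range (fun i => (i : ℝ)) q,
    Fin.sum_univ_eq_sum_range (fun i => (i : ℝ) ^ 2) q, dsum_range_cast, dsum_range_cast_sq, sg]
  ring

private theorem abs_cd_le {q : ℕ} (e : Fin q) : |cd q e| ≤ q := by
  have h1 : (e.val : ℝ) ≤ q := by exact_mod_cast e.isLt.le
  have h2 : (0 : ℝ) ≤ (e.val : ℝ) := Nat.cast_nonneg _
  have h3 : (1 : ℝ) ≤ q := by exact_mod_cast (by have := e.isLt; omega : 1 ≤ q)
  rw [cd, abs_le]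
  constructor <;> linarith

private theorem exp_sum_cd (q : ℕ) (l : ℝ) :
    ∑ e : Fin q, Real.exp (-(l * (e.val : ℝ))) =
      Real.exp (-(l * ((q : ℝ) - 1) / 2)) * ∑ e : Fin q, Real.exp (l * cd q e) := by
  rw [Finset.mul_sum]
  refine Finset.sum_congr rfl fun e _ => ?_
  rw [← Real.exp_add, cd]
  congr 1
  ring

private theorem exp_taylor {t : ℝ} (ht : |t| ≤ 1) :
    |Real.exp t - (1 + t + t ^ 2 / 2)| ≤ |t| ^ 3 := by
  have h := Real.exp_bound ht (n := 3) (by norm_num)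
  have h2 : ∑ m ∈ Finset.range 3, t ^ m / (m.factorial : ℝ) = 1 + t + t ^ 2 / 2 := by
    simp [Finset.sum_range_succ, Nat.factorial]
  rw [h2] at h
  refine h.trans ?_
  have h3 : 0 ≤ |t| ^ 3 := by positivity
  have h4 : ((Nat.succ 3 : ℕ) : ℝ) / (((Nat.factorial 3 : ℕ) : ℝ) * ((3 : ℕ) : ℝ)) ≤ 1 := by
    norm_num [Nat.factorial]
  calc |t| ^ 3 * (((Nat.succ 3 : ℕ) : ℝ) / (((Nat.factorial 3 : ℕ) : ℝ) * ((3 : ℕ) : ℝ)))
      ≤ |t| ^ 3 * 1 := mul_le_mul_of_nonneg_left h4 h3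
    _ = _ := mul_one _

private theorem taylor_sum {q : ℕ} {l : ℝ} (hl : |l| * q ≤ 1) :
    |∑ e : Fin q, Real.exp (l * cd q e) - (q + l ^ 2 * (q * sg q) / 2)| ≤
      |l| ^ 3 * (q : ℝ) ^ 4 := by
  have h1 : ∑ e : Fin q, (1 + l * cd q e + (l * cd q e) ^ 2 / 2) =
      q + l ^ 2 * (q * sg q) / 2 := by
    have : ∀ e : Fin q, (1 + l * cd q e + (l * cd q e) ^ 2 / 2) =
        1 + l * cd q e + (l ^ 2 / 2) * cd q e ^ 2 := fun e => by ring
    simp only [this]
    rw [Finset.sum_add_distrib, Finset.sum_add_distrib, ← Finset.mul_sum, ← Finset.mul_sum,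
      sum_cd, sum_cd_sq, Finset.sum_const, Finset.card_univ, Fintype.card_fin, nsmul_eq_mul]
    ring
  rw [← h1, ← Finset.sum_sub_distrib]
  refine (Finset.abs_sum_le_sum_abs _ _).trans ?_
  have h2 : ∀ e : Fin q, |l * cd q e| ≤ |l| * q := fun e => by
    rw [abs_mul]
    exact mul_le_mul_of_nonneg_left (abs_cd_le e) (abs_nonneg _)
  calc ∑ e : Fin q, |Real.exp (l * cd q e) - (1 + l * cd q e + (l * cd q e) ^ 2 / 2)|
      ≤ ∑ _e : Fin q, (|l| * q) ^ 3 := by
        refine Finset.sum_le_sum fun e _ => ?_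
        exact (exp_taylor ((h2 e).trans hl)).trans
          (pow_le_pow_left₀ (abs_nonneg _) (h2 e) 3)
    _ = |l| ^ 3 * (q : ℝ) ^ 4 := by
        rw [Finset.sum_const, Finset.card_univ, Fintype.card_fin, nsmul_eq_mul]
        ring

/-- The exponential sum of a digit, upper bound. -/
theorem digit_upper (q : ℕ) (hq : 2 ≤ q) (ε : ℝ) (hε : 0 < ε) :
    ∃ l₀ > 0, ∀ l : ℝ, |l| ≤ l₀ → ∑ e : Fin q, Real.exp (-(l * (e.val : ℝ))) ≤
      q * Real.exp (-(l * ((q : ℝ) - 1) / 2) + l ^ 2 * sg q * (1 + ε) / 2) := by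
  have hσ := dsg_pos hq
  have hq0 : (0 : ℝ) < q := by exact_mod_cast (by omega : 0 < q)
  refine ⟨min (1 / q) (sg q * ε / (4 * (q : ℝ) ^ 3)), by positivity, fun l hl => ?_⟩
  have hl1 : |l| * q ≤ 1 := by
    have := hl.trans (min_le_left _ _)
    rwa [le_div_iff₀ hq0] at this
  have hl2 : |l| * (4 * (q : ℝ) ^ 3) ≤ sg q * ε := by
    have := hl.trans (min_le_right _ _)
    rwa [le_div_iff₀ (by positivity)] at this
  have ht := (abs_le.mp (taylor_sum hl1)).2
  rw [exp_sum_cd, Real.exp_add, mul_left_comm]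
  apply mul_le_mul_of_nonneg_left _ (Real.exp_pos _).le
  have h3 : |l| ^ 3 * (q : ℝ) ^ 4 ≤ q * (l ^ 2 * (sg q * ε) / 4) := by
    have h4 := mul_le_mul_of_nonneg_left hl2 (by positivity : 0 ≤ |l| ^ 2 * q)
    rw [← sq_abs l]
    nlinarith
  have h5 : 0 ≤ q * (l ^ 2 * (sg q * ε) / 4) := by positivity
  calc ∑ e : Fin q, Real.exp (l * cd q e)
      ≤ q * (l ^ 2 * sg q * (1 + ε) / 2 + 1) := by linarith
    _ ≤ q * Real.exp (l ^ 2 * sg q * (1 + ε) / 2) :=
        mul_le_mul_of_nonneg_left (Real.add_one_le_exp _) hq0.le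

/-- The exponential sum of a digit, lower bound. -/
theorem digit_lower (q : ℕ) (hq : 2 ≤ q) (ε : ℝ) (hε : 0 < ε) :
    ∃ l₀ > 0, ∀ l : ℝ, |l| ≤ l₀ →
      q * Real.exp (-(l * ((q : ℝ) - 1) / 2) + l ^ 2 * sg q * (1 - ε) / 2) ≤
        ∑ e : Fin q, Real.exp (-(l * (e.val : ℝ))) := by
  have hσ := dsg_pos hq
  have hq0 : (0 : ℝ) < q := by exact_mod_cast (by omega : 0 < q)
  have hq1 : (1 : ℝ) ≤ q := by exact_mod_cast (by omega : 1 ≤ q)
  by_cases hε1 : 1 ≤ ε
  · refine ⟨1, one_pos, fun l _ => ?_⟩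
    rw [exp_sum_cd, Real.exp_add, mul_left_comm]
    apply mul_le_mul_of_nonneg_left _ (Real.exp_pos _).le
    calc q * Real.exp (l ^ 2 * sg q * (1 - ε) / 2) ≤ q * 1 := by
          apply mul_le_mul_of_nonneg_left _ hq0.le
          rw [Real.exp_le_one_iff]
          have h1 : 0 ≤ l ^ 2 * sg q := by positivity
          have h2 := mul_nonneg h1 (sub_nonneg.mpr hε1)
          linarith
      _ = ∑ e : Fin q, (l * cd q e + 1) := by
          rw [Finset.sum_add_distrib, ← Finset.mul_sum, sum_cd, Finset.sum_const,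
            Finset.card_univ, Fintype.card_fin, nsmul_eq_mul]
          ring
      _ ≤ _ := Finset.sum_le_sum fun e _ => Real.add_one_le_exp _
  · rw [not_le] at hε1
    refine ⟨min (1 / q) (min (sg q * ε / (4 * (q : ℝ) ^ 3)) (ε / sg q)), by positivity,
      fun l hl => ?_⟩
    have hl1 : |l| * q ≤ 1 := by
      have := hl.trans (min_le_left _ _)
      rwa [le_div_iff₀ hq0] at this
    have hl2 : |l| * (4 * (q : ℝ) ^ 3) ≤ sg q * ε := by
      have := hl.trans ((min_le_right _ _).trans (min_le_left _ _))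
      rwa [le_div_iff₀ (by positivity)] at this
    have hl3 : |l| * sg q ≤ ε := by
      have := hl.trans ((min_le_right _ _).trans (min_le_right _ _))
      rwa [le_div_iff₀ hσ] at this
    have hl4 : |l| ≤ 1 := by
      have := abs_nonneg l
      nlinarith
    have ht := (abs_le.mp (taylor_sum hl1)).1
    rw [exp_sum_cd, Real.exp_add, mul_left_comm]
    apply mul_le_mul_of_nonneg_left _ (Real.exp_pos _).le
    have h3 : |l| ^ 3 * (q : ℝ) ^ 4 ≤ q * (l ^ 2 * (sg q * ε) / 4) := by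
      have h4 := mul_le_mul_of_nonneg_left hl2 (by positivity : 0 ≤ |l| ^ 2 * q)
      rw [← sq_abs l]
      nlinarith
    have h5 : q * (1 + l ^ 2 * sg q * (1 - ε / 2) / 2) ≤ ∑ e : Fin q, Real.exp (l * cd q e) := by
      linarith
    refine le_trans (mul_le_mul_of_nonneg_left ?_ hq0.le) h5
    have hls : l ^ 2 * sg q ≤ ε := by
      rw [← sq_abs l]
      have h6 : 0 ≤ |l| * sg q := by positivity
      have h7 := abs_nonneg l
      calc |l| ^ 2 * sg q = |l| * (|l| * sg q) := by ring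
        _ ≤ 1 * (|l| * sg q) := mul_le_mul_of_nonneg_right hl4 h6
        _ ≤ ε := by linarith
    set v := l ^ 2 * sg q * (1 - ε) / 2 with hv
    have hu0 : 0 ≤ l ^ 2 * sg q := by positivity
    have hv0 : 0 ≤ v := by
      have := mul_nonneg hu0 (sub_nonneg.mpr hε1.le)
      rw [hv]
      linarith
    have hv1 : v ≤ ε / 2 := by
      have := mul_le_mul_of_nonneg_left (by linarith : 1 - ε ≤ 1) hu0
      rw [hv]
      linarith
    have hexp : Real.exp v ≤ 1 + v + v ^ 2 := by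
      have h8 := Real.abs_exp_sub_one_sub_id_le (x := v) (by
        rw [abs_of_nonneg hv0]
        linarith)
      have h9 := (abs_le.mp h8).2
      linarith
    have h10 : v * (1 + v) ≤ l ^ 2 * sg q * (1 - ε / 2) / 2 := by
      calc v * (1 + v) ≤ v * (1 + ε / 2) := mul_le_mul_of_nonneg_left (by linarith) hv0
        _ = l ^ 2 * sg q * ((1 - ε) * (1 + ε / 2)) / 2 := by
            rw [hv]
            ring
        _ ≤ l ^ 2 * sg q * (1 - ε / 2) / 2 := by
            have : (1 - ε) * (1 + ε / 2) ≤ 1 - ε / 2 := by nlinarith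
            have := mul_le_mul_of_nonneg_left this hu0
            linarith
    linarith

end Vale.Agent.P346.FK
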