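import Vale.Agent.P346.K.GoodK

/-!
# P346 (all finite fields): high rank products
-/

open MvPolynomial

namespace Vale.Agent.P346.FK

variable {K : Type} [Field K]
variable {VX VY : Type} [Fintype VX]

/-- Independent linear forms are jointly surjective. -/
theorem forms_surj {τ : ℕ} (β : Fin τ → VX → K) (hβ : LinearIndependent K β) :
    Function.Surjective (fun (x : VX → K) (i : Fin τ) => ∑ v, β i v * x v) := by
  classical
  have h1 : (Matrix.of β).rank = Fintype.card (Fin τ) := LinearIndependent.rank_matrix hβ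
  have h2 : LinearMap.range (Matrix.of β).mulVecLin = ⊤ := by
    apply Submodule.eq_top_of_finrank_eq
    rw [Module.finrank_fintype_fun_eq_card]
    exact h1
  intro z
  obtain ⟨x, hx⟩ := (LinearMap.range_eq_top.mp h2) z
  exact ⟨x, hx⟩

/-- Sums over `K^VX` of functions of `τ` independent affine forms. -/
theorem sum_forms [Fintype K] [DecidableEq K] [DecidableEq VX] {τ : ℕ} (α : Fin τ → K)
    (β : Fin τ → VX → K) (hβ : LinearIndependent K β) (F : (Fin τ → K) → ℚ) :
    (∑ x : VX → K, F (fun i => α i + ∑ v, β i v * x v)) * (Fintype.card K : ℚ) ^ τ =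
      (Fintype.card K : ℚ) ^ Fintype.card VX * ∑ z : Fin τ → K, F z := by
  classical
  set T : (VX → K) → (Fin τ → K) := fun x i => α i + ∑ v, β i v * x v with hT
  set N : ℕ := (Finset.univ.filter fun x : VX → K => ∀ i, ∑ v, β i v * x v = 0).card with hN
  have hfib : ∀ z : Fin τ → K, (Finset.univ.filter fun x : VX → K => T x = z).card = N := by
    intro z
    obtain ⟨x0, hx0⟩ := forms_surj β hβ (fun i => z i - α i)
    have hx0' : ∀ i, ∑ v, β i v * x0 v = z i - α i := fun i => congrFun hx0 i
    refine Finset.card_bij (fun x _ => x - x0) ?_ ?_ ?_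
    · intro x hx
      rw [Finset.mem_filter] at hx ⊢
      refine ⟨Finset.mem_univ _, fun i => ?_⟩
      have h1 : α i + ∑ v, β i v * x v = z i := congrFun hx.2 i
      have h2 : ∑ v, β i v * (x - x0) v = ∑ v, β i v * x v - ∑ v, β i v * x0 v := by
        rw [← Finset.sum_sub_distrib]
        exact Finset.sum_congr rfl fun v _ => by rw [Pi.sub_apply, mul_sub]
      rw [h2, hx0' i, ← h1]
      ring
    · intro x _ y _ h
      exact sub_left_injective h
    · intro y hy
      rw [Finset.mem_filter] at hy
      refine ⟨y + x0, ?_, add_sub_cancel_right y x0⟩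
      rw [Finset.mem_filter]
      refine ⟨Finset.mem_univ _, ?_⟩
      funext i
      have h2 : ∑ v, β i v * (y + x0) v = ∑ v, β i v * y v + ∑ v, β i v * x0 v := by
        rw [← Finset.sum_add_distrib]
        exact Finset.sum_congr rfl fun v _ => by rw [Pi.add_apply, mul_add]
      rw [hT]
      simp only
      rw [h2, hx0' i, hy.2 i]
      ring
  have htot : (N : ℚ) * (Fintype.card K : ℚ) ^ τ = (Fintype.card K : ℚ) ^ Fintype.card VX := by
    have h1 : (Finset.univ : Finset (VX → K)).card =
        ∑ z : Fin τ → K, (Finset.univ.filter fun x : VX → K => T x = z).card :=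
      Finset.card_eq_sum_card_fiberwise (fun x _ => Finset.mem_univ _)
    simp only [hfib, Finset.sum_const, Finset.card_univ, Fintype.card_fun, Fintype.card_fin,
      smul_eq_mul] at h1
    rw [mul_comm]
    exact_mod_cast h1.symm
  have hsum : ∑ x : VX → K, F (T x) = (N : ℚ) * ∑ z : Fin τ → K, F z := by
    rw [← Finset.sum_fiberwise (Finset.univ : Finset (VX → K)) T (fun x => F (T x)),
      Finset.mul_sum]
    refine Finset.sum_congr rfl fun z _ => ?_
    rw [Finset.sum_congr rfl (g := fun _ => F z)]
    · rw [Finset.sum_const, hfib z, nsmul_eq_mul]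
    · intro x hx
      rw [(Finset.mem_filter.mp hx).2]
  rw [hsum, ← htot]
  ring

/-- High rank, counting: few points see at most `k` zeros among `τ` independent affine forms. -/
theorem few_zeros [Fintype K] [DecidableEq K] [DecidableEq VX] (τ : ℕ) (α : Fin τ → K)
    (β : Fin τ → VX → K) (hβ : LinearIndependent K β) (k : ℕ) :
    (Finset.univ.filter fun x : PtK K VX =>
      (Finset.univ.filter fun i => α i + ∑ v, β i v * x v = 0).card ≤ k).card *
        (2 * Fintype.card K) ^ τ ≤
      2 ^ k * (2 * Fintype.card K - 1) ^ τ * Fintype.card K ^ Fintype.card VX := by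
  classical
  set F : (Fin τ → K) → ℚ := fun z => ∏ i, (if z i = 0 then (1 / 2 : ℚ) else 1) with hF
  have hFpow : ∀ z : Fin τ → K, F z = (1 / 2 : ℚ) ^ (Finset.univ.filter fun i => z i = 0).card := by
    intro z
    rw [hF]
    simp only
    rw [Finset.prod_ite, Finset.prod_const, Finset.prod_const_one, mul_one]
  have hS := sum_forms α β hβ F
  have hZ : ∑ z : Fin τ → K, F z = ((Fintype.card K : ℚ) - 1 / 2) ^ τ := by
    rw [hF, ← Fintype.sum_pow (fun a : K => if a = 0 then (1 / 2 : ℚ) else 1) τ]
    congr 1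
    have h1 : ∀ a : K, (if a = 0 then (1 / 2 : ℚ) else 1) = 1 - (if a = 0 then (1 / 2 : ℚ) else 0) := by
      intro a
      split_ifs <;> norm_num
    rw [Finset.sum_congr rfl fun a _ => h1 a, Finset.sum_sub_distrib, Finset.sum_ite_eq']
    simp
  set Bd := Finset.univ.filter fun x : PtK K VX =>
      (Finset.univ.filter fun i => α i + ∑ v, β i v * x v = 0).card ≤ k with hBd
  have hlow : (Bd.card : ℚ) * (1 / 2) ^ k ≤
      ∑ x : VX → K, F (fun i => α i + ∑ v, β i v * x v) := by
    calc (Bd.card : ℚ) * (1 / 2) ^ k = ∑ _x ∈ Bd, (1 / 2 : ℚ) ^ k := by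
          rw [Finset.sum_const, nsmul_eq_mul]
      _ ≤ ∑ x ∈ Bd, F (fun i => α i + ∑ v, β i v * x v) := by
          refine Finset.sum_le_sum fun x hx => ?_
          rw [hFpow]
          exact pow_le_pow_of_le_one (by norm_num) (by norm_num) (Finset.mem_filter.mp hx).2
      _ ≤ ∑ x : VX → K, F (fun i => α i + ∑ v, β i v * x v) := by
          refine Finset.sum_le_sum_of_subset_of_nonneg (Finset.filter_subset _ _) ?_
          intro x _ _
          rw [hFpow]
          positivity
  have hq : 1 ≤ Fintype.card K := Fintype.card_pos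
  have hq2 : ((2 * Fintype.card K - 1 : ℕ) : ℚ) = 2 * ((Fintype.card K : ℚ) - 1 / 2) := by
    rw [Nat.cast_sub (by omega)]
    push_cast
    ring
  have hfin : (Bd.card : ℚ) * (2 * (Fintype.card K : ℚ)) ^ τ ≤
      2 ^ k * ((2 * Fintype.card K - 1 : ℕ) : ℚ) ^ τ * (Fintype.card K : ℚ) ^ Fintype.card VX := by
    rw [hq2]
    have h1 : (Bd.card : ℚ) * (1 / 2) ^ k * (Fintype.card K : ℚ) ^ τ ≤
        (Fintype.card K : ℚ) ^ Fintype.card VX * ((Fintype.card K : ℚ) - 1 / 2) ^ τ := by
      rw [← hZ, ← hS]
      exact mul_le_mul_of_nonneg_right hlow (by positivity)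
    have h2 : (1 / 2 : ℚ) ^ k * 2 ^ k = 1 := by
      rw [← mul_pow]
      norm_num
    calc (Bd.card : ℚ) * (2 * (Fintype.card K : ℚ)) ^ τ
        = ((Bd.card : ℚ) * (1 / 2) ^ k * (Fintype.card K : ℚ) ^ τ) * (2 ^ k * 2 ^ τ) := by
          rw [mul_pow]
          linear_combination (-(Bd.card : ℚ) * 2 ^ τ * (Fintype.card K : ℚ) ^ τ) * h2
      _ ≤ ((Fintype.card K : ℚ) ^ Fintype.card VX * ((Fintype.card K : ℚ) - 1 / 2) ^ τ) *
            (2 ^ k * 2 ^ τ) := mul_le_mul_of_nonneg_right h1 (by positivity)
      _ = 2 ^ k * (2 * ((Fintype.card K : ℚ) - 1 / 2)) ^ τ *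
            (Fintype.card K : ℚ) ^ Fintype.card VX := by
          rw [mul_pow 2]
          ring
  exact_mod_cast hfin

/-- High rank, vanishing: if more than `k` factors vanish at `x` for `Y = 0`, then all coefficients
of order at most `k` of the product vanish at `x`. -/
theorem coeff_vanish {k : ℕ} (S : Multiset (MvPolynomial VY (FnK K VX))) (x : PtK K VX) [DecidableEq K]
    (hx : k < (S.filter fun P : MvPolynomial VY (FnK K VX) => (coeff 0 P : FnK K VX) x = 0).card) (μ : VY →₀ ℕ) (hμ : μ.degree ≤ k) :
    coeff μ S.prod x = 0 := by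
  classical
  have key : ∀ (S : Multiset (MvPolynomial VY (FnK K VX))) (μ : VY →₀ ℕ),
      μ.degree < (S.filter fun P : MvPolynomial VY (FnK K VX) => (coeff 0 P : FnK K VX) x = 0).card →
      coeff μ S.prod x = 0 := by
    intro S
    induction S using Multiset.induction_on with
    | empty => intro μ h; simp at h
    | cons P S ih =>
      intro μ h
      rw [Multiset.prod_cons, coeff_mul, Finset.sum_apply]
      refine Finset.sum_eq_zero fun z hz => ?_
      rw [Finset.HasAntidiagonal.mem_antidiagonal] at hz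
      have hdeg : z.1.degree + z.2.degree = μ.degree := by
        rw [← hz, map_add]
      rw [Pi.mul_apply]
      by_cases h0 : (coeff 0 P : FnK K VX) x = 0
      · rw [Multiset.filter_cons_of_pos (p := fun P : MvPolynomial VY (FnK K VX) =>
          (coeff 0 P : FnK K VX) x = 0) S h0, Multiset.card_cons] at h
        by_cases hz0 : z.1 = 0
        · rw [hz0, h0, zero_mul]
        · have hpos : z.1.degree ≠ 0 := fun hh => hz0 ((Finsupp.degree_eq_zero_iff _).mp hh)
          rw [ih z.2 (by omega), mul_zero]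
      · rw [Multiset.filter_cons_of_neg (p := fun P : MvPolynomial VY (FnK K VX) =>
          (coeff 0 P : FnK K VX) x = 0) S h0] at h
        rw [ih z.2 (by omega), mul_zero]
  exact key S μ (lt_of_le_of_lt hμ hx)

end Vale.Agent.P346.FK
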