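import Vale.Agent.P346.K.GoodLow
import Vale.Agent.P346.K.ZerosK

/-!
# P346 (all finite fields): product gates
-/

open MvPolynomial

namespace Vale.Agent.P346.FK

variable {K : Type} [Field K]

theorem coeff_zero_aff {VX VY : Type} [Fintype VX] [Fintype VY] (f : FnK K VX) (γ : VY → K) :
    coeff 0 (C f + ∑ y, C (fun _ => γ y) * X y : MvPolynomial VY (FnK K VX)) = f := by
  classical
  rw [coeff_add, coeff_zero_C, coeff_sum, Finset.sum_eq_zero, add_zero]
  intro y _
  rw [coeff_C_mul, coeff_X, if_neg, mul_zero]
  intro h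
  have h1 := DFunLike.congr_fun h y
  simp at h1

/-- A product of affine forms has, off a small set of points, all low order coefficients of low
degree. -/
theorem gateK [Fintype K] [DecidableEq K] {VX VY : Type} [Fintype VX] [DecidableEq VX]
    [Fintype VY] (S : Multiset (MvPolynomial VY (FnK K VX))) (hS : ∀ P ∈ S, IsAffK P)
    (τ k : ℕ) (hτ : 1 ≤ τ) :
    ∃ Bad : Finset (PtK K VX),
      Bad.card * (2 * Fintype.card K) ^ τ ≤
        2 ^ k * (2 * Fintype.card K - 1) ^ τ * Fintype.card K ^ Fintype.card VX ∧
      ∀ E : Finset (PtK K VX), Disjoint E Bad → Good E k ((Fintype.card K - 1) * τ) S.prod := by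
  classical
  have hdata : ∀ P : MvPolynomial VY (FnK K VX), ∃ (α : K) (β : VX → K) (γ : VY → K), P ∈ S →
      P = C (fun x => α + ∑ v, β v * x v) + ∑ y, C (fun _ => γ y) * X y := by
    intro P
    by_cases hP : P ∈ S
    · obtain ⟨α, β, γ, h⟩ := hS P hP
      exact ⟨α, β, γ, fun _ => h⟩
    · exact ⟨0, 0, 0, fun h => absurd h hP⟩
  choose α β γ h using hdata
  set s : Set (VX → K) := β '' {P | P ∈ S} with hs
  have hsfin : s.Finite := by
    refine Set.Finite.image _ ?_
    exact (S.toFinset.finite_toSet).subset fun P hP => by simpa using hP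
  by_cases hrank : Module.finrank K (Submodule.span K s) ≤ τ
  · refine ⟨∅, by simp, fun E _ => ?_⟩
    refine good_lowrank (Submodule.span K s) τ hrank S fun P hP => ?_
    exact ⟨α P, β P, γ P, Submodule.subset_span ⟨P, hP, rfl⟩, h P hP⟩
  · push Not at hrank
    obtain ⟨b, hbs, hbspan, hbli⟩ := exists_linearIndependent K s
    have hbfin : b.Finite := hsfin.subset hbs
    have : Fintype b := hbfin.fintype
    have hcard : τ < Fintype.card b := by
      have h1 := finrank_span_set_eq_card hbli
      rw [hbspan] at h1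
      rw [h1, Set.toFinset_card] at hrank
      exact hrank
    obtain ⟨e⟩ : Nonempty (Fin τ ↪ b) :=
      Function.Embedding.nonempty_of_card_le (by rw [Fintype.card_fin]; exact hcard.le)
    have hQi : ∀ i : Fin τ, ∃ P, P ∈ S ∧ β P = (e i).1 := by
      intro i
      obtain ⟨P, hP, hβ⟩ := hbs (e i).2
      exact ⟨P, hP, hβ⟩
    choose Qi hQiS hQiβ using hQi
    have hli : LinearIndependent K fun i : Fin τ => β (Qi i) := by
      have h1 := hbli.comp e e.injective
      have h2 : (fun i : Fin τ => β (Qi i)) = (fun x : b => (x : VX → K)) ∘ e := by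
        funext i
        exact hQiβ i
      rw [h2]
      exact h1
    have hinj : Function.Injective Qi := by
      intro i j hij
      apply e.injective
      apply Subtype.ext
      rw [← hQiβ i, ← hQiβ j, hij]
    refine ⟨_, few_zeros τ (fun i => α (Qi i)) (fun i => β (Qi i)) hli k, fun E hE μ hμ => ?_⟩
    refine ⟨0, Submodule.zero_mem _, fun x hx => ?_⟩
    rw [Pi.zero_apply]
    have hxB := Finset.disjoint_left.1 hE hx
    rw [Finset.mem_filter, not_and, not_le] at hxB
    have hxB := hxB (Finset.mem_univ _)
    refine coeff_vanish S x (lt_of_lt_of_le hxB ?_) μ hμ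
    have h3 : ((Finset.univ.filter fun i : Fin τ =>
        α (Qi i) + ∑ v, β (Qi i) v * x v = 0).image Qi) ⊆
        (S.filter fun P : MvPolynomial VY (FnK K VX) =>
          (coeff 0 P : FnK K VX) x = 0).toFinset := by
      intro P hP
      rw [Finset.mem_image] at hP
      obtain ⟨i, hi, rfl⟩ := hP
      rw [Finset.mem_filter] at hi
      rw [Multiset.mem_toFinset, Multiset.mem_filter]
      refine ⟨hQiS i, ?_⟩
      have h4 := h (Qi i) (hQiS i)
      have h5 : (coeff 0 (Qi i) : FnK K VX) = fun x => α (Qi i) + ∑ v, β (Qi i) v * x v := by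
        conv_lhs => rw [h4]
        exact coeff_zero_aff _ _
      rw [h5]
      exact hi.2
    have h4 := Finset.card_le_card h3
    rw [Finset.card_image_of_injective _ hinj] at h4
    exact h4.trans (Multiset.toFinset_card_le _)

end Vale.Agent.P346.FK
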