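import Vale.Agent.P346.K.AffK

/-!
# P346 (all finite fields): low order coefficients of products of affine forms
-/

open MvPolynomial

namespace Vale.Agent.P346.FK

variable {K : Type} [Field K]

/-- Functions that agree on `E` with a function of degree at most `D`. -/
def VE {V : Type} [Fintype V] (E : Finset (PtK K V)) (D : ℕ) : Submodule K (FnK K V) where
  carrier := {f | ∃ g ∈ VK K V D, ∀ x ∈ E, f x = g x}
  add_mem' := by
    rintro f f' ⟨g, hg, h⟩ ⟨g', hg', h'⟩
    exact ⟨g + g', Submodule.add_mem _ hg hg', fun x hx => by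
      rw [Pi.add_apply, Pi.add_apply, h x hx, h' x hx]⟩
  zero_mem' := ⟨0, Submodule.zero_mem _, fun _ _ => rfl⟩
  smul_mem' := by
    rintro c f ⟨g, hg, h⟩
    exact ⟨c • g, Submodule.smul_mem _ _ hg, fun x hx => by
      rw [Pi.smul_apply, Pi.smul_apply, h x hx]⟩

/-- All coefficients of order at most `k` agree on `E` with functions of degree at most `D`. -/
def Good {VX VY : Type} [Fintype VX] (E : Finset (PtK K VX)) (k D : ℕ)
    (P : MvPolynomial VY (FnK K VX)) : Prop :=
  ∀ μ : VY →₀ ℕ, μ.degree ≤ k → coeff μ P ∈ VE E D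

variable {VX VY : Type} [Fintype VX] {E : Finset (PtK K VX)} {k : ℕ}

theorem VE_mono {a b : ℕ} (h : a ≤ b) {f : FnK K VX} (hf : f ∈ VE E a) : f ∈ VE E b := by
  obtain ⟨g, hg, h'⟩ := hf
  exact ⟨g, VK_mono h hg, h'⟩

theorem VE_of_VK {a : ℕ} {f : FnK K VX} (hf : f ∈ VK K VX a) : f ∈ VE E a :=
  ⟨f, hf, fun _ _ => rfl⟩

theorem VE_mul {a b : ℕ} {f g : FnK K VX} (hf : f ∈ VE E a) (hg : g ∈ VE E b) :
    f * g ∈ VE E (a + b) := by
  obtain ⟨f', hf', h1⟩ := hf
  obtain ⟨g', hg', h2⟩ := hg
  refine ⟨f' * g', VK_mul hf' hg', fun x hx => ?_⟩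
  rw [Pi.mul_apply, Pi.mul_apply, h1 x hx, h2 x hx]

theorem VE_const (c : K) (a : ℕ) : (fun _ => c : FnK K VX) ∈ VE E a :=
  VE_of_VK (constK_mem c a)

theorem good_mono {a b : ℕ} (h : a ≤ b) {P : MvPolynomial VY (FnK K VX)} (hP : Good E k a P) :
    Good E k b P :=
  fun μ hμ => VE_mono h (hP μ hμ)

theorem good_add {a : ℕ} {P Q : MvPolynomial VY (FnK K VX)} (hP : Good E k a P)
    (hQ : Good E k a Q) : Good E k a (P + Q) := by
  intro μ hμ
  rw [coeff_add]
  exact Submodule.add_mem _ (hP μ hμ) (hQ μ hμ)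

theorem good_smul {a : ℕ} (c : K) {P : MvPolynomial VY (FnK K VX)} (hP : Good E k a P) :
    Good E k a (c • P) := by
  intro μ hμ
  rw [coeff_smul]
  exact Submodule.smul_mem _ _ (hP μ hμ)

theorem good_mul {a b : ℕ} {P Q : MvPolynomial VY (FnK K VX)} (hP : Good E k a P)
    (hQ : Good E k b Q) : Good E k (a + b) (P * Q) := by
  classical
  intro μ hμ
  rw [coeff_mul]
  refine Submodule.sum_mem _ fun x hx => ?_
  have h : x.1 + x.2 = μ := Finset.HasAntidiagonal.mem_antidiagonal.1 hx
  have hd : x.1.degree + x.2.degree = μ.degree := by rw [← h, map_add]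
  exact VE_mul (hP x.1 (by omega)) (hQ x.2 (by omega))

theorem good_const (c : K) : Good E k 0 (C (fun _ => c) : MvPolynomial VY (FnK K VX)) := by
  classical
  intro μ _
  rw [coeff_C]
  split_ifs
  · exact VE_const c 0
  · exact Submodule.zero_mem _

theorem good_zero (a : ℕ) : Good E k a (0 : MvPolynomial VY (FnK K VX)) := by
  intro μ _
  rw [coeff_zero]
  exact Submodule.zero_mem _

theorem good_X (y : VY) : Good E k 0 (X y : MvPolynomial VY (FnK K VX)) := by
  classical
  intro μ _
  rw [coeff_X]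
  split_ifs
  · exact VE_const 1 0
  · exact Submodule.zero_mem _

theorem good_sum {ι : Type} (s : Finset ι) (a : ℕ) (f : ι → MvPolynomial VY (FnK K VX))
    (hf : ∀ i ∈ s, Good E k a (f i)) : Good E k a (∑ i ∈ s, f i) := by
  classical
  induction s using Finset.induction_on with
  | empty =>
    rw [Finset.sum_empty]
    exact good_zero a
  | insert i s hi ih =>
    rw [Finset.sum_insert hi]
    exact good_add (hf i (Finset.mem_insert_self i s))
      (ih fun j hj => hf j (Finset.mem_insert_of_mem hj))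

theorem good_aff [Fintype VY] {P : MvPolynomial VY (FnK K VX)} (hP : IsAffK P) :
    Good E k 1 P := by
  classical
  obtain ⟨α, β, γ, rfl⟩ := hP
  refine good_add ?_ (good_sum _ _ _ fun y _ => ?_)
  · intro μ _
    rw [coeff_C]
    split_ifs
    · exact VE_of_VK (affK_mem α β le_rfl)
    · exact Submodule.zero_mem _
  · exact good_mono (by omega) (good_mul (good_const (γ y)) (good_X y))

theorem good_multiset {ι : Type} (S : Multiset ι) (f : ι → MvPolynomial VY (FnK K VX))
    (d : ι → ℕ) (hf : ∀ i ∈ S, Good E k (d i) (f i)) :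
    Good E k (S.map d).sum (S.map f).prod := by
  induction S using Multiset.induction_on with
  | empty =>
    rw [Multiset.map_zero, Multiset.map_zero, Multiset.sum_zero, Multiset.prod_zero]
    exact good_const (1 : K)
  | cons i S ih =>
    rw [Multiset.map_cons, Multiset.map_cons, Multiset.sum_cons, Multiset.prod_cons]
    exact good_mul (hf i (Multiset.mem_cons_self i S))
      (ih fun j hj => hf j (Multiset.mem_cons_of_mem hj))

end Vale.Agent.P346.FK
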