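import Vale.Agent.P346.K.GoodK

/-!
# P346 (all finite fields): low rank products
-/

open MvPolynomial

namespace Vale.Agent.P346.FK

variable {K : Type} [Field K]
variable {VX VY : Type} [Fintype VX] {E : Finset (PtK K VX)} {k : ℕ}

/-- The linear form with coefficient vector `β`. -/
def linF (K : Type) [Field K] (V : Type) [Fintype V] : (V → K) →ₗ[K] FnK K V where
  toFun β := fun x => ∑ v, β v * x v
  map_add' β β' := by
    funext x
    simp [add_mul, Finset.sum_add_distrib]
  map_smul' c β := by
    funext x
    simp [Finset.mul_sum, mul_assoc]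

theorem linF_mem (β : VX → K) : linF K VX β ∈ VK K VX 1 := by
  have h := affK_mem (K := K) (V := VX) 0 β (D := 1) le_rfl
  have e : (fun x => (0 : K) + ∑ i, β i * x i : FnK K VX) = linF K VX β := by
    funext x
    simp [linF]
  rwa [e] at h

/-- The algebra generated by finitely many linear forms consists of functions of bounded
degree. -/
theorem adjoin_le [Fintype K] {r : ℕ} (y : Fin r → VX → K) {f : FnK K VX}
    (hf : f ∈ Algebra.adjoin K (Set.range fun i => linF K VX (y i))) :
    f ∈ VK K VX ((Fintype.card K - 1) * r) := by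
  have hmono : ∀ m ∈ Submonoid.closure (Set.range fun i => linF K VX (y i)),
      ∃ e : Fin r → ℕ, m = ∏ i, linF K VX (y i) ^ e i := by
    intro m hm
    induction hm using Submonoid.closure_induction with
    | mem m hm =>
      obtain ⟨i, rfl⟩ := hm
      refine ⟨Pi.single i 1, ?_⟩
      rw [Finset.prod_eq_single i]
      · simp
      · intro b _ hb
        simp [Pi.single_eq_of_ne hb]
      · intro h
        exact absurd (Finset.mem_univ _) h
    | one => exact ⟨0, by simp⟩
    | mul m m' _ _ h h' =>
      obtain ⟨e, rfl⟩ := h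
      obtain ⟨e', rfl⟩ := h'
      exact ⟨e + e', by simp [pow_add, Finset.prod_mul_distrib]⟩
  have hle : (Algebra.adjoin K (Set.range fun i => linF K VX (y i))).toSubmodule ≤
      VK K VX ((Fintype.card K - 1) * r) := by
    rw [Algebra.adjoin_eq_span, Submodule.span_le]
    intro m hm
    obtain ⟨e, rfl⟩ := hmono m hm
    choose a ha1 ha2 using fun n : ℕ => exists_red_exp (K := K) n
    have e1 : (∏ i, linF K VX (y i) ^ e i) = ∏ i, linF K VX (y i) ^ (a (e i)).val := by
      refine Finset.prod_congr rfl fun i _ => ?_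
      funext x
      simp only [Pi.pow_apply]
      exact ha2 (e i) _
    rw [e1]
    have h2 := VK_prod (K := K) (V := VX) Finset.univ
      (fun i => linF K VX (y i) ^ (a (e i)).val) (fun i => (a (e i)).val) (fun i _ => by
        have h3 := VK_prod (K := K) (V := VX) (Finset.range (a (e i)).val)
          (fun _ => linF K VX (y i)) (fun _ => 1) (fun _ _ => linF_mem _)
        simpa using h3)
    refine VK_mono ?_ h2
    calc ∑ i, (a (e i)).val ≤ ∑ _i : Fin r, (Fintype.card K - 1) :=
          Finset.sum_le_sum fun i _ => by have := (a (e i)).isLt; omega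
      _ = (Fintype.card K - 1) * r := by
          rw [Finset.sum_const, Finset.card_univ, Fintype.card_fin, smul_eq_mul, mul_comm]
  exact hle hf

/-- Low rank: a product of affine forms whose `X`-linear parts lie in a space of dimension at most
`ρ` has all coefficients of degree at most `(q - 1) * ρ`. -/
theorem good_lowrank [Fintype K] [DecidableEq K] [Fintype VY] (B : Submodule K (VX → K)) (ρ : ℕ)
    (hB : Module.finrank K B ≤ ρ) (S : Multiset (MvPolynomial VY (FnK K VX)))
    (hS : ∀ P ∈ S, ∃ (α : K) (β : VX → K) (γ : VY → K), β ∈ B ∧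
      P = C (fun x => α + ∑ v, β v * x v) + ∑ y, C (fun _ => γ y) * X y) :
    Good E k ((Fintype.card K - 1) * ρ) S.prod := by
  classical
  set b := Module.finBasis K B with hb
  set A : Subalgebra K (FnK K VX) :=
    Algebra.adjoin K (Set.range fun i => linF K VX ((b i : B) : VX → K)) with hA
  have hlin : ∀ β ∈ B, linF K VX β ∈ A := by
    intro β hβ
    have h1 : β = ∑ i, (b.repr ⟨β, hβ⟩ i) • ((b i : B) : VX → K) := by
      have h2 := congrArg (fun z : B => (z : VX → K)) (b.sum_repr ⟨β, hβ⟩)
      simp only [Submodule.coe_sum, Submodule.coe_smul] at h2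
      exact h2.symm
    rw [h1, map_sum]
    refine Subalgebra.sum_mem _ fun i _ => ?_
    rw [map_smul]
    exact Subalgebra.smul_mem _ (Algebra.subset_adjoin (Set.mem_range_self i)) _
  have hconst : ∀ c : K, (fun _ => c : FnK K VX) ∈ A := by
    intro c
    exact Subalgebra.algebraMap_mem A c
  have hfac : ∀ P ∈ S, ∀ μ : VY →₀ ℕ, coeff μ P ∈ A := by
    intro P hP μ
    obtain ⟨α, β, γ, hβ, rfl⟩ := hS P hP
    rw [coeff_add, coeff_sum]
    refine Subalgebra.add_mem _ ?_ (Subalgebra.sum_mem _ fun y _ => ?_)
    · rw [coeff_C]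
      split_ifs
      · have e : (fun x => α + ∑ v, β v * x v : FnK K VX) = (fun _ => α) + linF K VX β := rfl
        rw [e]
        exact Subalgebra.add_mem _ (hconst α) (hlin β hβ)
      · exact Subalgebra.zero_mem _
    · rw [coeff_C_mul, coeff_X]
      refine Subalgebra.mul_mem _ (hconst _) ?_
      split_ifs
      · exact Subalgebra.one_mem _
      · exact Subalgebra.zero_mem _
  have hprod : ∀ μ : VY →₀ ℕ, coeff μ S.prod ∈ A := by
    refine Multiset.prod_induction (fun P : MvPolynomial VY (FnK K VX) =>
      ∀ μ : VY →₀ ℕ, coeff μ P ∈ A) S ?_ ?_ hfac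
    · intro P Q hP hQ μ
      rw [coeff_mul]
      exact Subalgebra.sum_mem _ fun z _ => Subalgebra.mul_mem _ (hP z.1) (hQ z.2)
    · intro μ
      rw [coeff_one]
      split_ifs
      · exact Subalgebra.one_mem _
      · exact Subalgebra.zero_mem _
  intro μ _
  refine ⟨coeff μ S.prod, ?_, fun _ _ => rfl⟩
  exact VK_mono (Nat.mul_le_mul_left _ hB) (adjoin_le (fun i => ((b i : B) : VX → K)) (hprod μ))

end Vale.Agent.P346.FK
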