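import Vale.Agent.P346.K.ParamAux

/-!
# P346 (all finite fields): choice of the parameters
-/

namespace Vale.Agent.P346.FK

theorem group_facts (q m τ r n N : ℕ) (a c R : ℝ) (hq : 2 ≤ q) (hr0 : 0 < r) (ha : 0 < a)
    (hac : a ≤ c) (hchalf : 1 / 2 ≤ c) (hcq : c ^ 2 ≤ r * (q : ℝ) ^ 2 / 12) (hRR : R ^ 2 = N)
    (hR4 : 2 * c + a + 3 ≤ R) (hR6 : 2 ≤ R) (hnlow : 2 * r * q ^ 2 * N ≤ n)
    (hτu : 10 * ((q : ℝ) - 1) * τ ≤ a * R) (hτ1 : 1 ≤ τ)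
    (hmr : (m : ℝ) * (q : ℝ) ^ 2 ≤ a * R / 40) :
    (q - 1) * τ ≤ n ∧ m ≤ n / ((q - 1) * τ) + 1 := by
  have hq' : (2 : ℝ) ≤ q := by exact_mod_cast hq
  have hq1 : (1 : ℝ) ≤ (q : ℝ) - 1 := by linarith
  have hqc : ((q - 1 : ℕ) : ℝ) = (q : ℝ) - 1 := by
    rw [Nat.cast_sub (by omega)]
    norm_num
  have hnlow' : 2 * r * (q : ℝ) ^ 2 * R ^ 2 ≤ n := by
    rw [hRR]
    exact_mod_cast hnlow
  have h5 : (0 : ℝ) ≤ ((q : ℝ) - 1) * τ := by positivity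
  have hcR : a * R ≤ c * R := by gcongr
  have h4 : ((q : ℝ) - 1) * τ ≤ c * R := by linarith
  have hcR2 : c * R ≤ R ^ 2 := by
    rw [sq]
    gcongr
    linarith
  constructor
  · have h1 : (((q - 1) * τ : ℕ) : ℝ) ≤ (N : ℝ) := by
      push_cast
      rw [hqc, ← hRR]
      linarith
    have h2 : (q - 1) * τ ≤ N := by exact_mod_cast h1
    calc (q - 1) * τ ≤ N := h2
      _ ≤ 2 * r * q ^ 2 * N := Nat.le_mul_of_pos_left _ (by positivity)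
      _ ≤ n := hnlow
  · refine le_trans ?_ (Nat.le_succ _)
    rw [Nat.le_div_iff_mul_le (Nat.mul_pos (by omega) (by omega))]
    have h1 : ((m * ((q - 1) * τ) : ℕ) : ℝ) ≤ (n : ℝ) := by
      push_cast
      rw [hqc]
      have hm0 : (0 : ℝ) ≤ m := Nat.cast_nonneg _
      have hq2 : (1 : ℝ) ≤ (q : ℝ) ^ 2 := by
        calc (1 : ℝ) ≤ 2 ^ 2 := by norm_num
          _ ≤ (q : ℝ) ^ 2 := by gcongr
      have h2 : (m : ℝ) ≤ m * (q : ℝ) ^ 2 := le_mul_of_one_le_right hm0 hq2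
      have h6 : 0 ≤ a * R := by positivity
      have h3 : (m : ℝ) ≤ c * R := by linarith
      calc (m : ℝ) * (((q : ℝ) - 1) * τ) ≤ (c * R) * (c * R) := by gcongr
        _ = c ^ 2 * R ^ 2 := by ring
        _ ≤ (r * (q : ℝ) ^ 2 / 12) * R ^ 2 := by gcongr
        _ ≤ 2 * r * (q : ℝ) ^ 2 * R ^ 2 := by
          have : 0 ≤ (r : ℝ) * (q : ℝ) ^ 2 * R ^ 2 := by positivity
          linarith
        _ ≤ n := hnlow'
    exact_mod_cast h1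

theorem expo_fact (q : ℕ) (hq : 2 ≤ q) (m τ r n N : ℕ) (a R : ℝ) (ha : 0 < a) (hr0 : 0 < r)
    (hR : R = √(N : ℝ)) (hnup : n ≤ 4 * r * q ^ 2 * N)
    (hτl : a * R ≤ 20 * ((q : ℝ) - 1) * τ) (hτm : τ ≤ 16 * q * m) :
    a / (320 * q * (q - 1)) * √(1 / (4 * r * (q : ℝ) ^ 2)) * √(n : ℝ) ≤ m := by
  have hq' : (2 : ℝ) ≤ q := by exact_mod_cast hq
  have hq1 : (1 : ℝ) ≤ (q : ℝ) - 1 := by linarith
  have h1 : √(1 / (4 * r * (q : ℝ) ^ 2)) * √(n : ℝ) ≤ R := by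
    rw [← Real.sqrt_mul (by positivity), hR]
    apply Real.sqrt_le_sqrt
    have h2 : (n : ℝ) ≤ 4 * r * (q : ℝ) ^ 2 * N := by exact_mod_cast hnup
    rw [div_mul_eq_mul_div, div_le_iff₀ (by positivity)]
    linarith
  have h3 : a * R / (320 * q * (q - 1)) ≤ m := by
    rw [div_le_iff₀ (by positivity)]
    have h4 : (τ : ℝ) ≤ 16 * q * m := by exact_mod_cast hτm
    calc a * R ≤ 20 * ((q : ℝ) - 1) * τ := hτl
      _ ≤ 20 * ((q : ℝ) - 1) * (16 * q * m) := by gcongr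
      _ = m * (320 * q * (q - 1)) := by ring
  calc a / (320 * q * (q - 1)) * √(1 / (4 * r * (q : ℝ) ^ 2)) * √(n : ℝ)
      = a / (320 * q * (q - 1)) * (√(1 / (4 * r * (q : ℝ) ^ 2)) * √(n : ℝ)) := by ring
    _ ≤ a / (320 * q * (q - 1)) * R := by gcongr
    _ = a * R / (320 * q * (q - 1)) := by ring
    _ ≤ m := h3

theorem choose_r (q : ℕ) (hq : 2 ≤ q) (G a : ℝ) (hG : 1 ≤ G) (haG : a ^ 2 = G * sg q) :
    ∃ (r : ℕ) (π₀ : ℝ), π₀ = Real.exp (-((1 + 1 / 10) * (1.01 * a) ^ 2 / (2 * sg q))) ∧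
      0 < π₀ ∧ π₀ ≤ 1 ∧ 0 < r ∧ (r : ℝ) ≤ 3 * Real.exp (0.5611 * G) ∧ G ≤ r ∧
      (1 - π₀) ^ r ≤ 1 / 4 := by
  have hq' : (2 : ℝ) ≤ q := by exact_mod_cast hq
  have hs := sg_lower q hq
  have hs0 : 0 < sg q := lt_of_lt_of_le (by positivity) hs
  set π₀ : ℝ := Real.exp (-((1 + 1 / 10) * (1.01 * a) ^ 2 / (2 * sg q))) with hπ
  have hπ' : π₀ = Real.exp (-(0.561055 * G)) := by
    rw [hπ]
    congr 2
    rw [mul_pow, haG]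
    field_simp
    norm_num
  have hπ0 : 0 < π₀ := Real.exp_pos _
  have hπinv : 2 / π₀ = 2 * Real.exp (0.561055 * G) := by
    rw [hπ', Real.exp_neg]
    field_simp
  have hπ1 : π₀ ≤ 1 := by
    rw [hπ']
    apply Real.exp_le_one_iff.mpr
    linarith
  set r : ℕ := ⌈2 / π₀⌉₊ with hrdef
  have hr1 : 2 / π₀ ≤ r := Nat.le_ceil _
  have hr2 : (r : ℝ) ≤ 3 * Real.exp (0.5611 * G) := by
    have h1 : (r : ℝ) < 2 / π₀ + 1 := Nat.ceil_lt_add_one (by positivity)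
    rw [hπinv] at h1
    have h2 : Real.exp (0.561055 * G) ≤ Real.exp (0.5611 * G) := by
      apply Real.exp_le_exp.mpr
      nlinarith
    have h3 : 1 ≤ Real.exp (0.5611 * G) := Real.one_le_exp (by linarith)
    linarith
  have hrG : G ≤ r := by
    have h1 := Real.add_one_le_exp (0.561055 * G)
    rw [hπinv] at hr1
    linarith
  have hr0 : 0 < r := by
    have : (0 : ℝ) < r := by linarith
    exact_mod_cast this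
  refine ⟨r, π₀, rfl, hπ0, hπ1, hr0, hr2, hrG, ?_⟩
  calc (1 - π₀) ^ r ≤ Real.exp (-π₀) ^ r := by
        have := Real.add_one_le_exp (-π₀)
        have h0 : 0 ≤ 1 - π₀ := by linarith
        gcongr
        linarith
    _ = Real.exp (-(r * π₀)) := by
      rw [← Real.exp_nat_mul]
      congr 1
      ring
    _ ≤ Real.exp (-2) := by
      apply Real.exp_le_exp.mpr
      rw [div_le_iff₀ hπ0] at hr1
      linarith
    _ ≤ 1 / 4 := by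
      rw [Real.exp_neg]
      have h14 : (4 : ℝ) ≤ Real.exp 2 := by
        have h15 : Real.exp 2 = Real.exp 1 ^ 2 := by
          rw [← Real.exp_nat_mul]
          norm_num
        have h16 := Real.exp_one_gt_d9
        rw [h15]
        nlinarith
      rw [inv_eq_one_div]
      gcongr

theorem choose_c (q : ℕ) (hq : 2 ≤ q) (r : ℕ) (hr0 : 0 < r) (G a : ℝ) (ha : 0 < a)
    (haG : a ^ 2 = G * sg q) (hrG : G ≤ r) :
    ∃ c : ℝ, c ^ 2 = r * sg q ∧ a ≤ c ∧ 1 / 2 ≤ c ∧ c ^ 2 ≤ r * (q : ℝ) ^ 2 / 12 := by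
  have hq' : (2 : ℝ) ≤ q := by exact_mod_cast hq
  have hs := sg_lower q hq
  have hsu := sg_upper q
  have hs0 : 0 < sg q := lt_of_lt_of_le (by positivity) hs
  have hr1' : (1 : ℝ) ≤ r := by exact_mod_cast hr0
  have hc2 : √(r * sg q) ^ 2 = r * sg q := Real.sq_sqrt (by positivity)
  refine ⟨√(r * sg q), hc2, ?_, ?_, ?_⟩
  · apply Real.le_sqrt_of_sq_le
    rw [haG]
    gcongr
  · apply Real.le_sqrt_of_sq_le
    nlinarith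
  · rw [hc2]
    calc (r : ℝ) * sg q ≤ r * ((q : ℝ) ^ 2 / 12) := by gcongr
      _ = r * (q : ℝ) ^ 2 / 12 := by ring

theorem choose_N (q : ℕ) (hq : 2 ≤ q) (r : ℕ) (hr0 : 0 < r) (a c l₀ : ℝ) (ha : 0 < a)
    (hc0 : 0 ≤ c) (hl₀ : 0 < l₀) (hs0 : 0 < sg q) (N₀ : ℕ) :
    ∃ n₀ : ℕ, ∀ n ≥ n₀, ∃ N : ℕ, N₀ ≤ N ∧ 1 ≤ N ∧ 2 * r * q ^ 2 * N ≤ n ∧
      n ≤ 4 * r * q ^ 2 * N ∧ 200 ≤ a * √(N : ℝ) ∧ 2 * a + 2 ≤ √(N : ℝ) ∧
      320 * (q : ℝ) ^ 2 ≤ a * √(N : ℝ) ∧ 2 * c + a + 3 ≤ √(N : ℝ) ∧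
      a / (sg q * l₀) ≤ √(N : ℝ) := by
  obtain ⟨W, hW⟩ : ∃ W : ℝ, W = 200 / a + (2 * a + 2) + 320 * (q : ℝ) ^ 2 / a +
    (2 * c + a + 3) + a / (sg q * l₀) := ⟨_, rfl⟩
  have hw1 : 0 ≤ 200 / a := by positivity
  have hw2 : 0 ≤ 320 * (q : ℝ) ^ 2 / a := by positivity
  have hw3 : 0 ≤ a / (sg q * l₀) := by positivity
  refine ⟨(N₀ + ⌈W ^ 2⌉₊ + 1) * (2 * r * q ^ 2), ?_⟩
  intro n hn
  have hQ : 0 < 2 * r * q ^ 2 := by positivity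
  obtain ⟨N, hNdef⟩ : ∃ N : ℕ, N = n / (2 * r * q ^ 2) := ⟨_, rfl⟩
  have hNge : N₀ + ⌈W ^ 2⌉₊ + 1 ≤ N := by
    rw [hNdef]
    exact (Nat.le_div_iff_mul_le hQ).mpr hn
  have hN1 : 1 ≤ N := by omega
  have hnlow : 2 * r * q ^ 2 * N ≤ n := by
    rw [mul_comm, hNdef]
    exact Nat.div_mul_le_self _ _
  have hnup : n ≤ 4 * r * q ^ 2 * N := by
    have h1 := Nat.lt_mul_div_succ n hQ
    rw [← hNdef] at h1
    have h2 : 2 * r * q ^ 2 * (N + 1) ≤ 2 * r * q ^ 2 * (2 * N) := by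
      gcongr
      omega
    calc n ≤ 2 * r * q ^ 2 * (N + 1) := h1.le
      _ ≤ 2 * r * q ^ 2 * (2 * N) := h2
      _ = 4 * r * q ^ 2 * N := by ring
  have hWR : W ≤ √(N : ℝ) := by
    apply Real.le_sqrt_of_sq_le
    have h1 : W ^ 2 ≤ (⌈W ^ 2⌉₊ : ℝ) := Nat.le_ceil _
    have h2 : ((⌈W ^ 2⌉₊ : ℕ) : ℝ) ≤ N := by
      exact_mod_cast (by omega : ⌈W ^ 2⌉₊ ≤ N)
    linarith
  refine ⟨N, by omega, hN1, hnlow, hnup, ?_, by linarith, ?_, by linarith, by linarith⟩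
  · have : 200 / a ≤ √(N : ℝ) := by linarith
    rw [div_le_iff₀ ha] at this
    linarith
  · have : 320 * (q : ℝ) ^ 2 / a ≤ √(N : ℝ) := by linarith
    rw [div_le_iff₀ ha] at this
    linarith

/-- The choice of the parameters for given `n` and `N`. -/
theorem param_inner (q p : ℕ) (hq : 2 ≤ q) (hp : 2 ≤ p) (hpq : p ≤ q) (l₀ : ℝ) (hl₀ : 0 < l₀)
    (hcnt : ∀ (V : Type) [Fintype V] [DecidableEq V] (D : ℕ) (l : ℝ), 0 ≤ l → l ≤ l₀ →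
      (cnt q V D : ℝ) ≤ (q : ℝ) ^ Fintype.card V *
        Real.exp (-(l * (((q : ℝ) - 1) * Fintype.card V / 2 - D)) +
          Fintype.card V * (l ^ 2 * sg q * (1 + 1 / 10) / 2)))
    (G a c : ℝ) (hG : 1 ≤ G) (ha : 0 < a) (haG : a ^ 2 = G * sg q)
    (hexp : 117964800 * (q : ℝ) ^ 2 ≤ Real.exp (0.175 * G)) (π₀ : ℝ) (r : ℕ) (hr0 : 0 < r)
    (hr2 : (r : ℝ) ≤ 3 * Real.exp (0.5611 * G)) (hc2 : c ^ 2 = r * sg q) (hac : a ≤ c)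
    (hchalf : 1 / 2 ≤ c) (hcq : c ^ 2 ≤ r * (q : ℝ) ^ 2 / 12)
    (n N : ℕ) (hN1 : 1 ≤ N) (hnlow : 2 * r * q ^ 2 * N ≤ n) (hnup : n ≤ 4 * r * q ^ 2 * N)
    (hR1 : 200 ≤ a * √(N : ℝ)) (hR2 : 2 * a + 2 ≤ √(N : ℝ))
    (hR3 : 320 * (q : ℝ) ^ 2 ≤ a * √(N : ℝ)) (hR4 : 2 * c + a + 3 ≤ √(N : ℝ))
    (hR5 : a / (sg q * l₀) ≤ √(N : ℝ))
    (hlow : ∀ D : ℕ, ((q : ℝ) - 1) * N / 2 - 1.01 * a * √(N : ℝ) ≤ D →
      (q : ℝ) ^ N * π₀ ≤ (cnt q (Fin N) D : ℝ)) :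
    ∃ (m j u₀ θ τ TT : ℕ) (T : ℝ),
        1 ≤ τ ∧ 1 ≤ m ∧ 1 ≤ TT ∧ 1 ≤ θ ∧ 0 < T ∧
        r * (N * (q * q) + u₀ + 1) ≤ n ∧
        m * (2 * (p ^ j * q) + 3) ≤ n ∧
        N * ((q - 1) * (q - 2) / 2) + u₀ + θ = p ^ (j + 1) * TT ∧
        (θ : ℝ) - p ^ j ≤ ((q : ℝ) - 1) * N / 2 - T ∧
        ((q : ℝ) - 1) * N / 2 + T ≤ (θ : ℝ) + p ^ j ∧
        (q : ℝ) ^ N * π₀ ≤ (cnt q (Fin N) (θ - 1) : ℝ) ∧
        r * (N * sg q) ≤ T ^ 2 / 4 ∧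
        ∀ s : ℝ, 1 ≤ s → ((1 : ℝ) / 4) ^ m ≤ s *
          (2 ^ m * ((2 * (q : ℝ) - 1) / (2 * q)) ^ τ +
            (Fintype.card {A : Finset (Fin (n / ((q - 1) * τ) + 1)) // A.card ≤ m} : ℝ) *
            ((cnt q ((Fin m × Fin 2) × Fin N) (2 * m * (θ - 1) + m * (2 * ((q - 1) * τ))) : ℝ) /
              (q : ℝ) ^ (m * 2 * N))) →
          (2 : ℝ) ^ (a / (320 * q * (q - 1)) * √(1 / (4 * r * (q : ℝ) ^ 2)) * √(n : ℝ)) ≤ s := by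
  have hq' : (2 : ℝ) ≤ q := by exact_mod_cast hq
  have hq1 : (1 : ℝ) ≤ (q : ℝ) - 1 := by linarith
  have hqc : ((q - 1 : ℕ) : ℝ) = (q : ℝ) - 1 := by
    rw [Nat.cast_sub (by omega)]
    norm_num
  have hs := sg_lower q hq
  have hs0 : 0 < sg q := lt_of_lt_of_le (by positivity) hs
  have hN' : (0 : ℝ) < N := by exact_mod_cast hN1
  have hRR : √(N : ℝ) ^ 2 = N := Real.sq_sqrt hN'.le
  set R : ℝ := √(N : ℝ) with hR
  have hR6 : 2 ≤ R := by linarith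
  have hR0 : 0 < R := by linarith
  have hp' : (2 : ℝ) ≤ p := by exact_mod_cast hp
  have hpq' : (p : ℝ) ≤ q := by exact_mod_cast hpq
  have hr1 : (1 : ℝ) ≤ r := by exact_mod_cast hr0
  have hnlow' : 2 * r * (q : ℝ) ^ 2 * R ^ 2 ≤ n := by
    rw [hRR]
    exact_mod_cast hnlow
  -- the window
  obtain ⟨T, hT⟩ : ∃ T : ℝ, T = 2 * c * R := ⟨_, rfl⟩
  obtain ⟨B, hB⟩ : ∃ B : ℝ, B = T + a * R + 2 := ⟨_, rfl⟩
  have hT0 : 0 < T := by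
    rw [hT]
    positivity
  have haR : 0 < a * R := by positivity
  have hB1 : 1 ≤ B := by linarith
  have hBR : B ≤ (2 * c + a + 1) * R := by
    rw [hB, hT]
    linarith
  obtain ⟨j, hj1, hj2⟩ := pow_near p hp B hB1
  have hj3 : (p : ℝ) ^ j ≤ q * B := le_trans hj2 (by gcongr)
  -- the threshold
  have hμ2 : 1 ≤ ((q : ℝ) - 1) * N / 2 - a * R := by
    rw [← hRR]
    exact theta_pos _ R a hq1 ha hR2
  have hμ : 0 ≤ ((q : ℝ) - 1) * N / 2 - a * R := by linarith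
  obtain ⟨θ, hθ⟩ : ∃ θ : ℕ, θ = ⌊((q : ℝ) - 1) * N / 2 - a * R⌋₊ := ⟨_, rfl⟩
  have hθ1 : 1 ≤ θ := by
    rw [hθ]
    exact Nat.le_floor (by exact_mod_cast hμ2)
  have hθu : (θ : ℝ) ≤ ((q : ℝ) - 1) * N / 2 - a * R := by
    rw [hθ]
    exact Nat.floor_le hμ
  have hθl : ((q : ℝ) - 1) * N / 2 - a * R < (θ : ℝ) + 1 := by
    rw [hθ]
    exact Nat.lt_floor_add_one _
  -- the rank threshold and the order
  obtain ⟨τ, hτ⟩ : ∃ τ : ℕ, τ = ⌊a * R / (10 * ((q : ℝ) - 1))⌋₊ := ⟨_, rfl⟩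
  obtain ⟨hτu, hτl, h16⟩ := tau_facts q hq (a * R) hR3 τ hτ
  obtain ⟨m, hm⟩ : ∃ m : ℕ, m = τ / (8 * q) := ⟨_, rfl⟩
  obtain ⟨hmτ, hm1, hτm, hmr⟩ := m_facts q hq (a * R) τ m hτu h16 hm
  have hτ1 : 1 ≤ τ := by omega
  -- alignment
  obtain ⟨u₀, TT, hu1, hu2, hTT⟩ := align (N * ((q - 1) * (q - 2) / 2) + θ) (p ^ (j + 1))
    (by positivity)
  have hMP : ((p ^ (j + 1) : ℕ) : ℝ) ≤ (q : ℝ) ^ 2 * B := by
    push_cast
    rw [pow_succ]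
    calc (p : ℝ) ^ j * p ≤ q * B * q := by gcongr
      _ = (q : ℝ) ^ 2 * B := by ring
  have hlen := length_fits q m (p ^ j) r n a c R B hq hr0 hac hchalf hcq hR6 hnlow' hBR
    (by push_cast; exact hj3) hmr
  have hwid := width_fits q r u₀ (p ^ (j + 1)) n N a c R B hq hR6 hnlow hRR hBR hR4 hu2 hMP
  refine ⟨m, j, u₀, θ, τ, TT, T, hτ1, hm1, hTT, hθ1, hT0, hwid, by exact_mod_cast hlen,
    by rw [← hu1]; ring, ?_, ?_, ?_, ?_, ?_⟩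
  · linarith
  · linarith
  · apply hlow
    rw [Nat.cast_sub hθ1]
    push_cast
    linarith
  · rw [hT, mul_pow, mul_pow, hc2, hRR]
    apply le_of_eq
    ring
  · intro s hs1 hineq
    have hX := first_term q hq m τ hmτ
    obtain ⟨hnt, hmL⟩ := group_facts q m τ r n N a c R hq hr0 ha hac hchalf hcq hRR hR4 hR6
      hnlow hτu hτ1 hmr
    have hl : 0.9 * a / (1.1 * sg q * √(N : ℝ)) ≤ l₀ := by
      rw [div_le_iff₀ (by positivity)]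
      rw [div_le_iff₀ (by positivity)] at hR5
      rw [← hR]
      have h1 : 0 ≤ a := ha.le
      have h2 : R * (sg q * l₀) * 0.9 ≤ R * (sg q * l₀) * 1.1 := by
        gcongr
        norm_num
      linarith
    have hY := second_term q hq l₀ hcnt n N m τ r θ hN1 a G ha hG haG hexp hr2 hnup
      (by rw [← hR]; exact hτl) hτm hm1 hnt hτ1 (by rw [← hR]; exact hτu) hmL
      (by rw [← hR]; exact hθu) hθ1 hl
    exact final_clause m hm1 _ _ s _ hs1 hX hY hineq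
      (expo_fact q hq m τ r n N a R ha hr0 hR hnup hτl hτm)

/-- Parameters for which the core inequality forces exponential size. -/
theorem paramK (q p : ℕ) (hq : 2 ≤ q) (hp : 2 ≤ p) (hpq : p ≤ q) :
    ∃ c₀ > (0 : ℝ), ∃ n₀ : ℕ, ∀ n ≥ n₀,
      ∃ (m N j r u₀ θ τ TT : ℕ) (T π₀ : ℝ),
        0 < r ∧ 1 ≤ τ ∧ 1 ≤ m ∧ 1 ≤ TT ∧ 1 ≤ θ ∧ 0 < T ∧ 0 ≤ π₀ ∧ π₀ ≤ 1 ∧
        r * (N * (q * q) + u₀ + 1) ≤ n ∧
        m * (2 * (p ^ j * q) + 3) ≤ n ∧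
        N * ((q - 1) * (q - 2) / 2) + u₀ + θ = p ^ (j + 1) * TT ∧
        (θ : ℝ) - p ^ j ≤ ((q : ℝ) - 1) * N / 2 - T ∧
        ((q : ℝ) - 1) * N / 2 + T ≤ (θ : ℝ) + p ^ j ∧
        (q : ℝ) ^ N * π₀ ≤ (cnt q (Fin N) (θ - 1) : ℝ) ∧
        (1 - π₀) ^ r ≤ 1 / 4 ∧
        r * (N * sg q) ≤ T ^ 2 / 4 ∧
        ∀ s : ℝ, 1 ≤ s → ((1 : ℝ) / 4) ^ m ≤ s *
          (2 ^ m * ((2 * (q : ℝ) - 1) / (2 * q)) ^ τ +
            (Fintype.card {A : Finset (Fin (n / ((q - 1) * τ) + 1)) // A.card ≤ m} : ℝ) *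
            ((cnt q ((Fin m × Fin 2) × Fin N) (2 * m * (θ - 1) + m * (2 * ((q - 1) * τ))) : ℝ) /
              (q : ℝ) ^ (m * 2 * N))) →
          (2 : ℝ) ^ (c₀ * √(n : ℝ)) ≤ s := by
  have hq' : (2 : ℝ) ≤ q := by exact_mod_cast hq
  have hs := sg_lower q hq
  have hsu := sg_upper q
  have hs0 : 0 < sg q := by nlinarith
  obtain ⟨l₀, hl₀, hup⟩ := cnt_upper q hq (1 / 10) (by norm_num)
  obtain ⟨a₀, ha₀, hlow⟩ := cnt_lower q hq (1 / 10) (by norm_num)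
  obtain ⟨G, a, hG, haa, ha, haG, hexp⟩ := choose_G q hq a₀ ha₀
  obtain ⟨N₀, hN₀⟩ := hlow (1.01 * a) (by nlinarith)
  obtain ⟨r, π₀, hπ, hπ0, hπ1, hr0, hr2, hrG, hπr⟩ := choose_r q hq G a hG haG
  obtain ⟨c, hc2, hac, hchalf, hcq⟩ := choose_c q hq r hr0 G a ha haG hrG
  obtain ⟨n₀, hn₀⟩ := choose_N q hq r hr0 a c l₀ ha (by linarith) hl₀ hs0 N₀
  refine ⟨a / (320 * q * (q - 1)) * √(1 / (4 * r * (q : ℝ) ^ 2)), ?_, n₀, ?_⟩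
  · have h1 : 0 < (q : ℝ) - 1 := by linarith
    have h2 : 0 < √(1 / (4 * (r : ℝ) * (q : ℝ) ^ 2)) := by
      apply Real.sqrt_pos.mpr
      positivity
    positivity
  intro n hn
  obtain ⟨N, hNN, hN1, hnlow, hnup, hR1, hR2, hR3, hR4, hR5⟩ := hn₀ n hn
  have hlow' : ∀ D : ℕ, ((q : ℝ) - 1) * N / 2 - 1.01 * a * √(N : ℝ) ≤ D →
      (q : ℝ) ^ N * π₀ ≤ (cnt q (Fin N) D : ℝ) := fun D hD => by
    rw [hπ]
    exact hN₀ N hNN D hD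
  obtain ⟨m, j, u₀, θ, τ, TT, T, h1, h2, h3, h4, h5, h6, h7, h8, h9, h10, h11, h12, h13⟩ :=
    param_inner q p hq hp hpq l₀ hl₀ hup G a c hG ha haG hexp π₀ r hr0 hr2 hc2 hac hchalf hcq
      n N hN1 hnlow hnup hR1 hR2 hR3 hR4 hR5 hlow'
  exact ⟨m, N, j, r, u₀, θ, τ, TT, T, π₀, hr0, h1, h2, h3, h4, h5, hπ0.le, hπ1, h6, h7, h8, h9,
    h10, h11, hπr, h12, h13⟩

end Vale.Agent.P346.FK
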