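import Vale.Agent.P346.K.CoreK
import Vale.Agent.P346.K.ParamK
import Vale.Agent.P346.Exist

/-!
# P346 (all finite fields): the main theorem
-/

namespace Vale.Agent.P346.FK

theorem mainK (K : Type) [Field K] [Finite K] :
    ∃ c₀ > (0 : ℝ), ∃ n₀ : ℕ, ∀ n ≥ n₀, ∀ hn : 0 < n,
      (2 : ℝ) ^ (c₀ * √(n : ℝ)) ≤ (minSize K n hn : ℝ) := by
  classical
  have : Fintype K := Fintype.ofFinite K
  obtain ⟨p, hp⟩ := CharP.exists K
  have hprime : p.Prime := CharP.char_is_prime K p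
  have : Fact p.Prime := ⟨hprime⟩
  have hq2 : 2 ≤ Fintype.card K := Fintype.one_lt_card
  have hpq : p ≤ Fintype.card K := by
    obtain ⟨k, _, hk⟩ := FiniteField.card K p
    rw [hk]
    exact Nat.le_self_pow k.pos.ne' p
  obtain ⟨c₀, hc₀, n₀, h⟩ := paramK (Fintype.card K) p hq2 hprime.two_le hpq
  refine ⟨c₀, hc₀, n₀, fun n hn0 hn => ?_⟩
  obtain ⟨m, N, j, r, u₀, θ, τ, TT, T, π₀, hr, hτ, hm, hTT, hθ, hT, hπ, hπ1, h1, h2, h3, h4, h5,
    h6, h7, h8, h9⟩ := h n hn0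
  obtain ⟨c, hc⟩ := exists_goodK (K := K) N θ r T π₀ hT hπ hπ1 h6 hθ h7 h8
  have hne : {s | ∃ C : Circuit K (IVar n n), C.Homogeneous ∧
      C.out = IMM K n n hn ∧ C.size = s}.Nonempty := by
    obtain ⟨C, g1, g2⟩ := exists_circuit K n hn
    exact ⟨C.size, C, g1, g2, rfl⟩
  obtain ⟨C, hom, hC, hs⟩ := Nat.sInf_mem hne
  have hmin : C.size = minSize K n hn := hs
  rw [← hmin]
  refine h9 C.size ?_ ?_
  · have : 1 ≤ C.size := by
      rw [Circuit.size]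
      omega
    exact_mod_cast this
  · exact coreK p n hn C hom hC m N j r u₀ θ τ TT T hr hτ hm hTT hθ h1 h2 h3 h4 h5 c hc

end Vale.Agent.P346.FK
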