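import Vale.Agent.P346.K.AnK

/-!
# P346 (all finite fields): choice of the parameters, auxiliary inequalities
-/

namespace Vale.Agent.P346.FK

theorem pow_near (p : ℕ) (hp : 2 ≤ p) (B : ℝ) (hB : 1 ≤ B) :
    ∃ j : ℕ, B ≤ (p : ℝ) ^ j ∧ (p : ℝ) ^ j ≤ p * B := by
  obtain ⟨k, hk1, hk2⟩ := exists_nat_pow_near hB
    (show (1 : ℝ) < p by exact_mod_cast (by omega : 1 < p))
  refine ⟨k + 1, hk2.le, ?_⟩
  rw [pow_succ, mul_comm]
  gcongr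

theorem align (A M : ℕ) (hM : 0 < M) : ∃ u TT : ℕ, A + u = M * TT ∧ u ≤ M ∧ 1 ≤ TT := by
  refine ⟨M * (A / M + 1) - A, A / M + 1, ?_, ?_, Nat.le_add_left 1 _⟩
  · have := Nat.lt_mul_div_succ A hM
    omega
  · have h1 := Nat.div_mul_le_self A M
    rw [Nat.mul_add, Nat.mul_one]
    rw [mul_comm] at h1
    omega

theorem exp_four : (32 : ℝ) ≤ Real.exp 4 := by
  have h := Real.exp_one_gt_d9
  have h2 : Real.exp 4 = Real.exp 1 ^ 4 := by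
    rw [← Real.exp_nat_mul]
    norm_num
  rw [h2]
  calc (32 : ℝ) ≤ 2.7 ^ 4 := by norm_num
    _ ≤ Real.exp 1 ^ 4 := by
      gcongr
      linarith

theorem first_term (q : ℕ) (hq : 2 ≤ q) (m τ : ℕ) (h : 8 * q * m ≤ τ) :
    (2 : ℝ) ^ m * ((2 * (q : ℝ) - 1) / (2 * q)) ^ τ ≤ (1 / 16) ^ m := by
  have hq' : (2 : ℝ) ≤ q := by exact_mod_cast hq
  have h1 : (2 * (q : ℝ) - 1) / (2 * q) ≤ Real.exp (-(1 / (2 * q))) := by
    have := Real.add_one_le_exp (-(1 / (2 * (q : ℝ))))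
    refine le_trans (le_of_eq ?_) this
    field_simp
    ring
  have h0 : 0 ≤ (2 * (q : ℝ) - 1) / (2 * q) := by
    apply div_nonneg <;> linarith
  have h2 : ((2 * (q : ℝ) - 1) / (2 * q)) ^ τ ≤ Real.exp (-4) ^ m := by
    calc ((2 * (q : ℝ) - 1) / (2 * q)) ^ τ ≤ Real.exp (-(1 / (2 * q))) ^ τ := by gcongr
      _ = Real.exp (-(τ / (2 * q))) := by
        rw [← Real.exp_nat_mul]
        congr 1
        ring
      _ ≤ Real.exp (m * (-4)) := by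
        apply Real.exp_le_exp.mpr
        have h3 : (8 : ℝ) * q * m ≤ τ := by exact_mod_cast h
        have h4 : (4 : ℝ) * m ≤ τ / (2 * q) := by
          rw [le_div_iff₀ (by linarith)]
          linarith
        linarith
      _ = Real.exp (-4) ^ m := by
        rw [← Real.exp_nat_mul]
  calc (2 : ℝ) ^ m * ((2 * (q : ℝ) - 1) / (2 * q)) ^ τ ≤ 2 ^ m * Real.exp (-4) ^ m := by gcongr
    _ = (2 * Real.exp (-4)) ^ m := by rw [mul_pow]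
    _ ≤ (1 / 16) ^ m := by
      gcongr
      rw [Real.exp_neg]
      have := exp_four
      have h5 : (Real.exp 4)⁻¹ ≤ 32⁻¹ := by gcongr
      linarith

theorem sg_lower (q : ℕ) (hq : 2 ≤ q) : (q : ℝ) ^ 2 / 16 ≤ sg q := by
  have hq' : (2 : ℝ) ≤ q := by exact_mod_cast hq
  unfold sg
  nlinarith

theorem sg_upper (q : ℕ) : sg q ≤ (q : ℝ) ^ 2 / 12 := by
  unfold sg
  linarith

/-- The constant. -/
theorem choose_G (q : ℕ) (hq : 2 ≤ q) (a₀ : ℝ) (ha₀ : 0 < a₀) :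
    ∃ G a : ℝ, 1 ≤ G ∧ a₀ ≤ a ∧ 0 < a ∧ a ^ 2 = G * sg q ∧
      117964800 * (q : ℝ) ^ 2 ≤ Real.exp (0.175 * G) := by
  have hq' : (2 : ℝ) ≤ q := by exact_mod_cast hq
  have hs := sg_lower q hq
  have hs0 : 0 < sg q := by nlinarith
  set G : ℝ := 117964800 * (q : ℝ) ^ 2 / 0.175 + a₀ ^ 2 / sg q with hG
  have hx : 0 ≤ a₀ ^ 2 / sg q := by positivity
  have hy : 1 ≤ 117964800 * (q : ℝ) ^ 2 / 0.175 := by
    rw [le_div_iff₀ (by norm_num)]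
    nlinarith
  have hG1 : 1 ≤ G := by linarith
  have hGs : 0 ≤ G * sg q := by positivity
  have hGa : a₀ ^ 2 ≤ G * sg q := by
    calc a₀ ^ 2 = (a₀ ^ 2 / sg q) * sg q := by field_simp
      _ ≤ G * sg q := by
        gcongr
        linarith
  refine ⟨G, √(G * sg q), hG1, Real.le_sqrt_of_sq_le hGa, ?_, Real.sq_sqrt hGs, ?_⟩
  · exact lt_of_lt_of_le ha₀ (Real.le_sqrt_of_sq_le hGa)
  · have h1 := Real.add_one_le_exp (0.175 * G)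
    have h2 : 117964800 * (q : ℝ) ^ 2 ≤ 0.175 * G := by
      rw [hG]
      have : 0.175 * (117964800 * (q : ℝ) ^ 2 / 0.175 + a₀ ^ 2 / sg q) =
        117964800 * (q : ℝ) ^ 2 + 0.175 * (a₀ ^ 2 / sg q) := by ring
      rw [this]
      linarith
    linarith


theorem ratio_bound (q n N m τ r : ℕ) (hq : 2 ≤ q) (hN : 1 ≤ N) (a G : ℝ) (ha : 0 < a)
    (hG : 1 ≤ G) (haG : a ^ 2 = G * sg q) (hn : n ≤ 4 * r * q ^ 2 * N)
    (hτ : a * √(N : ℝ) ≤ 20 * (q - 1) * τ) (hm : τ ≤ 16 * q * m) (hm1 : 1 ≤ m)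
    (hnt : (q - 1) * τ ≤ n) (hτ1 : 1 ≤ τ) :
    ((n / ((q - 1) * τ) + 1 : ℕ) : ℝ) / m ≤ 819200 * (q : ℝ) ^ 2 * r / G := by
  have hq' : (2 : ℝ) ≤ q := by exact_mod_cast hq
  have hs := sg_lower q hq
  have hq1 : ((q - 1 : ℕ) : ℝ) = (q : ℝ) - 1 := by
    rw [Nat.cast_sub (by omega)]
    norm_num
  have hτ' : (0 : ℝ) < τ := by exact_mod_cast hτ1
  have hm' : (0 : ℝ) < m := by exact_mod_cast hm1
  have hqp : (0 : ℝ) < (q : ℝ) - 1 := by linarith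
  have hN' : (0 : ℝ) < N := by exact_mod_cast hN
  -- the number of groups
  have h1 : ((n / ((q - 1) * τ) + 1 : ℕ) : ℝ) ≤ 2 * n / (((q : ℝ) - 1) * τ) := by
    have h2 : ((n / ((q - 1) * τ) : ℕ) : ℝ) ≤ (n : ℝ) / (((q : ℝ) - 1) * τ) := by
      have := @Nat.cast_div_le ℝ _ _ _ n ((q - 1) * τ)
      rwa [Nat.cast_mul, hq1] at this
    have h3 : (1 : ℝ) ≤ (n : ℝ) / (((q : ℝ) - 1) * τ) := by
      rw [le_div_iff₀ (by positivity), one_mul]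
      have : (((q - 1) * τ : ℕ) : ℝ) ≤ n := by exact_mod_cast hnt
      rwa [Nat.cast_mul, hq1] at this
    push_cast
    have h4 : 2 * (n : ℝ) / (((q : ℝ) - 1) * τ) =
        (n : ℝ) / (((q : ℝ) - 1) * τ) + (n : ℝ) / (((q : ℝ) - 1) * τ) := by ring
    rw [h4]
    linarith
  have hn' : (n : ℝ) ≤ 4 * r * (q : ℝ) ^ 2 * N := by exact_mod_cast hn
  have hmr : (τ : ℝ) ≤ 16 * q * m := by exact_mod_cast hm
  -- squares
  have h5 : a ^ 2 * N ≤ 400 * ((q : ℝ) - 1) ^ 2 * (τ : ℝ) ^ 2 := by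
    have h6 : (a * √(N : ℝ)) ^ 2 ≤ (20 * (q - 1) * τ) ^ 2 := by
      have : 0 ≤ a * √(N : ℝ) := by positivity
      gcongr
    rw [mul_pow, Real.sq_sqrt hN'.le] at h6
    calc a ^ 2 * N ≤ _ := h6
      _ = _ := by ring
  rw [div_le_div_iff₀ hm' (by linarith)]
  have h7 : ((n / ((q - 1) * τ) + 1 : ℕ) : ℝ) * G ≤ 2 * n / (((q : ℝ) - 1) * τ) * G := by
    gcongr
  refine le_trans h7 ?_
  rw [div_mul_eq_mul_div, div_le_iff₀ (by positivity)]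
  -- 2 n G ≤ 819200 q^2 r m (q-1) τ
  have h8 : G * ((q : ℝ) ^ 2 / 16) * N ≤ 400 * ((q : ℝ) - 1) ^ 2 * (τ : ℝ) ^ 2 := by
    calc G * ((q : ℝ) ^ 2 / 16) * N ≤ G * sg q * N := by gcongr
      _ = a ^ 2 * N := by rw [haG]
      _ ≤ _ := h5
  have h9 : G * (N : ℝ) * (q : ℝ) ^ 2 ≤ 6400 * ((q : ℝ) - 1) ^ 2 * (τ : ℝ) ^ 2 := by
    linarith
  calc 2 * (n : ℝ) * G ≤ 2 * (4 * r * (q : ℝ) ^ 2 * N) * G := by gcongr
    _ = 8 * r * (G * (N : ℝ) * (q : ℝ) ^ 2) := by ring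
    _ ≤ 8 * r * (6400 * ((q : ℝ) - 1) ^ 2 * (τ : ℝ) ^ 2) := by gcongr
    _ = 51200 * r * ((q : ℝ) - 1) * τ * (((q : ℝ) - 1) * τ) := by ring
    _ ≤ 51200 * r * ((q : ℝ) - 1) * τ * ((q : ℝ) * (16 * q * m)) := by
      gcongr
      linarith
    _ = 819200 * (q : ℝ) ^ 2 * r * m * (((q : ℝ) - 1) * τ) := by ring

theorem second_term (q : ℕ) (hq : 2 ≤ q) (l₀ : ℝ)
    (hcnt : ∀ (V : Type) [Fintype V] [DecidableEq V] (D : ℕ) (l : ℝ), 0 ≤ l → l ≤ l₀ →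
      (cnt q V D : ℝ) ≤ (q : ℝ) ^ Fintype.card V *
        Real.exp (-(l * (((q : ℝ) - 1) * Fintype.card V / 2 - D)) +
          Fintype.card V * (l ^ 2 * sg q * (1 + 1 / 10) / 2)))
    (n N m τ r θ : ℕ) (hN : 1 ≤ N) (a G : ℝ) (ha : 0 < a)
    (hG : 1 ≤ G) (haG : a ^ 2 = G * sg q)
    (hexp : 117964800 * (q : ℝ) ^ 2 ≤ Real.exp (0.175 * G))
    (hr : (r : ℝ) ≤ 3 * Real.exp (0.5611 * G))
    (hn : n ≤ 4 * r * q ^ 2 * N)
    (hτ : a * √(N : ℝ) ≤ 20 * (q - 1) * τ) (hm : τ ≤ 16 * q * m) (hm1 : 1 ≤ m)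
    (hnt : (q - 1) * τ ≤ n) (hτ1 : 1 ≤ τ)
    (hτ2 : 10 * ((q : ℝ) - 1) * τ ≤ a * √(N : ℝ))
    (hmL : m ≤ n / ((q - 1) * τ) + 1)
    (hθ : (θ : ℝ) ≤ ((q : ℝ) - 1) * N / 2 - a * √(N : ℝ)) (hθ1 : 1 ≤ θ)
    (hl : 0.9 * a / (1.1 * sg q * √(N : ℝ)) ≤ l₀) :
    (Fintype.card {A : Finset (Fin (n / ((q - 1) * τ) + 1)) // A.card ≤ m} : ℝ) *
      ((cnt q ((Fin m × Fin 2) × Fin N) (2 * m * (θ - 1) + m * (2 * ((q - 1) * τ))) : ℝ) /
        (q : ℝ) ^ (m * 2 * N)) ≤ (1 / 16) ^ m := by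
  have hq' : (2 : ℝ) ≤ q := by exact_mod_cast hq
  have hs := sg_lower q hq
  have hs0 : 0 < sg q := by nlinarith
  have hm' : (0 : ℝ) < m := by exact_mod_cast hm1
  have hN' : (0 : ℝ) < N := by exact_mod_cast hN
  have hR : 0 < √(N : ℝ) := Real.sqrt_pos.mpr hN'
  have hRR : √(N : ℝ) * √(N : ℝ) = N := Real.mul_self_sqrt hN'.le
  have hq1 : ((q - 1 : ℕ) : ℝ) = (q : ℝ) - 1 := by
    rw [Nat.cast_sub (by omega)]
    norm_num
  set l : ℝ := 0.9 * a / (1.1 * sg q * √(N : ℝ)) with hldef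
  have hl0 : 0 ≤ l := by positivity
  have h1 := hcnt ((Fin m × Fin 2) × Fin N) (2 * m * (θ - 1) + m * (2 * ((q - 1) * τ))) l hl0 hl
  have hcard : Fintype.card ((Fin m × Fin 2) × Fin N) = m * 2 * N := by simp
  rw [hcard] at h1
  have hD : ((2 * m * (θ - 1) + m * (2 * ((q - 1) * τ)) : ℕ) : ℝ) =
      2 * m * ((θ : ℝ) - 1) + m * (2 * (((q : ℝ) - 1) * τ)) := by
    push_cast [Nat.cast_sub hθ1]
    rw [hq1]
  rw [hD] at h1
  -- the exponent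
  have h2 : -(l * (((q : ℝ) - 1) * ((m * 2 * N : ℕ) : ℝ) / 2 -
      (2 * m * ((θ : ℝ) - 1) + m * (2 * (((q : ℝ) - 1) * τ))))) +
      ((m * 2 * N : ℕ) : ℝ) * (l ^ 2 * sg q * (1 + 1 / 10) / 2) ≤ m * (-(0.7361 * G)) := by
    have h3 : 1.8 * m * (a * √(N : ℝ)) ≤ ((q : ℝ) - 1) * ((m * 2 * N : ℕ) : ℝ) / 2 -
      (2 * m * ((θ : ℝ) - 1) + m * (2 * (((q : ℝ) - 1) * τ))) := by
      push_cast
      have h4 : 1.8 * (a * √(N : ℝ)) ≤ ((q : ℝ) - 1) * N -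
          (2 * ((θ : ℝ) - 1) + (2 * (((q : ℝ) - 1) * τ))) := by
        nlinarith
      calc 1.8 * m * (a * √(N : ℝ)) = m * (1.8 * (a * √(N : ℝ))) := by ring
        _ ≤ m * (((q : ℝ) - 1) * N - (2 * ((θ : ℝ) - 1) + (2 * (((q : ℝ) - 1) * τ)))) := by
          gcongr
        _ = _ := by ring
    have h5 : l * (1.8 * m * (a * √(N : ℝ))) ≤ l * (((q : ℝ) - 1) * ((m * 2 * N : ℕ) : ℝ) / 2 -
      (2 * m * ((θ : ℝ) - 1) + m * (2 * (((q : ℝ) - 1) * τ)))) := by gcongr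
    have h6 : l * (1.8 * m * (a * √(N : ℝ))) = m * (1.62 / 1.1 * G) := by
      rw [hldef]
      have : 0.9 * a / (1.1 * sg q * √(N : ℝ)) * (1.8 * m * (a * √(N : ℝ))) =
          m * (1.62 / 1.1 * (a ^ 2 / sg q)) := by
        field_simp
        ring
      rw [this, haG]
      congr 2
      field_simp
    have h7 : ((m * 2 * N : ℕ) : ℝ) * (l ^ 2 * sg q * (1 + 1 / 10) / 2) =
        m * (0.81 / 1.1 * G) := by
      rw [hldef]
      push_cast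
      have : (m : ℝ) * 2 * N * ((0.9 * a / (1.1 * sg q * √(N : ℝ))) ^ 2 * sg q *
          (1 + 1 / 10) / 2) = m * (0.81 / 1.1 * (a ^ 2 / sg q)) * (N / (√(N : ℝ) * √(N : ℝ))) := by
        field_simp
        ring
      rw [this, hRR, haG]
      field_simp
    rw [h7]
    rw [h6] at h5
    have h8 : m * (1.62 / 1.1 * G) - m * (0.81 / 1.1 * G) ≥ m * (0.7361 * G) := by
      have : (m : ℝ) * (1.62 / 1.1 * G) - m * (0.81 / 1.1 * G) = m * ((0.81 / 1.1) * G) := by ring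
      rw [this]
      gcongr
      norm_num
    linarith
  have h9 : (cnt q ((Fin m × Fin 2) × Fin N) (2 * m * (θ - 1) + m * (2 * ((q - 1) * τ))) : ℝ) /
        (q : ℝ) ^ (m * 2 * N) ≤ Real.exp (-(0.7361 * G)) ^ m := by
    rw [div_le_iff₀ (by positivity), ← Real.exp_nat_mul]
    refine le_trans h1 ?_
    rw [mul_comm (Real.exp ((m : ℝ) * -(0.7361 * G)))]
    gcongr
  have h10 := card_small_subsets (n / ((q - 1) * τ) + 1) m hm1 hmL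
  have h11 := ratio_bound q n N m τ r hq hN a G ha hG haG hn hτ hm hm1 hnt hτ1
  have h12 : Real.exp 1 * ((n / ((q - 1) * τ) + 1 : ℕ) : ℝ) / m * Real.exp (-(0.7361 * G)) ≤
      1 / 16 := by
    have he : Real.exp 1 ≤ 3 := by
      have := Real.exp_one_lt_d9
      linarith
    have h13 : Real.exp 1 * ((n / ((q - 1) * τ) + 1 : ℕ) : ℝ) / m ≤
        3 * (819200 * (q : ℝ) ^ 2 * (3 * Real.exp (0.5611 * G)) / 1) := by
      rw [mul_div_assoc]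
      have h14 : ((n / ((q - 1) * τ) + 1 : ℕ) : ℝ) / m ≤
          819200 * (q : ℝ) ^ 2 * (3 * Real.exp (0.5611 * G)) / 1 := le_trans h11 (by gcongr)
      exact mul_le_mul he h14 (by positivity) (by norm_num)
    calc Real.exp 1 * ((n / ((q - 1) * τ) + 1 : ℕ) : ℝ) / m * Real.exp (-(0.7361 * G))
        ≤ 3 * (819200 * (q : ℝ) ^ 2 * (3 * Real.exp (0.5611 * G)) / 1) *
          Real.exp (-(0.7361 * G)) := by gcongr
      _ = (117964800 * (q : ℝ) ^ 2) / 16 * (Real.exp (0.5611 * G) * Real.exp (-(0.7361 * G))) := by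
        ring
      _ = (117964800 * (q : ℝ) ^ 2) / 16 * Real.exp (-(0.175 * G)) := by
        rw [← Real.exp_add]
        congr 2
        ring
      _ ≤ Real.exp (0.175 * G) / 16 * Real.exp (-(0.175 * G)) := by gcongr
      _ = 1 / 16 := by
        rw [div_mul_eq_mul_div, ← Real.exp_add]
        simp
  calc (Fintype.card {A : Finset (Fin (n / ((q - 1) * τ) + 1)) // A.card ≤ m} : ℝ) *
      ((cnt q ((Fin m × Fin 2) × Fin N) (2 * m * (θ - 1) + m * (2 * ((q - 1) * τ))) : ℝ) /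
        (q : ℝ) ^ (m * 2 * N)) ≤
      (Real.exp 1 * ((n / ((q - 1) * τ) + 1 : ℕ) : ℝ) / m) ^ m * Real.exp (-(0.7361 * G)) ^ m := by
        gcongr
    _ = (Real.exp 1 * ((n / ((q - 1) * τ) + 1 : ℕ) : ℝ) / m * Real.exp (-(0.7361 * G))) ^ m := by
        rw [mul_pow]
    _ ≤ (1 / 16) ^ m := by gcongr

/-- The last clause: the inequality forces exponential size. -/
theorem final_clause (m : ℕ) (hm : 1 ≤ m) (X Y s e : ℝ) (hs : 1 ≤ s) (hX : X ≤ (1 / 16) ^ m)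
    (hY : Y ≤ (1 / 16) ^ m) (h : ((1 : ℝ) / 4) ^ m ≤ s * (X + Y)) (he : e ≤ m) :
    (2 : ℝ) ^ e ≤ s := by
  have h1 : ((1 : ℝ) / 4) ^ m ≤ s * (2 * (1 / 16) ^ m) := by
    refine le_trans h ?_
    gcongr
    linarith
  have h2 : (4 : ℝ) ^ m ≤ 2 * s := by
    have h3 : ((1 : ℝ) / 4) ^ m * 16 ^ m ≤ s * (2 * (1 / 16) ^ m) * 16 ^ m := by gcongr
    have h4 : ((1 : ℝ) / 4) ^ m * 16 ^ m = 4 ^ m := by
      rw [← mul_pow]
      norm_num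
    have h5 : s * (2 * ((1 : ℝ) / 16) ^ m) * 16 ^ m = 2 * s := by
      have : ((1 : ℝ) / 16) ^ m * 16 ^ m = 1 := by
        rw [← mul_pow]
        norm_num
      calc s * (2 * ((1 : ℝ) / 16) ^ m) * 16 ^ m = 2 * s * (((1 : ℝ) / 16) ^ m * 16 ^ m) := by ring
        _ = 2 * s := by rw [this, mul_one]
    rw [h4, h5] at h3
    exact h3
  have h6 : (4 : ℝ) ^ m = 2 ^ m * 2 ^ m := by
    rw [← mul_pow]
    norm_num
  have h7 : (2 : ℝ) ≤ 2 ^ m := by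
    calc (2 : ℝ) = 2 ^ 1 := by norm_num
      _ ≤ 2 ^ m := by
        gcongr
        norm_num
  have h8 : (2 : ℝ) ^ m ≤ s := by
    have h9 : (2 : ℝ) * 2 ^ m ≤ 2 ^ m * 2 ^ m := by gcongr
    linarith
  calc (2 : ℝ) ^ e ≤ (2 : ℝ) ^ (m : ℝ) := by
        apply Real.rpow_le_rpow_of_exponent_le (by norm_num) he
    _ = 2 ^ m := Real.rpow_natCast _ _
    _ ≤ s := h8

theorem theta_pos (Q R a : ℝ) (hQ : 1 ≤ Q) (ha : 0 < a) (hR2 : 2 * a + 2 ≤ R) :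
    1 ≤ Q * R ^ 2 / 2 - a * R := by
  have h1 : R ^ 2 ≤ Q * R ^ 2 := by nlinarith [sq_nonneg R]
  have h2 : 1 ≤ R * (R / 2 - a) := by nlinarith
  nlinarith

/-- The rank threshold. -/
theorem tau_facts (q : ℕ) (hq : 2 ≤ q) (x : ℝ) (hx : 320 * (q : ℝ) ^ 2 ≤ x) (τ : ℕ)
    (hτ : τ = ⌊x / (10 * ((q : ℝ) - 1))⌋₊) :
    10 * ((q : ℝ) - 1) * τ ≤ x ∧ x ≤ 20 * ((q : ℝ) - 1) * τ ∧ 16 * q ≤ τ := by
  have hq' : (2 : ℝ) ≤ q := by exact_mod_cast hq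
  have hq1 : (1 : ℝ) ≤ (q : ℝ) - 1 := by linarith
  have hx0 : 0 ≤ x := le_trans (by positivity) hx
  have hτu : 10 * ((q : ℝ) - 1) * τ ≤ x := by
    have h1 : (τ : ℝ) ≤ x / (10 * ((q : ℝ) - 1)) := by
      rw [hτ]
      exact Nat.floor_le (by positivity)
    rw [le_div_iff₀ (by positivity)] at h1
    linarith
  have hτl : x ≤ 20 * ((q : ℝ) - 1) * τ := by
    have h1 : x / (10 * ((q : ℝ) - 1)) < (τ : ℝ) + 1 := by
      rw [hτ]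
      exact Nat.lt_floor_add_one _
    rw [div_lt_iff₀ (by positivity)] at h1
    have h2 : 20 * ((q : ℝ) - 1) ≤ x := by nlinarith
    linarith
  refine ⟨hτu, hτl, ?_⟩
  have hτ16' : 16 * (q : ℝ) ≤ τ := by
    have h1 : 16 * (q : ℝ) ^ 2 ≤ ((q : ℝ) - 1) * τ := by linarith
    have h2 : ((q : ℝ) - 1) * τ ≤ q * τ := by
      have : (0 : ℝ) ≤ τ := Nat.cast_nonneg _
      nlinarith
    have h3 : (q : ℝ) * (16 * q) ≤ q * τ := by linarith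
    exact le_of_mul_le_mul_left h3 (by linarith)
  exact_mod_cast hτ16'

/-- The order. -/
theorem m_facts (q : ℕ) (hq : 2 ≤ q) (x : ℝ) (τ m : ℕ) (hτu : 10 * ((q : ℝ) - 1) * τ ≤ x)
    (h16 : 16 * q ≤ τ) (hm : m = τ / (8 * q)) :
    8 * q * m ≤ τ ∧ 1 ≤ m ∧ τ ≤ 16 * q * m ∧ (m : ℝ) * (q : ℝ) ^ 2 ≤ x / 40 := by
  have hq' : (2 : ℝ) ≤ q := by exact_mod_cast hq
  have h8q : 0 < 8 * q := by omega
  have hmτ : 8 * q * m ≤ τ := by
    rw [hm]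
    exact Nat.mul_div_le _ _
  have hm2 : 2 ≤ m := by
    rw [hm]
    exact (Nat.le_div_iff_mul_le h8q).mpr (by linarith)
  refine ⟨hmτ, by omega, ?_, ?_⟩
  · have h1 := Nat.lt_mul_div_succ τ h8q
    rw [← hm] at h1
    nlinarith
  · have h1 : 8 * (q : ℝ) * m ≤ τ := by exact_mod_cast hmτ
    have h2 : 10 * ((q : ℝ) - 1) * (8 * (q : ℝ) * m) ≤ x := by
      refine le_trans ?_ hτu
      gcongr
      linarith
    have h3 : (q : ℝ) ^ 2 ≤ 2 * (q * ((q : ℝ) - 1)) := by nlinarith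
    have h4 : (0 : ℝ) ≤ m := Nat.cast_nonneg _
    have h5 : (m : ℝ) * (q : ℝ) ^ 2 ≤ m * (2 * (q * ((q : ℝ) - 1))) := by gcongr
    linarith

/-- The length fits. -/
theorem length_fits (q m P r : ℕ) (n a c R B : ℝ) (hq : 2 ≤ q) (hr : 1 ≤ r)
    (hac : a ≤ c) (hc : 1 / 2 ≤ c) (hcq : c ^ 2 ≤ r * (q : ℝ) ^ 2 / 12) (hR : 2 ≤ R)
    (hn : 2 * r * (q : ℝ) ^ 2 * R ^ 2 ≤ n) (hB : B ≤ (2 * c + a + 1) * R)
    (hP : (P : ℝ) ≤ q * B) (hm : (m : ℝ) * (q : ℝ) ^ 2 ≤ a * R / 40) :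
    (m : ℝ) * (2 * (P * q) + 3) ≤ n := by
  have hq' : (2 : ℝ) ≤ q := by exact_mod_cast hq
  have hm0 : (0 : ℝ) ≤ m := Nat.cast_nonneg _
  have hr1 : (1 : ℝ) ≤ r := by exact_mod_cast hr
  have hB2 : B ≤ 5 * c * R := by
    refine le_trans hB ?_
    gcongr
    linarith
  have h1 : 2 * ((P : ℝ) * q) + 3 ≤ 13 * (c * R) * (q : ℝ) ^ 2 := by
    have h2 : (P : ℝ) * q ≤ (q : ℝ) ^ 2 * (5 * c * R) := by
      calc (P : ℝ) * q ≤ (q * (5 * c * R)) * q := by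
            gcongr
            exact le_trans hP (by gcongr)
        _ = (q : ℝ) ^ 2 * (5 * c * R) := by ring
    have h3 : 1 ≤ c * R := by nlinarith
    have h4 : (4 : ℝ) ≤ (q : ℝ) ^ 2 := by nlinarith
    have h5 : 3 ≤ 3 * (c * R) * (q : ℝ) ^ 2 := by nlinarith
    calc 2 * ((P : ℝ) * q) + 3 ≤ 2 * ((q : ℝ) ^ 2 * (5 * c * R)) + 3 * (c * R) * (q : ℝ) ^ 2 := by
          linarith
      _ = _ := by ring
  calc (m : ℝ) * (2 * (P * q) + 3) ≤ m * (13 * (c * R) * (q : ℝ) ^ 2) := by gcongr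
    _ = (m * (q : ℝ) ^ 2) * (13 * (c * R)) := by ring
    _ ≤ (a * R / 40) * (13 * (c * R)) := by gcongr
    _ ≤ (c * R / 40) * (13 * (c * R)) := by gcongr
    _ = 13 / 40 * c ^ 2 * R ^ 2 := by ring
    _ ≤ 13 / 40 * (r * (q : ℝ) ^ 2 / 12) * R ^ 2 := by gcongr
    _ ≤ 2 * r * (q : ℝ) ^ 2 * R ^ 2 := by
      have : 0 ≤ (r : ℝ) * (q : ℝ) ^ 2 * R ^ 2 := by positivity
      linarith
    _ ≤ n := hn

/-- The width fits. -/
theorem width_fits (q r u M n N : ℕ) (a c R B : ℝ) (hq : 2 ≤ q) (hR : 2 ≤ R)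
    (hn : 2 * r * q ^ 2 * N ≤ n) (hRN : R ^ 2 = N) (hB : B ≤ (2 * c + a + 1) * R)
    (hR4 : 2 * c + a + 3 ≤ R) (hu : u ≤ M) (hM : (M : ℝ) ≤ (q : ℝ) ^ 2 * B) :
    r * (N * (q * q) + u + 1) ≤ n := by
  have hq' : (2 : ℝ) ≤ q := by exact_mod_cast hq
  have h1 : u + 1 ≤ q ^ 2 * N := by
    have hu' : (u : ℝ) ≤ M := by exact_mod_cast hu
    have h2 : (u : ℝ) + 1 ≤ (q : ℝ) ^ 2 * N := by
      rw [← hRN]
      have h3 : (q : ℝ) ^ 2 * B + 1 ≤ (q : ℝ) ^ 2 * (B + 1) := by nlinarith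
      have h4 : B + 1 ≤ R ^ 2 := by nlinarith
      have h5 : (q : ℝ) ^ 2 * (B + 1) ≤ (q : ℝ) ^ 2 * R ^ 2 := by gcongr
      linarith
    exact_mod_cast h2
  calc r * (N * (q * q) + u + 1) = r * (N * (q * q)) + r * (u + 1) := by ring
    _ ≤ r * (N * (q * q)) + r * (q ^ 2 * N) := by gcongr
    _ = 2 * r * q ^ 2 * N := by ring
    _ ≤ n := hn

end Vale.Agent.P346.FK
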